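import Mathlib

/-!
Statement-level definitions: polynomial time, probabilistic oracle computations, the counting
hierarchy, and the existential theory of the reals as a language of bit strings.
-/

namespace Vale.Agent.P337

open Turing

/-- Bit strings. -/
abbrev Str := List Bool

/-- Computable in polynomial time by a multi-stack Turing machine with finite alphabets. -/
def PolyTime (f : Str → Str) : Prop :=
  ∃ M : TM2ComputableInPolyTime id id f, ∀ k, Finite (M.tm.Γ k)

/-- The class P. -/
def ClassP : Set (Set Str) := {L | ∃ f, PolyTime f ∧ ∀ x, x ∈ L ↔ f x = [true]}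

/-- Pairing of strings. -/
def pair (x y : Str) : Str := x.flatMap (fun b => [true, b]) ++ false :: y

open Classical in
/-- The answers of the oracle `A` to the first `i` adaptive queries; each query is computed by `q`
from `w` and the earlier answers. -/
noncomputable def answers (A : Set Str) (q : Str → Str) (w : Str) : ℕ → Str
  | 0 => []
  | i + 1 => answers A q w i ++ [decide (q (pair w (answers A q w i)) ∈ A)]

/-- The class PP with oracle `A`: toss `p |x|` fair coins `y`, ask `p |x|` adaptive queries
computed in polynomial time, decide in polynomial time; accept with probability above one half. -/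
def PP (A : Set Str) : Set (Set Str) :=
  {L | ∃ (p : Polynomial ℕ) (q : Str → Str) (B : Set Str), PolyTime q ∧ B ∈ ClassP ∧ ∀ x, x ∈ L ↔
    2 ^ p.eval x.length < 2 * Set.ncard {y : Str | y.length = p.eval x.length ∧
      pair (pair x y) (answers A q (pair x y) (p.eval x.length)) ∈ B}}

/-- The levels of the counting hierarchy. -/
def Level : ℕ → Set (Set Str)
  | 0 => ClassP
  | j + 1 => ⋃ A ∈ Level j, PP A

/-- A polynomial: a list of monomials, each an integer coefficient and an exponent vector. -/
abbrev Poly := List (ℤ × List ℕ)

/-- The value of a polynomial at a real point. -/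
def Poly.val (p : Poly) (x : ℕ → ℝ) : ℝ :=
  (p.map fun m => (m.1 : ℝ) * ∏ i ∈ Finset.range m.2.length, x i ^ m.2.getD i 0).sum

/-- Quantifier-free formulas. -/
inductive Fm
  | eq (p : Poly)
  | pos (p : Poly)
  | and (a b : Fm)
  | or (a b : Fm)
  | not (a : Fm)

/-- Truth of a formula at a real point. -/
def Fm.Holds (x : ℕ → ℝ) : Fm → Prop
  | .eq p => p.val x = 0
  | .pos p => p.val x > 0
  | .and a b => a.Holds x ∧ b.Holds x
  | .or a b => a.Holds x ∨ b.Holds x
  | .not a => ¬ a.Holds x

/-- Code of a list from codes of the entries. -/
def codeList {α : Type} (c : α → Str) (l : List α) : Str :=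
  l.flatMap (fun a => true :: c a) ++ [false]

/-- Code of a polynomial: coefficients as a sign and binary digits, exponents in unary. -/
def Poly.code (p : Poly) : Str :=
  codeList (fun m => decide (m.1 < 0) :: (codeList (fun b => [b]) m.1.natAbs.bits ++
    codeList (fun e => List.replicate e true ++ [false]) m.2)) p

/-- Code of a formula in Polish form. -/
def Fm.code : Fm → Str
  | .eq p => [false, false, false] ++ p.code
  | .pos p => [false, false, true] ++ p.code
  | .and a b => [false, true, false] ++ (a.code ++ b.code)
  | .or a b => [false, true, true] ++ (a.code ++ b.code)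
  | .not a => [true, false, false] ++ a.code

/-- The language of true existential sentences over the reals. -/
def ETR : Set Str := {w | ∃ Φ : Fm, w = Φ.code ∧ ∃ x : ℕ → ℝ, Φ.Holds x}

end Vale.Agent.P337
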