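import Vale.Agent.Lib.CT.Rec
import Vale.Agent.P337.Defs

/-!
Polynomial time on raw strings from polynomial time on tree codes.
-/

namespace Vale.Agent.P337

open Vale.Agent.Lib.TM Function Turing

/-- A machine that first stores the raw input with markers and then runs a program. -/
def rawMachine (P : Prog) : FinTM2 where
  K := Fin 4
  k₀ := 0
  k₁ := 0
  Γ := fun _ => Bool
  Λ := Option P.Lab
  main := none
  ΛFin := letI := P.labFintype; inferInstance
  σ := Bool
  initialState := false
  m := fun l => match l with
    | none => .peek 0 (fun _ o => o.isSome) (.branch id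
        (.pop 0 (fun _ o => o.getD false) (.push 1 id (.push 1 (fun _ => true)
          (.load (fun _ => false) (.goto fun _ => none)))))
        (comp P some .halt))
    | some l => tbl P some .halt l

theorem raw_read (P : Prog) (l : List Bool) : ∀ a : List Bool,
    (flip bind (TM2.step (rawMachine P).m))^[l.length + 1] (some ⟨some none, false, st l a [] []⟩) =
      some (TM2.stepAux (comp P some .halt) false (st [] (dbl l a) [] [])) := by
  induction l with
  | nil => intro a; rfl
  | cons b l ih =>
    intro a
    have h : flip bind (TM2.step (rawMachine P).m)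
        (some ⟨some none, false, st (b :: l) a [] []⟩) =
        some ⟨some none, false, st l (true :: b :: a) [] []⟩ := by
      have h1 : update (update (update (st (b :: l) a [] []) 0 l) 1 (b :: a)) 1 (true :: b :: a) =
          st l (true :: b :: a) [] [] := by simp
      rw [← h1]
      rfl
    rw [List.length_cons, iterate_succ_apply, h]
    exact ih _

theorem raw_outputs (P : Prog) (inp out : List Bool) (c : ℕ)
    (h : Ex P (st [] (dbl inp []) [] []) (st out [] [] []) c) :
    Nonempty (TM2OutputsInTime (rawMachine P) inp (some out) (c + (inp.length + 1))) := by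
  obtain ⟨n, hn, h1⟩ := sim (rawMachine P).m h some .halt fun l => rfl
  refine ⟨{ steps := n + (inp.length + 1), steps_le_m := by omega, evals_in_steps := ?_ }⟩
  have h2 : (initList (rawMachine P) inp).stk = st inp [] [] [] := by
    funext (k : Fin 4)
    fin_cases k <;> rfl
  have h3 : (haltList (rawMachine P) out).stk = st out [] [] [] := by
    funext (k : Fin 4)
    fin_cases k <;> rfl
  have h4 : initList (rawMachine P) inp = ⟨some none, false, st inp [] [] []⟩ := by
    rw [← h2]; rfl
  rw [iterate_add_apply, h4]
  refine (congrArg _ (raw_read P inp [])).trans (h1.trans ?_)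
  rw [← h3]; rfl

/-- The code of the cells of a list of bits. -/
def rawCells : List Bool → List Bool
  | [] => []
  | b :: l => true :: true :: b :: (!b) :: false :: false :: rawCells l

theorem raw_code (l : List Bool) : (enc l).code = rawCells l ++ [false] := by
  induction l with
  | nil => rfl
  | cons b l ih =>
    rw [enc_cons, Tr.code, ih]
    cases b <;> rfl

/-- Write the code of one cell. -/
def rawPut (b : Bool) : Prog :=
  .seq (.pop 1) (.seq (.push 0 false) (.seq (.push 0 false) (.seq (.push 0 (!b))
    (.seq (.push 0 b) (.seq (.push 0 true) (.push 0 true))))))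

theorem raw_put (b : Bool) (m a : List Bool) : Ex (rawPut b) (st m (b :: a) [] [])
    (st (true :: true :: b :: (!b) :: false :: false :: m) a [] []) 0 :=
  ((Ex.pop 1 _).seq ((Ex.push 0 false _).seq ((Ex.push 0 false _).seq ((Ex.push 0 (!b) _).seq
    ((Ex.push 0 b _).seq ((Ex.push 0 true _).seq (Ex.push 0 true _))))))).cast rfl (by simp) le_rfl

/-- Write the code of the stored bits. -/
def rawPre : Prog := .loop 1 (.ite 1 (rawPut true) (rawPut false))

theorem raw_pre (l : List Bool) : ∀ (m a : List Bool) (S' : St) (n : ℕ),
    Ex rawPre (st (rawCells l ++ m) a [] []) S' n →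
      Ex rawPre (st m (dbl l a) [] []) S' (n + l.length) := by
  induction l with
  | nil => intro m a S' n h; exact h
  | cons b l ih =>
    intro m a S' n h
    refine (ih m (true :: b :: a) S' (n + 1) ?_).cast rfl rfl (by simp; omega)
    refine (Ex.iter (c := 0) (by simp) ?_ h).cast rfl rfl (by simp)
    cases b
    · exact Ex.iteF (by simp) ((raw_put false _ a).cast (by simp) rfl le_rfl)
    · exact Ex.iteT (by simp) ((raw_put true _ a).cast (by simp) rfl le_rfl)

/-- Store the bit of one cell. -/
def rawGet (b : Bool) : Prog :=
  .seq (.pop 0) (.seq (.pop 0) (.seq (.pop 0) (.seq (.pop 0) (.seq (.push 1 b) (.push 1 true)))))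

theorem raw_get (b : Bool) (m a : List Bool) : Ex (rawGet b)
    (st (b :: (!b) :: false :: false :: m) a [] []) (st m (true :: b :: a) [] []) 0 :=
  ((Ex.pop 0 _).seq ((Ex.pop 0 _).seq ((Ex.pop 0 _).seq ((Ex.pop 0 _).seq
    ((Ex.push 1 b _).seq (Ex.push 1 true _)))))).cast rfl (by simp) le_rfl

/-- Store the bits of a coded list. -/
def rawPost : Prog := .loop 0 (.seq (.pop 0) (.ite 0 (rawGet true) (rawGet false)))

theorem raw_post (l : List Bool) : ∀ (m a : List Bool) (S' : St) (n : ℕ),
    Ex rawPost (st m (dbl l a) [] []) S' n →
      Ex rawPost (st (rawCells l ++ m) a [] []) S' (n + l.length) := by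
  induction l with
  | nil => intro m a S' n h; exact h
  | cons b l ih =>
    intro m a S' n h
    refine (Ex.iter (c := 0) (by simp [rawCells]) ?_ (ih m _ S' n h)).cast rfl rfl
      (by simp)
    refine (Ex.pop 0 _).seq (c' := 0) ?_
    cases b
    · exact Ex.iteF (by simp [rawCells]) ((raw_get false _ a).cast (by simp [rawCells]) rfl le_rfl)
    · exact Ex.iteT (by simp [rawCells]) ((raw_get true _ a).cast (by simp [rawCells]) rfl le_rfl)

theorem raw_bd (C n : ℕ) : bd 0 C n ≤ (4 * n + 4) ^ C := by
  simp only [bd, lg, zero_add, pow_one]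
  rw [mul_comm, pow_mul]
  refine Nat.pow_le_pow_left ?_ _
  rcases Nat.eq_zero_or_pos n with rfl | hn
  · simp
  · have h2 := Nat.size_pos.mpr hn
    have h3 := Nat.lt_size.mp (show n.size - 1 < n.size by omega)
    rw [show n.size + 1 = n.size - 1 + 2 by omega, pow_add]
    omega

theorem polyTime_of_CT {f : Str → Str} (h : CT 0 f) : PolyTime f := by
  obtain ⟨p, t, h1, ⟨C, h2⟩, C', h3⟩ := h
  let P : Prog := .seq (.push 0 false) (.seq rawPre (.seq p (.seq rawPost (.seq (.pop 0)
    (back 1)))))
  have key : ∀ x : Str, Ex P (st [] (dbl x []) [] []) (st (f x) [] [] [])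
      (x.length + t x + 2 * (f x).length + 3) := fun x => by
    have k1 := raw_pre x [false] [] _ 1 (Ex.exit (by simp))
    have k2 := h1 x [] []
    rw [List.append_nil, List.append_nil, raw_code, raw_code] at k2
    have k3 := raw_post (f x) [false] [] _ 1 (Ex.exit (by simp))
    have k4 := ex_back1 (f x) [] [] [] [] _ 1 (Ex.exit (by simp))
    exact ((Ex.push 0 false _).seq ((k1.cast (by simp) rfl le_rfl).seq (k2.seq (k3.seq
      ((Ex.pop 0 _).seq (k4.cast (by simp) rfl le_rfl)))))).cast rfl (by simp) (by omega)
  refine ⟨{ tm := rawMachine P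
            inputAlphabet := Equiv.refl Bool
            outputAlphabet := Equiv.refl Bool
            time := 2 * Polynomial.X + 4 + (24 * Polynomial.X + 8) ^ C +
              2 * (24 * Polynomial.X + 8) ^ C'
            outputsFun := fun x => ?_ }, fun _ => (inferInstance : Finite Bool)⟩
  have e : ∀ L : List Bool, List.map (Equiv.refl Bool).invFun L = L := fun L => List.map_id L
  have k1 := (raw_outputs P _ _ _ (key x)).some
  have k2 : TM2OutputsInTime (rawMachine P) x (some (f x)) (Polynomial.eval x.length
      (2 * Polynomial.X + 4 + (24 * Polynomial.X + 8) ^ C + 2 * (24 * Polynomial.X + 8) ^ C')) := by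
    refine { k1 with steps_le_m := k1.steps_le_m.trans ?_ }
    have k3 := (h2 x).trans (raw_bd _ _)
    have k4 := (length_lt_sz (f x)).le.trans ((h3 x).trans (raw_bd _ _))
    rw [sz_bits, show 4 * (6 * x.length + 1) + 4 = 24 * x.length + 8 by ring] at k3 k4
    simp only [Polynomial.eval_pow, Polynomial.eval_add, Polynomial.eval_mul,
      Polynomial.eval_ofNat, Polynomial.eval_X]
    omega
  exact (e _).symm ▸ (e _).symm ▸ k2

end Vale.Agent.P337
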