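import Mathlib

/-!
The explicit algebraic formulas used by the algorithm: Newton's identities in closed form, residue
formulas for traces, and the sign gadget.
-/

namespace Vale.Agent.P337

open Finset

section Uni

open Polynomial

variable {A B : Type} [CommRing A] [CommRing B]

/-- A multiple of the truncated exponential of minus the power sum series. -/
noncomputable def newt (D : ℕ) (L : A) (p : ℕ → A) : A[X] :=
  ∑ r ∈ range (D + 1),
    C (((D.factorial / r.factorial : ℕ) : A) * (L * ((D.factorial : ℕ) : A)) ^ (D - r)) *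
    (-∑ j ∈ range D, C (p (j + 1) * ((D.factorial / (j + 1) : ℕ) : A)) * X ^ (j + 1)) ^ r

/-- A multiple of the value at `τ` of the monic polynomial with power sums `p j / L`. -/
noncomputable def nchi (D : ℕ) (L : A) (p : ℕ → A) (τ : A) : A :=
  ∑ i ∈ range (D + 1), (newt D L p).coeff i * τ ^ (D - i)

theorem map_newt (f : A →+* B) (D : ℕ) (L : A) (p : ℕ → A) :
    (newt D L p).map f = newt D (f L) fun j => f (p j) := by
  simp [newt, Polynomial.map_sum]

theorem map_nchi (f : A →+* B) (D : ℕ) (L : A) (p : ℕ → A) (τ : A) :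
    f (nchi D L p τ) = nchi D (f L) (fun j => f (p j)) (f τ) := by
  simp [nchi, ← map_newt]

/-- The residue at infinity of `φ / ψ`, scaled by a power of the leading coefficient. -/
noncomputable def rho1 (ψ : A[X]) (k B : ℕ) (φ : A[X]) : A :=
  ∑ m ∈ range B, ψ.coeff k ^ (B - m) *
    (φ * (C (ψ.coeff k) * X ^ k - ψ) ^ m).coeff (k * (m + 1) - 1)

theorem map_rho1 (f : A →+* B) (ψ : A[X]) (k b : ℕ) (φ : A[X]) :
    f (rho1 ψ k b φ) = rho1 (ψ.map f) k b (φ.map f) := by
  simp only [rho1, map_sum, map_mul, map_pow]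
  refine sum_congr rfl fun m _ => ?_
  rw [← coeff_map f (k * (m + 1) - 1)]
  simp [Polynomial.map_mul, Polynomial.map_pow, Polynomial.map_sub]

/-- A multiple of the product of `τ - G l` over the roots `l` of `ψ`. -/
noncomputable def cp (ψ G : ℤ[X]) (k B : ℕ) (τ : A) : A :=
  nchi k ((ψ.coeff k ^ (B + 1) : ℤ) : A)
    (fun j => ((rho1 ψ k B (G ^ j * derivative ψ) : ℤ) : A)) τ

/-- The product that is large for positive and small for negative arguments. -/
def piP (β K : ℕ) (g : A) : A := ∏ l ∈ range (2 * β + 1), (2 ^ β * g + 2 ^ l) ^ K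

/-- The sign gadget. -/
def gad (n β K : ℕ) (G : ℕ → A) (w : ℕ → ℕ) (t : ℕ) : A :=
  4 * (∑ j ∈ range (n + 1), ∏ i ∈ range (n + 1),
      (if i = j then 2 * (w j : A) * piP β K (G i) else piP β K (G i) + piP β K (-G i)) -
    (t : A) * ∏ i ∈ range (n + 1), (piP β K (G i) + piP β K (-G i))) ^ 2 -
  (∏ i ∈ range (n + 1), (piP β K (G i) + piP β K (-G i))) ^ 2

theorem map_gad (f : A →+* B) (n β K : ℕ) (G : ℕ → A) (w : ℕ → ℕ) (t : ℕ) :
    f (gad n β K G w t) = gad n β K (fun i => f (G i)) w t := by
  simp [gad, piP, apply_ite f, map_ofNat]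

/-- The weights of the hash. -/
def wt (n q c j : ℕ) : ℕ := if j = 0 then 2 * (n + 1) * q else c ^ j % q

/-- The test polynomial of the real root test. -/
noncomputable def tst (P : ℤ[X]) (n β K q c t : ℕ) : ℤ[X] :=
  gad n β K (fun j => derivative^[j] P) (wt n q c) (2 * (n + 1) * q + t)

end Uni

section Multi

open MvPolynomial

variable {A B : Type} [CommRing A] [CommRing B] {N : ℕ}

/-- The global residue of `φ` for the system `X i ^ k - h i`. -/
noncomputable def rho (k b : ℕ) (h : Fin N → MvPolynomial (Fin N) A) (φ : MvPolynomial (Fin N) A) :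
    A :=
  ∑ m ∈ Fintype.piFinset fun _ : Fin N => range b,
    coeff (Finsupp.equivFunOnFinite.symm fun i => k * (m i + 1) - 1) (φ * ∏ i, h i ^ m i)

/-- The Jacobian determinant of the system. -/
noncomputable def jac (k : ℕ) (h : Fin N → MvPolynomial (Fin N) A) : MvPolynomial (Fin N) A :=
  (Matrix.of fun i j => pderiv j (X i ^ k - h i)).det

theorem map_rho (f : A →+* B) (k b : ℕ) (h : Fin N → MvPolynomial (Fin N) A)
    (φ : MvPolynomial (Fin N) A) :
    f (rho k b h φ) = rho k b (fun i => map f (h i)) (map f φ) := by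
  simp only [rho, map_sum, ← coeff_map, map_mul, map_prod, map_pow]

theorem map_jac (f : A →+* B) (k : ℕ) (h : Fin N → MvPolynomial (Fin N) A) :
    map f (jac k h) = jac k fun i => map f (h i) := by
  rw [jac, jac, RingHom.map_det]
  congr 1
  ext1 i j
  simp only [RingHom.mapMatrix_apply, Matrix.map_apply, Matrix.of_apply, ← pderiv_map, map_sub,
    map_pow, map_X]

/-- Integer polynomials in `T` (inner variable) and `s` (outer variable). -/
abbrev A2 := Polynomial (Polynomial ℤ)

/-- The lower order terms of the critical point equations. -/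
noncomputable def hS (F : MvPolynomial (Fin N) ℤ) (i : Fin N) : MvPolynomial (Fin N) A2 :=
  -(C Polynomial.X * pderiv i (map (Int.castRingHom A2) F))

/-- The perturbed potential plus a linear form. -/
noncomputable def uS (F : MvPolynomial (Fin N) ℤ) (k c : ℕ) : MvPolynomial (Fin N) A2 :=
  ∑ i, X i ^ (k + 1) + ((k + 1 : ℕ) : MvPolynomial (Fin N) A2) * C Polynomial.X *
    map (Int.castRingHom A2) F + ∑ i : Fin N, (c : MvPolynomial (Fin N) A2) ^ (i.val + 1) * X i

/-- The characteristic polynomial of `uS` on the critical points. -/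
noncomputable def chi (F : MvPolynomial (Fin N) ℤ) (k b c : ℕ) : A2 :=
  nchi (k ^ N) 1 (fun j => rho k b (hS F) (uS F k c ^ j * jac k (hS F))) (Polynomial.C Polynomial.X)

end Multi

end Vale.Agent.P337
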