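import Vale.Agent.P337.Dec

/-!
The counting hierarchy on typed data: predicates `CH` and functions `FH`.
-/

namespace Vale.Agent.P337

open Vale.Agent.Lib.TM Function Finset

open Classical in
/-- The number of `y < N` with a property. -/
noncomputable def cnt (N : ℕ) (q : ℕ → Prop) : ℕ := ((range N).filter q).card

open Classical in
lemma cnt_eq_sum (N : ℕ) (q : ℕ → Prop) : cnt N q = ∑ y ∈ range N, if q y then 1 else 0 :=
  card_filter _ _

lemma cnt_congr {N : ℕ} {q q' : ℕ → Prop} (h : ∀ y < N, q y ↔ q' y) : cnt N q = cnt N q' := by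
  rw [cnt_eq_sum, cnt_eq_sum]
  exact sum_congr rfl fun y hy => by rw [propext (h y (mem_range.mp hy))]

lemma cnt_add (M N : ℕ) (q : ℕ → Prop) :
    cnt (M + N) q = cnt M q + cnt N fun y => q (M + y) := by
  simp only [cnt_eq_sum, sum_range_add]

lemma cnt_le (N : ℕ) (q : ℕ → Prop) : cnt N q ≤ N := by
  classical exact (card_filter_le _ _).trans (card_range N).le

lemma cnt_and_lt {N M : ℕ} (h : N ≤ M) (q : ℕ → Prop) :
    cnt M (fun y => y < N ∧ q y) = cnt N q := by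
  unfold cnt
  congr 1
  ext y
  simp only [mem_filter, mem_range]
  exact ⟨fun h => h.2, fun h' => ⟨by omega, h'⟩⟩

lemma cnt_lt {N M : ℕ} (h : N ≤ M) : cnt M (fun y => y < N) = N := by
  unfold cnt
  rw [← card_range N]
  congr 1
  ext y
  simp only [mem_filter, mem_range, card_range]
  omega

lemma cnt_not (N : ℕ) (q : ℕ → Prop) : cnt N q + cnt N (fun y => ¬ q y) = N := by
  rw [cnt_eq_sum, cnt_eq_sum, ← sum_add_distrib]
  rw [sum_congr rfl (g := fun _ => 1) fun y _ => by by_cases h : q y <;> simp [h]]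
  simp

lemma cnt_pos {N : ℕ} {q : ℕ → Prop} : 0 < cnt N q ↔ ∃ y < N, q y := by
  simp [cnt, card_pos, Finset.Nonempty]

/-- The levels, for predicates of trees. -/
def W : ℕ → (Tr → Prop) → Prop
  | 0, p => ∃ f : Tr → Bool, CT 0 f ∧ ∀ t, p t ↔ f t = true
  | j + 1, p => ∃ (n : Tr → ℕ) (q : Tr → Prop), CT 0 n ∧ Bd 0 n ∧ W j q ∧
      ∀ t, p t ↔ 2 ^ n t < 2 * cnt (2 ^ n t) fun y => q (.cons t (enc y))

lemma W.of_iff {j : ℕ} {p q : Tr → Prop} (h : W j p) (h' : ∀ t, p t ↔ q t) : W j q :=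
  (funext fun t => propext (h' t) : p = q) ▸ h

lemma W.comp {j : ℕ} {p : Tr → Prop} (h : W j p) {g : Tr → Tr} (hg : CT 0 g) :
    W j fun t => p (g t) := by
  induction j generalizing p g with
  | zero =>
    obtain ⟨f, h1, h2⟩ := h
    exact ⟨fun t => f (g t), h1.comp hg, fun t => h2 _⟩
  | succ j ih =>
    obtain ⟨n, q, h1, h2, h3, h4⟩ := h
    exact ⟨fun t => n (g t), fun s => q (.cons (g s.car) s.cdr), h1.comp hg, h2.comp hg.size,
      ih h3 (g := fun s => .cons (g s.car) s.cdr) (by fun_prop), fun t => h4 _⟩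

lemma W.succ {j : ℕ} {p : Tr → Prop} (h : W j p) : W (j + 1) p :=
  ⟨fun _ => 0, fun s => p s.car, CT.const _, Bd.const _, h.comp (g := Tr.car) (by fun_prop),
    fun t => by by_cases h : p t <;> simp [cnt_eq_sum, Tr.car, h]⟩

lemma W.mono {i j : ℕ} {p : Tr → Prop} (h : W i p) (hij : i ≤ j) : W j p := by
  induction hij with
  | refl => exact h
  | step _ ih => exact ih.succ

lemma W.ofCT (j : ℕ) {f : Tr → Bool} (hf : CT 0 f) : W j fun t => f t = true :=
  W.mono (i := 0) ⟨f, hf, fun _ => Iff.rfl⟩ (Nat.zero_le j)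

lemma W.join {j : ℕ} {p q : Tr → Prop} (hp : W j p) (hq : W j q) {c : Tr → Bool} (hc : CT 0 c) :
    W j fun t => bif c t then p t else q t := by
  induction j generalizing p q c with
  | zero =>
    obtain ⟨f, h1, h2⟩ := hp
    obtain ⟨g, k1, k2⟩ := hq
    exact ⟨fun t => bif c t then f t else g t, hc.cond h1 k1, fun t => by
      cases c t <;> simp [h2, k2]⟩
  | succ j ih =>
    obtain ⟨n, p', h1, h2, h3, h4⟩ := hp
    obtain ⟨m, q', k1, k2, k3, k4⟩ := hq
    refine ⟨fun t => bif c t then n t else m t, _, hc.cond h1 k1,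
      (h2.add k2).of_le fun t => by cases c t <;> simp,
      ih h3 k3 (c := fun s => c s.car) (by fun_prop), fun t => ?_⟩
    cases h : c t <;> simp [h, h4, k4, Tr.car]

lemma W.gt {j : ℕ} {q : Tr → Prop} (hq : W j q) {θ N : Tr → ℕ} (hθ : CT 0 θ) (hN : CT 0 N) :
    W (j + 1) fun t => θ t < cnt (N t) fun y => q (.cons t (enc y)) := by
  let n : Tr → ℕ := fun t => (θ t + N t).size
  have hn : CT 0 n := (hθ.add hN).natSize
  have hn' : Bd 0 n := (hθ.add hN).bd_size
  have hp : CT 0 fun s : Tr => 2 ^ n s.car := (CT.pow (CT.const 2) hn hn').comp (ct_car CT.id)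
  refine ⟨fun t => n t + 1, _, by fun_prop, hn'.add (Bd.const 1),
    hq.join (W.ofCT j (f := fun s => decide (2 ^ n s.car ≤ (dec s.cdr : ℕ)) &&
      decide ((dec s.cdr : ℕ) - 2 ^ n s.car < 2 ^ n s.car - θ s.car))
      ((ct_decLe hp (by fun_prop)).and (ct_decLt (CT.sub (by fun_prop) hp) (hp.sub (by fun_prop)))))
      (c := fun s => decide ((dec s.cdr : ℕ) < N s.car)) (by fun_prop), fun t => ?_⟩
  have h1 : θ t + N t < 2 ^ n t := Nat.lt_size_self _
  simp only [Tr.car, Tr.cdr, dec_enc]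
  rw [pow_succ, mul_two, cnt_add,
    cnt_congr (N := 2 ^ n t) (q' := fun y => y < N t ∧ q (.cons t (enc y))) fun y hy => ?_,
    cnt_and_lt (by omega),
    cnt_congr (N := 2 ^ n t) (q' := fun y => y < 2 ^ n t - θ t) fun y hy => ?_,
    cnt_lt (by omega)]
  · omega
  · have : ¬ 2 ^ n t + y < N t := by omega
    simp [this]
  · by_cases h : y < N t <;> simp [h]
    omega

lemma W.not {j : ℕ} {p : Tr → Prop} (h : W j p) : W j fun t => ¬ p t := by
  induction j generalizing p with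
  | zero =>
    obtain ⟨f, h1, h2⟩ := h
    exact ⟨fun t => !f t, h1.not, fun t => by simp [h2]⟩
  | succ j ih =>
    obtain ⟨n, q, h1, h2, h3, h4⟩ := h
    have hp : CT 0 fun t => 2 ^ n t := CT.pow (CT.const 2) h1 h2
    refine ((ih h3).gt (θ := fun t => (2 ^ n t - 1) / 2) (by fun_prop) hp).of_iff fun t => ?_
    have := cnt_not (2 ^ n t) fun y => q (.cons t (enc y))
    have := Nat.two_pow_pos (n t)
    rw [h4]
    omega

variable {α β γ : Type} [Enc α] [Enc β] [Enc γ] [Dec α] [Dec β] [Dec γ]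

/-- Predicates in the counting hierarchy. -/
def CH (p : α → Prop) : Prop := ∃ j, W j fun t => p (dec t)

lemma CH.of_iff {p q : α → Prop} (h : CH p) (h' : ∀ a, p a ↔ q a) : CH q :=
  (funext fun t => propext (h' t) : p = q) ▸ h

lemma CH.ofCT {f : α → Bool} (hf : CT 0 f) : CH fun a => f a = true :=
  ⟨0, W.ofCT 0 (hf.comp Dec.ct)⟩

lemma CH.compCT {p : β → Prop} (h : CH p) {g : α → β} (hg : CT 0 g) : CH fun a => p (g a) :=
  let ⟨j, h⟩ := h
  ⟨j, (h.comp (g := fun t => enc (g (dec t))) (ct_enc.comp (hg.comp Dec.ct))).of_iff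
    fun t => by simp⟩

lemma CH.join {p q : α → Prop} (hp : CH p) (hq : CH q) {c : α → Bool} (hc : CT 0 c) :
    CH fun a => bif c a then p a else q a :=
  let ⟨i, hp⟩ := hp
  let ⟨j, hq⟩ := hq
  ⟨max i j, (hp.mono (le_max_left _ _)).join (hq.mono (le_max_right _ _)) (hc.comp Dec.ct)⟩

lemma CH.gt {q : α × ℕ → Prop} (hq : CH q) {θ N : α → ℕ} (hθ : CT 0 θ) (hN : CT 0 N) :
    CH fun a => θ a < cnt (N a) fun y => q (a, y) :=
  let ⟨j, h⟩ := hq
  ⟨j + 1, (h.gt (hθ.comp Dec.ct) (hN.comp Dec.ct)).of_iff fun t => by simp [dec_pair]⟩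

lemma CH.not {p : α → Prop} (h : CH p) : CH fun a => ¬ p a :=
  let ⟨j, h⟩ := h
  ⟨j, h.not⟩

lemma CH.and {p q : α → Prop} (hp : CH p) (hq : CH q) : CH fun a => p a ∧ q a :=
  (((hp.compCT (g := fun s : α × ℕ => s.1) (by fun_prop)).join
    (hq.compCT (g := fun s : α × ℕ => s.1) (by fun_prop)) (c := fun s => s.2 == 0)
    (by fun_prop)).gt (CT.const 1) (CT.const 2)).of_iff fun a => by
      by_cases h : p a <;> by_cases h' : q a <;> simp [cnt_eq_sum, sum_range_succ, h, h']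

lemma CH.or {p q : α → Prop} (hp : CH p) (hq : CH q) : CH fun a => p a ∨ q a :=
  (hp.not.and hq.not).not.of_iff fun a => by tauto

lemma CH.imp {p q : α → Prop} (hp : CH p) (hq : CH q) : CH fun a => p a → q a :=
  (hp.not.or hq).of_iff fun a => by tauto

lemma CH.exCT {q : α × ℕ → Prop} (hq : CH q) {N : α → ℕ} (hN : CT 0 N) :
    CH fun a => ∃ y < N a, q (a, y) :=
  (hq.gt (CT.const 0) hN).of_iff fun _ => cnt_pos

/-- Existential quantifier with witnesses of polynomial size. -/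
lemma CH.ex_sz {q : α × β → Prop} (hq : CH q) {B : α → ℕ} (hB : Bd 0 B)
    (h : ∀ a b, q (a, b) → ∃ b', sz b' ≤ B a ∧ q (a, b')) : CH fun a => ∃ b, q (a, b) := by
  obtain ⟨u, h1, h2, h3⟩ := bd_ct (hB.add (Bd.const 1))
  refine ((hq.compCT (g := fun s : α × ℕ => (s.1, dec (parse s.2.bits))) (by fun_prop)).exCT
    (CT.pow (CT.const 2) h1 h2)).of_iff fun a => ⟨fun ⟨y, _, hy⟩ => ⟨_, hy⟩, fun ⟨b, hb⟩ => ?_⟩
  obtain ⟨b', k1, k2⟩ := h a b hb
  exact ⟨num b', (num_lt b').trans_le (Nat.pow_le_pow_right (by norm_num)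
    ((Nat.succ_le_succ k1).trans (h3 a))), by simpa only [dec_num] using k2⟩

/-- Functions in the counting hierarchy. -/
@[fun_prop]
def FH (f : α → β) : Prop := (Bd 0 fun a => sz (f a)) ∧ CH fun p : α × β => f p.1 = p.2

lemma FH.of_eq {f g : α → β} (h : FH f) (h' : ∀ a, f a = g a) : FH g :=
  (funext h' : f = g) ▸ h

@[fun_prop]
lemma FH.ofCT {f : α → β} (h : CT 0 f) : FH f :=
  ⟨h.size, (CH.ofCT (ct_eq (f := fun p : α × β => f p.1) (g := fun p => p.2) (by fun_prop)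
    (by fun_prop))).of_iff fun _ => by simp⟩

lemma CH.comp {p : β → Prop} (h : CH p) {g : α → β} (hg : FH g) : CH fun a => p (g a) :=
  ((hg.2.and (h.compCT (g := fun s : α × β => s.2) (by fun_prop))).ex_sz hg.1
    fun a b hb => ⟨b, (congrArg sz hb.1).ge, hb⟩).of_iff fun a => by simp

@[fun_prop]
lemma FH.id : FH fun a : α => a := .ofCT CT.id

@[fun_prop]
lemma FH.const (b : β) : FH fun _ : α => b := .ofCT (CT.const b)

@[fun_prop]
lemma FH.mk {f : α → β} {g : α → γ} (hf : FH f) (hg : FH g) : FH fun a => (f a, g a) :=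
  ⟨((hf.1.add hg.1).add (Bd.const 1)).of_le fun a => by simp,
    ((hf.2.compCT (g := fun s : α × β × γ => (s.1, s.2.1)) (by fun_prop)).and
      (hg.2.compCT (g := fun s : α × β × γ => (s.1, s.2.2)) (by fun_prop))).of_iff
      fun _ => by simp [Prod.ext_iff]⟩

lemma FH.compCT {f : β → γ} {g : α → β} (hf : FH f) (hg : CT 0 g) : FH fun a => f (g a) :=
  ⟨hf.1.comp hg.size, hf.2.compCT (g := fun s : α × γ => (g s.1, s.2)) (by fun_prop)⟩

@[fun_prop]
lemma FH.comp {f : β → γ} {g : α → β} (hf : FH f) (hg : FH g) : FH fun a => f (g a) :=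
  ⟨hf.1.comp hg.1, hf.2.comp (g := fun s : α × γ => (g s.1, s.2))
    ((hg.compCT (by fun_prop)).mk (.ofCT (by fun_prop)))⟩

@[fun_prop]
lemma FH.fst {f : α → β × γ} (hf : FH f) : FH fun a => (f a).1 :=
  (FH.ofCT (CT.fst CT.id)).comp hf

@[fun_prop]
lemma FH.snd {f : α → β × γ} (hf : FH f) : FH fun a => (f a).2 :=
  (FH.ofCT (CT.snd CT.id)).comp hf

lemma FH.op2 {δ : Type} [Enc δ] [Dec δ] {o : β → γ → δ} (ho : CT 0 fun p : β × γ => o p.1 p.2)
    {f : α → β} {g : α → γ} (hf : FH f) (hg : FH g) : FH fun a => o (f a) (g a) :=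
  (FH.ofCT ho).comp (hf.mk hg)

section
variable {f g : α → ℕ}

@[fun_prop] lemma FH.add (hf : FH f) (hg : FH g) : FH fun a => f a + g a :=
  FH.op2 (o := (· + ·)) (by fun_prop) hf hg
@[fun_prop] lemma FH.mul (hf : FH f) (hg : FH g) : FH fun a => f a * g a :=
  FH.op2 (o := (· * ·)) (by fun_prop) hf hg
@[fun_prop] lemma FH.sub (hf : FH f) (hg : FH g) : FH fun a => f a - g a :=
  FH.op2 (o := (· - ·)) (by fun_prop) hf hg
@[fun_prop] lemma FH.div (hf : FH f) (hg : FH g) : FH fun a => f a / g a :=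
  FH.op2 (o := (· / ·)) (by fun_prop) hf hg
@[fun_prop] lemma FH.mod (hf : FH f) (hg : FH g) : FH fun a => f a % g a :=
  FH.op2 (o := (· % ·)) (by fun_prop) hf hg

lemma FH.eb (hf : FH f) : EB f := .of_sz hf.1

lemma CH.lt (hf : FH f) (hg : FH g) : CH fun a => f a < g a :=
  ((CH.ofCT (f := fun p : ℕ × ℕ => decide (p.1 < p.2)) (by fun_prop)).comp (hf.mk hg)).of_iff
    fun _ => by simp

lemma CH.le (hf : FH f) (hg : FH g) : CH fun a => f a ≤ g a :=
  (CH.lt hg hf).not.of_iff fun _ => not_lt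

end

lemma CH.eq {f g : α → β} (hf : FH f) (hg : FH g) : CH fun a => f a = g a :=
  hf.2.comp (FH.id.mk hg)

@[fun_prop] lemma FH.cons {f : α → β} {g : α → List β} (hf : FH f) (hg : FH g) :
    FH fun a => f a :: g a := FH.op2 (o := List.cons) (by fun_prop) hf hg

@[fun_prop] lemma FH.tail {g : α → List β} (hg : FH g) : FH fun a => (g a).tail :=
  (FH.ofCT (CT.tail CT.id)).comp hg

@[fun_prop] lemma FH.length {g : α → List β} (hg : FH g) : FH fun a => (g a).length :=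
  (FH.ofCT (CT.length CT.id)).comp hg

@[fun_prop] lemma FH.getD {g : α → List β} {n : α → ℕ} {d : α → β} (hg : FH g) (hn : FH n)
    (hd : FH d) : FH fun a => (g a).getD (n a) (d a) :=
  FH.op2 (o := fun (l : List β) (p : ℕ × β) => l.getD p.1 p.2) (by fun_prop) hg (hn.mk hd)

lemma FH.ite {p : α → Prop} [DecidablePred p] (hp : CH p) {f g : α → β} (hf : FH f) (hg : FH g) :
    FH fun a => if p a then f a else g a := by
  have h1 := hp.compCT (g := fun s : α × β => s.1) (by fun_prop)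
  exact ⟨(hf.1.add hg.1).of_le fun a => by dsimp only; split_ifs <;> omega,
    ((h1.and hf.2).or (h1.not.and hg.2)).of_iff fun a => by by_cases h : p a.1 <;> simp [h]⟩

lemma FH.cntCT {q : α × ℕ → Prop} (hq : CH q) {N : α → ℕ} (hN : CT 0 N) :
    FH fun a => cnt (N a) fun y => q (a, y) := by
  have h1 : CH fun s : (α × ℕ) × ℕ => q (s.1.1, s.2) := hq.compCT (by fun_prop)
  have h2 : CT 0 fun s : α × ℕ => N s.1 := by fun_prop
  refine ⟨hN.size.of_le fun a => sz_mono (cnt_le _ _), ((h1.gt (θ := fun s => s.2) (by fun_prop)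
    h2).not.and ((CH.ofCT (f := fun s : α × ℕ => s.2 == 0) (by fun_prop)).or
      (h1.gt (θ := fun s => s.2 - 1) (by fun_prop) h2))).of_iff fun s => ?_⟩
  simp only [beq_iff_eq]
  omega

lemma FH.cnt {q : α × ℕ → Prop} (hq : CH q) {N : α → ℕ} (hN : FH N) :
    FH fun a => cnt (N a) fun y => q (a, y) :=
  FH.comp (f := fun s : α × ℕ => P337.cnt s.2 fun y => q (s.1, y)) (g := fun a => (a, N a))
    (FH.cntCT (q := fun s : (α × ℕ) × ℕ => q (s.1.1, s.2)) (hq.compCT (by fun_prop))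
      (N := fun s => s.2) (by fun_prop)) (FH.id.mk hN)

lemma CH.ex {q : α × ℕ → Prop} (hq : CH q) {N : α → ℕ} (hN : FH N) :
    CH fun a => ∃ y < N a, q (a, y) :=
  (CH.lt (FH.const 0) (FH.cnt hq hN)).of_iff fun _ => cnt_pos

lemma CH.all {q : α × ℕ → Prop} (hq : CH q) {N : α → ℕ} (hN : FH N) :
    CH fun a => ∀ y < N a, q (a, y) :=
  (hq.not.ex hN).not.of_iff fun _ => by simp

lemma cnt_mul (N B : ℕ) (g : ℕ → ℕ) (h : ∀ y < N, g y < B) :
    cnt (N * B) (fun z => z % B < g (z / B)) = ∑ y ∈ range N, g y := by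
  induction N with
  | zero => simp [cnt]
  | succ N ih =>
    have hN := h N (by omega)
    rw [Nat.succ_mul, cnt_add, ih fun y hy => h y (by omega), sum_range_succ,
      cnt_congr (q' := fun z => z < g N) fun z hz => ?_, cnt_lt hN.le]
    rw [mul_comm, Nat.mul_add_mod, Nat.mul_add_div (by omega), Nat.mod_eq_of_lt hz,
      Nat.div_eq_of_lt hz, add_zero]

lemma FH.sum {g : α × ℕ → ℕ} (hg : FH g) {N : α → ℕ} (hN : FH N) :
    FH fun a => ∑ y ∈ range (N a), g (a, y) := by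
  obtain ⟨u, h1, h2⟩ := hg.eb.sup hN.eb
  exact (FH.cnt (q := fun s : α × ℕ => s.2 % u s.1 < g (s.1, s.2 / u s.1))
    (CH.lt (by fun_prop) (by fun_prop)) (N := fun a => N a * u a) (by fun_prop)).of_eq
    fun a => cnt_mul _ _ (fun y => g (a, y)) (h2 a)

/-- The least `y < N` with a property, or `N`. -/
noncomputable def lst (N : ℕ) (q : ℕ → Prop) : ℕ := cnt N fun y => ∀ z < y + 1, ¬ q z

lemma lst_spec {N : ℕ} {q : ℕ → Prop} (h : ∃ y < N, q y) : q (lst N q) := by
  classical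
  obtain ⟨y, hy, hq⟩ := h
  have h1 : ∃ y, q y := ⟨y, hq⟩
  have h2 := Nat.find_min' h1 hq
  rw [lst, cnt_congr (q' := fun z => z < Nat.find h1) fun z _ => ?_, cnt_lt (by omega)]
  · exact Nat.find_spec h1
  · simp

lemma FH.lst {q : α × ℕ → Prop} (hq : CH q) {N : α → ℕ} (hN : FH N) :
    FH fun a => lst (N a) fun y => q (a, y) :=
  FH.cnt (q := fun s : α × ℕ => ∀ z < s.2 + 1, ¬ q (s.1, z))
    (CH.all (q := fun s : (α × ℕ) × ℕ => ¬ q (s.1.1, s.2)) (hq.compCT (by fun_prop)).not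
      (by fun_prop)) hN

end Vale.Agent.P337
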