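import Vale.Agent.Lib.CT.Rec

/-!
Total decoders, codes and parsers in polynomial time.
-/

namespace Vale.Agent.P337

open Vale.Agent.Lib.TM Function

variable {α β γ : Type} [Enc α] [Enc β] [Enc γ]

@[fun_prop]
theorem ct_all {f : α → β → Bool} {l : α → List β}
    (hf : CT 0 fun p : α × β => f p.1 p.2) (hl : CT 0 l) : CT 0 fun a => (l a).all (f a) :=
  (CT.filter (f := fun a b => !f a b) hf.not hl).isEmpty.of_eq fun a => by
    rw [Bool.eq_iff_iff]; simp [List.isEmpty_iff, List.filter_eq_nil_iff]

@[fun_prop]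
theorem ct_beq {m n : α → ℕ} (hm : CT 0 m) (hn : CT 0 n) : CT 0 fun a => m a == n a :=
  (hm.beq hn).of_eq fun a => by rw [Bool.eq_iff_iff]; simp

@[fun_prop]
theorem ct_decLt {m n : α → ℕ} (hm : CT 0 m) (hn : CT 0 n) : CT 0 fun a => decide (m a < n a) :=
  (hm.blt hn).of_eq fun a => by rw [Bool.eq_iff_iff]; simp

@[fun_prop]
theorem ct_decLe {m n : α → ℕ} (hm : CT 0 m) (hn : CT 0 n) : CT 0 fun a => decide (m a ≤ n a) :=
  (hm.ble hn).of_eq fun a => by rw [Bool.eq_iff_iff]; simp

/-- The number with the given binary digits, least significant first. -/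
def ofBits (l : List Bool) : ℕ := l.foldr Nat.bit 0

lemma ofBits_lt (l : List Bool) : ofBits l < 2 ^ l.length := by
  induction l with
  | nil => simp [ofBits]
  | cons b l ih =>
    have : ofBits (b :: l) = Nat.bit b (ofBits l) := rfl
    rw [this, List.length_cons, pow_succ, Nat.bit_val]
    cases b <;> simp <;> omega

lemma ofBits_bits (n : ℕ) : ofBits n.bits = n := by
  induction n using Nat.binaryRec' with
  | zero => rfl
  | bit b n h ih => rw [Nat.bits_append_bit _ _ h]; exact congrArg (Nat.bit b) ih

lemma bits_ofBits (l : List Bool) : (ofBits (l ++ [true])).bits = l ++ [true] := by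
  induction l with
  | nil => rfl
  | cons b l ih =>
    have : ofBits (b :: l ++ [true]) = Nat.bit b (ofBits (l ++ [true])) := rfl
    rw [this, Nat.bits_append_bit _ _ fun h => ?_, ih]
    · rfl
    · rw [h] at ih; simp at ih

@[fun_prop]
theorem ct_ofBits {l : α → List Bool} (hl : CT 0 l) : CT 0 fun a => ofBits (l a) :=
  (CT.foldl (g := fun _ n b => Nat.bit b n) (init := fun _ => 0) (G := fun _ => 6) (by fun_prop)
    (CT.const 0) hl.reverse (Bd.const 6) fun _ s x => sz_bit_le x s).of_eq fun a => by
      simp [ofBits, List.foldl_reverse]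

theorem ct_enc : CT 0 fun a : α => enc a := CT.id.of_enc_eq fun _ => rfl

@[fun_prop]
theorem ct_car {f : α → Tr} (hf : CT 0 f) : CT 0 fun a => (f a).car := CT.car.comp hf

@[fun_prop]
theorem ct_cdr {f : α → Tr} (hf : CT 0 f) : CT 0 fun a => (f a).cdr := CT.cdr.comp hf

@[fun_prop]
theorem ct_tcons {f g : α → Tr} (hf : CT 0 f) (hg : CT 0 g) : CT 0 fun a => Tr.cons (f a) (g a) :=
  (hf.mk hg).of_enc_eq fun _ => rfl

/-- Test for the empty tree. -/
def isNil : Tr → Bool
  | .nil => true
  | .cons _ _ => false

@[fun_prop]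
theorem ct_isNil {f : α → Tr} (hf : CT 0 f) : CT 0 fun a => isNil (f a) :=
  (hf.caseTr (CT.const true) (CT.const false)).of_eq fun a => by cases f a <;> simp [isNil]

/-- One step of the computation of the code of a tree. -/
def codeStep (s : List Tr × List Bool) : List Tr × List Bool :=
  bif isNil (s.1.headD .nil) then (s.1.tail, false :: s.2)
  else ((s.1.headD .nil).car :: (s.1.headD .nil).cdr :: s.1.tail, true :: s.2)

lemma codeStep_spec (t : Tr) (k : ℕ) (hk : k ≤ t.size) :
    (codeStep^[k] ([t], [])).2.length = k ∧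
      (codeStep^[k] ([t], [])).2.reverse ++ (codeStep^[k] ([t], [])).1.flatMap Tr.code = t.code := by
  induction k with
  | zero => simp
  | succ k ih =>
    obtain ⟨h1, h2⟩ := ih (by omega)
    rw [iterate_succ_apply']
    generalize codeStep^[k] ([t], []) = s at h1 h2
    obtain ⟨s, o⟩ := s
    cases s with
    | nil =>
      have := congrArg List.length h2
      simp [Tr.size] at this h1 hk
      omega
    | cons x s =>
      rw [← h2, ← h1]
      cases x <;> simp [codeStep, isNil, Tr.code, Tr.car, Tr.cdr]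

lemma sz_trs (s : List Tr) : sz s ≤ 2 * (s.flatMap Tr.code).length + 1 := by
  induction s with
  | nil => simp
  | cons x s ih =>
    have := x.size_pos
    have h : sz x = x.code.length := rfl
    simp only [sz_cons, List.flatMap_cons, List.length_append, Tr.size] at *
    omega

theorem ct_code0 : CT 0 fun t : Tr => t.code := by
  have key : ∀ (t : Tr) k, k ≤ t.size →
      ((codeStep^[k] ([t], [])).1.flatMap Tr.code).length + k = t.size := by
    intro t k hk
    obtain ⟨h1, h2⟩ := codeStep_spec t k hk
    have := congrArg List.length h2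
    simp only [List.length_append, List.length_reverse, Tr.size] at *
    omega
  have hend : ∀ t : Tr, (codeStep^[t.size] ([t], [])).1 = [] := by
    intro t
    have h := key t _ le_rfl
    cases h' : (codeStep^[t.size] ([t], [])).1 with
    | nil => rfl
    | cons x s =>
      have := x.size_pos
      rw [h'] at h
      simp only [List.flatMap_cons, List.length_append, Tr.size] at h this
      omega
  have h := CT.iterate (e := 0) (step := codeStep) (go := fun s => !s.1.isEmpty)
    (init := fun t : Tr => ([t], [])) (N := fun t => t.size) (B := fun t => 8 * sz t + 3)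
    (by unfold codeStep; fun_prop) (by fun_prop) (by fun_prop) Bd.self
    (((Bd.const 8).mul Bd.self).add (Bd.const 3))
    (fun t k hk => by
      have h := key t k hk.le
      cases h' : (codeStep^[k] ([t], [])).1 with
      | nil => simp [h'] at h; omega
      | cons x s => rfl)
    (fun t => by simp [hend])
    (fun t k hk => by
      have h1 := key t k hk
      have h2 := (codeStep_spec t k hk).1
      have h3 := sz_trs (codeStep^[k] ([t], [])).1
      have h4 : sz t = t.size := rfl
      rw [sz_prod, sz_bits]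
      omega)
  exact h.snd.reverse.of_eq fun t => by simpa [hend] using (codeStep_spec t _ le_rfl).2

/-- The code of a value. -/
def raw (a : α) : List Bool := (enc a).code

@[fun_prop]
theorem ct_raw {f : α → β} (hf : CT 0 f) : CT 0 fun a => raw (f a) :=
  ct_code0.comp (ct_enc.comp hf)

theorem ct_sz : CT 0 fun a : α => sz a := (ct_raw CT.id).length

/-- One step of the parser. -/
def parseStep (b : Bool) (s : List Tr) : List Tr :=
  bif b then .cons (s.headD .nil) (s.tail.headD .nil) :: s.tail.tail else .nil :: s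

/-- The parser. -/
def parse (l : List Bool) : Tr := (l.foldr parseStep []).headD .nil

lemma foldr_code (t : Tr) (r : List Bool) :
    (t.code ++ r).foldr parseStep [] = t :: r.foldr parseStep [] := by
  induction t generalizing r with
  | nil => rfl
  | cons a b iha ihb =>
    simp only [Tr.code, List.cons_append, List.append_assoc, List.foldr_cons, iha, ihb]
    rfl

lemma parse_code (t : Tr) (r : List Bool) : parse (t.code ++ r) = t := by
  rw [parse, foldr_code]; rfl

@[fun_prop]
theorem ct_parse {l : α → List Bool} (hl : CT 0 l) : CT 0 fun a => parse (l a) :=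
  ((CT.foldl (g := fun _ s b => parseStep b s) (init := fun _ => []) (G := fun _ => 4)
    (by unfold parseStep; fun_prop) (CT.const _) hl.reverse (Bd.const 4) fun _ s x => by
      have h : ∀ a b : Tr, sz (Tr.cons a b) = sz a + sz b + 1 := Tr.size_cons
      have h' : sz Tr.nil = 1 := rfl
      cases x
      · simp [parseStep, h']; omega
      · rcases s with _ | ⟨a, _ | ⟨b, s⟩⟩ <;> simp [parseStep, h, h']
        omega).headD
    (CT.const Tr.nil)).of_eq fun a => by simp [parse, List.foldl_reverse]

/-- Types with a total polynomial time decoder. -/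
class Dec (α : Type) [Enc α] where
  /-- the decoder -/
  dec : Tr → α
  dec_enc : ∀ a, dec (enc a) = a
  ct : CT 0 dec

export Dec (dec dec_enc)

attribute [simp] dec_enc

@[fun_prop]
theorem ct_dec [Dec β] {f : α → Tr} (hf : CT 0 f) : CT 0 fun a => (dec (f a) : β) := Dec.ct.comp hf

instance : Dec Tr := ⟨id, fun _ => rfl, CT.id⟩

instance : Dec Bool := ⟨fun t => !isNil t.car, fun b => by cases b <;> rfl, by fun_prop⟩

instance [Dec α] [Dec β] : Dec (α × β) :=
  ⟨fun t => (dec t.car, dec t.cdr), fun p => by simp [enc, Tr.car, Tr.cdr], by fun_prop⟩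

/-- A tree read as a list of trees. -/
def toL : Tr → List Tr
  | .nil => []
  | .cons a b => a :: toL b

lemma enc_toL (t : Tr) : enc (toL t) = t := by
  induction t with
  | nil => rfl
  | cons a b _ ih => rw [toL, enc_cons, ih]; rfl

instance [Dec α] : Dec (List α) :=
  ⟨fun t => (toL t).map dec, fun l => by
    induction l with
    | nil => rfl
    | cons a l ih => rw [enc_cons, toL, List.map_cons, ih, dec_enc],
    CT.map (f := fun _ t => dec t) (by fun_prop) (CT.id.of_enc_eq fun t => (enc_toL t).symm)⟩

instance : Dec ℕ :=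
  ⟨fun t => ofBits (dec t), fun n => by rw [enc_nat, dec_enc, ofBits_bits], by fun_prop⟩

lemma dec_pair [Dec α] [Dec β] (s t : Tr) : (dec (Tr.cons s t) : α × β) = (dec s, dec t) := rfl

/-- A number that determines a value. -/
def num (a : α) : ℕ := ofBits (raw a ++ [true])

lemma dec_num [Dec α] (a : α) : dec (parse (num a).bits) = a := by
  rw [num, bits_ofBits, raw, parse_code, dec_enc]

lemma num_lt (a : α) : num a < 2 ^ (sz a + 1) := by
  have := ofBits_lt (raw a ++ [true])
  rwa [List.length_append] at this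

open Classical in
theorem ct_eq [Dec β] {f g : α → β} (hf : CT 0 f) (hg : CT 0 g) :
    CT 0 fun a => decide (f a = g a) := by
  have h : CT 0 fun a => num (f a) == num (g a) := by unfold num; fun_prop
  refine h.of_eq fun a => ?_
  rw [Bool.eq_iff_iff]
  simp only [beq_iff_eq, decide_eq_true_eq]
  exact ⟨fun h => by rw [← dec_num (f a), h, dec_num], fun h => by rw [h]⟩

theorem bd_ct {t : α → ℕ} (h : Bd 0 t) : ∃ u : α → ℕ, CT 0 u ∧ Bd 0 u ∧ ∀ a, t a ≤ u a := by
  obtain ⟨C, hC⟩ := h
  refine ⟨fun a => bd 0 C (sz a), ?_, ⟨C, fun _ => le_rfl⟩, hC⟩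
  have h1 : CT 0 fun a : α => C * ((sz a).size + 1) := by have := ct_sz (α := α); fun_prop
  refine (CT.pow (CT.const 2) h1 ?_).of_eq fun a => by simp [bd, lg]
  refine ((Bd.const C).mul (Bd.self.add (Bd.const 1))).of_le fun a => ?_
  exact Nat.mul_le_mul_left _ (Nat.succ_le_succ (Nat.size_le.mpr Nat.lt_two_pow_self))

/-- Exponentially bounded quantities. -/
def EB (t : α → ℕ) : Prop := Bd 0 fun a => (t a).size

theorem EB.bound {t : α → ℕ} (h : EB t) : ∃ u : α → ℕ, CT 0 u ∧ ∀ a, t a < u a := by
  obtain ⟨u, h1, h2, h3⟩ := bd_ct h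
  exact ⟨fun a => 2 ^ u a, CT.pow (CT.const 2) h1 h2, fun a => Nat.size_le.mp (h3 a)⟩

theorem EB.ofCT {t : α → ℕ} (h : CT 0 t) : EB t := h.bd_size

theorem EB.of_le {t u : α → ℕ} (h : EB t) (h' : ∀ a, u a ≤ t a) : EB u :=
  Bd.of_le h fun a => Nat.size_le_size (h' a)

theorem EB.of_sz {t : α → ℕ} (h : Bd 0 fun a => sz (t a)) : EB t :=
  Bd.of_le h fun a => by rw [sz_nat]; omega

theorem EB.sz {t : α → ℕ} (h : EB t) : Bd 0 fun a => sz (t a) :=
  (((Bd.const 6).mul h).add (Bd.const 1)).of_le fun a => by rw [sz_nat]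

theorem EB.add {t u : α → ℕ} (h : EB t) (h' : EB u) : EB fun a => t a + u a :=
  .of_sz (((h.sz.add h'.sz).add (Bd.const 5)).of_le fun _ => sz_add_le _ _)

theorem EB.mul {t u : α → ℕ} (h : EB t) (h' : EB u) : EB fun a => t a * u a :=
  .of_sz ((h.sz.add h'.sz).of_le fun _ => sz_mul_le _ _)

theorem EB.const (c : ℕ) : EB fun _ : α => c := .ofCT (CT.const c)

theorem EB.comp {t : β → ℕ} (h : EB t) {g : α → β} (hg : Bd 0 fun a => Lib.TM.sz (g a)) :
    EB fun a => t (g a) := Bd.comp h hg

/-- A uniform bound over a range. -/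
theorem EB.sup {t : α × ℕ → ℕ} (h : EB t) {N : α → ℕ} (hN : EB N) :
    ∃ u : α → ℕ, CT 0 u ∧ ∀ a, ∀ y < N a, t (a, y) < u a := by
  obtain ⟨T, h1, h2⟩ := Bd.bound h ((Bd.self.add hN.sz).add (Bd.const 1))
  obtain ⟨u, k1, k2, k3⟩ := bd_ct h1
  refine ⟨fun a => 2 ^ u a, CT.pow (CT.const 2) k1 k2, fun a y hy => Nat.size_le.mp ?_⟩
  refine (h2 a _ ?_).trans (k3 a)
  have := sz_mono hy.le
  simp only [sz_pair]; omega

end Vale.Agent.P337
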