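import Vale.Agent.P337.CH
import Vale.Agent.P337.Raw

/-!
The internal hierarchy is contained in the counting hierarchy.
-/

namespace Vale.Agent.P337

open Vale.Agent.Lib.TM

/-- One step of the inverse of the pairing. -/
def exportStep (s : (Bool × Bool) × Str × Str) (b : Bool) : (Bool × Bool) × Str × Str :=
  bif s.1.1 then (s.1, s.2.1, b :: s.2.2) else
    bif s.1.2 then ((false, false), b :: s.2.1, s.2.2) else ((!b, b), s.2)

/-- The inverse of the pairing. -/
def exportUnpair (w : Str) : Str × Str :=
  ((w.foldl exportStep ((false, false), [], [])).2.1.reverse,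
    (w.foldl exportStep ((false, false), [], [])).2.2.reverse)

lemma export_tail (y u v : Str) :
    y.foldl exportStep ((true, false), u, v) = ((true, false), u, y.reverse ++ v) := by
  induction y generalizing v with
  | nil => rfl
  | cons b y ih =>
    rw [List.foldl_cons]
    exact (ih (b :: v)).trans (by simp)

lemma export_fold (x y u : Str) :
    (pair x y).foldl exportStep ((false, false), u, []) =
      ((true, false), x.reverse ++ u, y.reverse) := by
  induction x generalizing u with
  | nil => exact (export_tail y u []).trans (by simp)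
  | cons b x ih => exact (ih (b :: u)).trans (by simp)

lemma export_unpair (x y : Str) : exportUnpair (pair x y) = (x, y) := by
  simp [exportUnpair, export_fold]

lemma export_ct : CT 0 exportUnpair := by
  have h : CT 0 fun w : Str => w.foldl exportStep ((false, false), [], []) :=
    CT.foldl (g := fun _ s b => exportStep s b) (init := fun _ => ((false, false), [], []))
      (G := fun _ => 6) (by unfold exportStep; fun_prop) (CT.const _) CT.id (Bd.const 6)
      fun _ s b => by
        obtain ⟨⟨c, d⟩, u, v⟩ := s
        cases c <;> cases d <;> simp [exportStep] <;> omega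
  exact h.snd.fst.reverse.mk h.snd.snd.reverse

lemma export_inj (l l' : Str) (h : l.length = l'.length) (h' : ofBits l = ofBits l') : l = l' := by
  induction l generalizing l' with
  | nil => exact (List.length_eq_zero_iff.mp h.symm).symm
  | cons b l ih =>
    cases l' with
    | nil => simp at h
    | cons b' l' =>
      have h1 : Nat.bit b (ofBits l) = Nat.bit b' (ofBits l') := h'
      have h2 := congrArg Nat.bodd h1
      have h3 := congrArg Nat.div2 h1
      simp only [Nat.bodd_bit, Nat.div2_bit] at h2 h3
      rw [h2, ih l' (by simpa using h) h3]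

lemma export_surj (m k : ℕ) (h : k < 2 ^ m) : ∃ l : Str, l.length = m ∧ ofBits l = k := by
  induction m generalizing k with
  | zero => exact ⟨[], rfl, by simp at h; subst h; rfl⟩
  | succ m ih =>
    obtain ⟨l, h1, h2⟩ := ih k.div2 (by rw [Nat.div2_val]; omega)
    refine ⟨k.bodd :: l, by simp [h1], ?_⟩
    change Nat.bit k.bodd (ofBits l) = k
    rw [h2, Nat.bit_bodd_div2]

lemma export_ncard (m : ℕ) (R : ℕ → Prop) :
    Set.ncard {y : Str | y.length = m ∧ R (ofBits y)} = cnt (2 ^ m) R := by
  classical
  rw [← Set.InjOn.ncard_image (f := ofBits)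
    fun l hl l' hl' h => export_inj l l' (hl.1.trans hl'.1.symm) h, cnt, ← Set.ncard_coe_finset]
  congr 1
  ext k
  simp only [Set.mem_image, Set.mem_ofPred_eq, Finset.coe_filter, Finset.mem_range]
  constructor
  · rintro ⟨l, ⟨h1, h2⟩, rfl⟩
    exact ⟨h1 ▸ ofBits_lt l, h2⟩
  · rintro ⟨h1, h2⟩
    obtain ⟨l, k1, rfl⟩ := export_surj m k h1
    exact ⟨l, ⟨k1, h2⟩, rfl⟩

lemma export_cnt (k M : ℕ) (Q : ℕ → Prop) :
    cnt (k * M) (fun y => Q (y % M)) = k * cnt M Q := by
  induction k with
  | zero => simp [cnt]
  | succ k ih =>
    rw [Nat.succ_mul, cnt_add, ih, Nat.succ_mul]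
    congr 1
    exact cnt_congr fun y hy => by rw [mul_comm, Nat.mul_add_mod, Nat.mod_eq_of_lt hy]

open Classical in
lemma export_head (A : Set Str) (q : Str → Str) (w : Str) (i : ℕ) :
    (answers A q w (i + 1)).headD false = decide (q (pair w []) ∈ A) := by
  induction i with
  | zero => rfl
  | succ i ih =>
    rw [← ih, answers]
    rw [answers]
    cases answers A q w i <;> rfl

lemma export_classP {g : Str → Bool} (hg : CT 0 g) : {x | g x = true} ∈ ClassP :=
  ⟨fun x => [g x], polyTime_of_CT (by fun_prop), fun x => by simp⟩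

lemma export_level {j : ℕ} {p : Tr → Prop} (hp : W j p) {h : Str → Tr} (hh : CT 0 h) :
    {x | p (h x)} ∈ Level j := by
  induction j generalizing p h with
  | zero =>
    obtain ⟨f, h1, h2⟩ := hp
    simp only [h2]
    exact export_classP (h1.comp hh)
  | succ j ih =>
    obtain ⟨n, q, h1, h2, h3, h4⟩ := hp
    have hA := ih h3 (h := parse) (ct_parse CT.id)
    refine Set.mem_biUnion hA ?_
    obtain ⟨C, hC⟩ := h2.comp hh.size
    have hu : CT 0 fun w : Str => exportUnpair (exportUnpair w).1 := export_ct.comp export_ct.fst
    have hx : CT 0 fun w : Str => h (exportUnpair (exportUnpair w).1).1 := hh.comp hu.fst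
    have hn : CT 0 fun w : Str => 2 ^ n (h (exportUnpair (exportUnpair w).1).1) :=
      CT.pow (CT.const 2) (h1.comp hx) (h2.comp hx.size)
    refine ⟨(24 * Polynomial.X + 8) ^ C + 1, fun w => raw (Tr.cons
      (h (exportUnpair (exportUnpair w).1).1)
      (enc (ofBits (exportUnpair (exportUnpair w).1).2 %
        2 ^ n (h (exportUnpair (exportUnpair w).1).1)))),
      {w | (exportUnpair w).2.headD false = true},
      polyTime_of_CT (ct_raw (ct_tcons hx (ct_enc.comp (CT.mod (ct_ofBits hu.snd) hn)))),
      export_classP (export_ct.snd.headD (CT.const false)), fun x => ?_⟩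
    have k1 : n (h x) ≤ _ := (hC x).trans (raw_bd _ _)
    rw [sz_bits, show 4 * (6 * x.length + 1) + 4 = 24 * x.length + 8 by ring] at k1
    simp only [Polynomial.eval_pow, Polynomial.eval_add, Polynomial.eval_mul,
      Polynomial.eval_ofNat, Polynomial.eval_X, Polynomial.eval_one, Set.mem_ofPred_eq,
      export_unpair, export_head, decide_eq_true_eq]
    have k2 : ∀ t : Tr, parse (raw t) = t := fun t => by
      have := parse_code t []
      rwa [List.append_nil] at this
    simp only [k2]
    generalize (24 * x.length + 8) ^ C = m at k1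
    obtain ⟨d, hd⟩ : ∃ d, m + 1 = d + n (h x) := ⟨m + 1 - n (h x), by omega⟩
    rw [export_ncard (m + 1) fun y => q (.cons (h x) (enc (y % 2 ^ n (h x)))), hd, pow_add,
      export_cnt (2 ^ d) (2 ^ n (h x)) fun y => q (.cons (h x) (enc y)), h4, mul_left_comm]
    exact (Nat.mul_lt_mul_left (Nat.two_pow_pos d)).symm

theorem CH.level {p : Str → Prop} (h : CH p) : ∃ j, {x | p x} ∈ Level j := by
  obtain ⟨j, hj⟩ := h
  exact ⟨j, by simpa using export_level hj (h := fun x : Str => enc x) ct_enc⟩

end Vale.Agent.P337
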