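import Vale.Agent.P337.Multi
import Vale.Agent.P337.Defs

/-!
The existential theory of the reals reduces to real zeros of one polynomial: guess a list of
tokens with signs, evaluate the formula on a stack, and check the signs by a sum of squares.
-/

namespace Vale.Agent.P337

open Vale.Agent.Lib.TM Finset

/-- A monomial: sign, absolute value, exponents as lengths. -/
abbrev FMon : Type := (Bool × ℕ) × List (List Bool)

/-- A token: tag, guessed sign, monomials. -/
abbrev FTok : Type := (Bool × Bool × Bool) × (Bool × Bool) × List FMon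

/-- The coefficient of a monomial. -/
def fInt (c : Bool × ℕ) : ℤ := bif c.1 then -(c.2 : ℤ) else c.2

/-- The polynomial of a list of monomials. -/
def fPoly (p : List FMon) : Poly := p.map fun m => (fInt m.1, m.2.map List.length)

/-- The code of a list of monomials. -/
def fCodeP (p : List FMon) : Str :=
  p.flatMap (fun m => true :: (m.1.1 && !(m.1.2 == 0)) ::
    ((m.1.2.bits.flatMap (fun b => [true, b]) ++ [false]) ++
      (m.2.flatMap (fun e => true :: (e.map (fun _ => true) ++ [false])) ++ [false]))) ++ [false]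

lemma formula_codeP (p : List FMon) : fCodeP p = (fPoly p).code := by
  unfold fCodeP fPoly Poly.code codeList
  rw [List.flatMap_map]
  congr 2
  funext m
  obtain ⟨⟨s, n⟩, e⟩ := m
  have h1 : (fInt (s, n)).natAbs = n := by cases s <;> simp [fInt]
  have h2 : decide (fInt (s, n) < 0) = (s && !(n == 0)) := by
    rw [Bool.eq_iff_iff, decide_eq_true_eq]
    cases s <;> simp [fInt, Nat.pos_iff_ne_zero]
  simp only [h1, h2, List.flatMap_map, List.map_const']

/-- The code of a token. -/
def fCode (t : FTok) : Str :=
  t.1.1 :: t.1.2.1 :: t.1.2.2 :: (bif t.1.1 || t.1.2.1 then [] else fCodeP t.2.2)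

/-- One step of the evaluation on a stack. -/
def fStep (t : FTok) (s : Bool × List Bool) : Bool × List Bool :=
  bif t.1.1 then
    (s.1 && (!t.1.2.1 && (!t.1.2.2 && (t.2.2.isEmpty && !s.2.isEmpty))),
      (!s.2.headD false) :: s.2.tail)
  else bif t.1.2.1 then
    (s.1 && (t.2.2.isEmpty && !s.2.tail.isEmpty),
      (bif t.1.2.2 then s.2.headD false || s.2.tail.headD false
        else s.2.headD false && s.2.tail.headD false) :: s.2.tail.tail)
  else (s.1, (bif t.1.2.2 then !t.2.1.1 && t.2.1.2 else t.2.1.1) :: s.2)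

/-- The evaluation of a list of tokens. -/
def fRun (T : List FTok) : Bool × List Bool := T.foldr fStep (true, [])

/-- The value of a list of tokens. -/
def fEval (T : List FTok) : Bool :=
  (fRun T).1 && ((fRun T).2.tail.isEmpty && (fRun T).2.headD false)

/-- The guessed sign is right. -/
def FOk (x : ℕ → ℝ) (t : FTok) : Prop :=
  if t.2.1.1 = true then (fPoly t.2.2).val x = 0 else
    if t.2.1.2 = true then 0 < (fPoly t.2.2).val x else (fPoly t.2.2).val x < 0

lemma formula_sound (x : ℕ → ℝ) (T : List FTok) (h : (fRun T).1 = true) (hx : ∀ t ∈ T, FOk x t) :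
    ∃ L : List Fm, T.flatMap fCode = L.flatMap Fm.code ∧
      List.Forall₂ (fun b Φ => b = true ↔ Fm.Holds x Φ) (fRun T).2 L := by
  induction T with
  | nil => exact ⟨[], rfl, List.Forall₂.nil⟩
  | cons t T ih =>
    have e : fRun (t :: T) = fStep t (fRun T) := rfl
    rw [e] at h ⊢
    have h0 := hx t List.mem_cons_self
    have ih' := fun h => ih h fun t ht => hx t (List.mem_cons_of_mem _ ht)
    rw [List.flatMap_cons]
    generalize fRun T = s at h ih'
    generalize T.flatMap fCode = w at ih'
    obtain ⟨⟨a, b, c⟩, ⟨z, g⟩, p⟩ := t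
    obtain ⟨f, s⟩ := s
    cases a
    · cases b
      · obtain ⟨L, rfl, h2⟩ := ih' h
        cases c
        · refine ⟨.eq (fPoly p) :: L, by simp [fCode, Fm.code, formula_codeP],
            List.Forall₂.cons ?_ h2⟩
          cases z <;> cases g <;> simp [FOk, Fm.Holds] at h0 ⊢
          exacts [h0.ne, h0.ne', h0, h0]
        · refine ⟨.pos (fPoly p) :: L, by simp [fCode, Fm.code, formula_codeP],
            List.Forall₂.cons ?_ h2⟩
          cases z <;> cases g <;> simp [FOk, Fm.Holds] at h0 ⊢
          exacts [h0.le, h0, h0.le, h0.le]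
      · simp only [fStep, cond_true, cond_false, Bool.and_eq_true] at h
        obtain ⟨L, rfl, h2⟩ := ih' h.1
        rcases h2 with _ | @⟨_, A, _, _, k1, _ | @⟨_, B, _, L, k2, h2⟩⟩
        · simp at h
        · simp at h
        · cases c
          · exact ⟨.and A B :: L, by simp [fCode, Fm.code],
              List.Forall₂.cons (by simp [Fm.Holds, k1, k2]) h2⟩
          · exact ⟨.or A B :: L, by simp [fCode, Fm.code],
              List.Forall₂.cons (by simp [Fm.Holds, k1, k2]) h2⟩
    · simp only [fStep, cond_true, Bool.and_eq_true, Bool.not_eq_eq_eq_not, Bool.not_true] at h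
      obtain ⟨L, rfl, h2⟩ := ih' h.1
      obtain ⟨-, rfl, rfl, -, h⟩ := h
      rcases h2 with _ | @⟨_, A, _, L, k1, h2⟩
      · simp at h
      · exact ⟨.not A :: L, by simp [fCode, Fm.code],
          List.Forall₂.cons (by simp [Fm.Holds, ← k1]) h2⟩

/-- The monomials of a polynomial. -/
def fMons (p : Poly) : List FMon :=
  p.map fun m => ((decide (m.1 < 0), m.1.natAbs), m.2.map fun e => List.replicate e true)

lemma formula_mons (p : Poly) : fPoly (fMons p) = p := by
  unfold fPoly fMons
  rw [List.map_map]
  refine (List.map_congr_left fun m _ => ?_).trans (List.map_id _)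
  obtain ⟨z, e⟩ := m
  have h1 : fInt (decide (z < 0), z.natAbs) = z := by
    by_cases h : z < 0 <;> simp only [fInt, h, decide_true, decide_false, cond_true, cond_false] <;>
      omega
  simp [h1, Function.comp_def]

open Classical in
/-- The tokens of a formula with the signs at a point. -/
noncomputable def fToks (x : ℕ → ℝ) : Fm → List FTok
  | .eq p => [((false, false, false), (decide (p.val x = 0), decide (0 < p.val x)), fMons p)]
  | .pos p => [((false, false, true), (decide (p.val x = 0), decide (0 < p.val x)), fMons p)]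
  | .and a b => ((false, true, false), (true, true), []) :: (fToks x a ++ fToks x b)
  | .or a b => ((false, true, true), (true, true), []) :: (fToks x a ++ fToks x b)
  | .not a => ((true, false, false), (true, true), []) :: fToks x a

lemma formula_code (x : ℕ → ℝ) (Φ : Fm) : (fToks x Φ).flatMap fCode = Φ.code := by
  induction Φ with
  | eq p => simp [fToks, fCode, Fm.code, formula_codeP, formula_mons]
  | pos p => simp [fToks, fCode, Fm.code, formula_codeP, formula_mons]
  | and a b ha hb => simp [fToks, fCode, Fm.code, ha, hb]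
  | or a b ha hb => simp [fToks, fCode, Fm.code, ha, hb]
  | not a ha => simp [fToks, fCode, Fm.code, ha]

lemma formula_ok (x : ℕ → ℝ) (Φ : Fm) : ∀ t ∈ fToks x Φ, FOk x t := by
  have h0 : ∀ c : Bool × Bool × Bool, FOk x (c, (true, true), []) := fun c => by
    simp [FOk, fPoly, Poly.val]
  have h1 : ∀ (c : Bool × Bool × Bool) (p : Poly) (z g : Bool), (z = true ↔ p.val x = 0) →
      (g = true ↔ 0 < p.val x) → FOk x (c, (z, g), fMons p) := fun c p z g hz hg => by
    simp only [FOk, formula_mons, hz, hg]
    split_ifs with k1 k2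
    exacts [k1, k2, lt_of_le_of_ne (not_lt.mp k2) k1]
  induction Φ with
  | eq p => simpa [fToks] using h1 _ p _ _ (by simp) (by simp)
  | pos p => simpa [fToks] using h1 _ p _ _ (by simp) (by simp)
  | and a b ha hb =>
    simp only [fToks, List.forall_mem_cons, List.forall_mem_append]
    exact ⟨h0 _, ha, hb⟩
  | or a b ha hb =>
    simp only [fToks, List.forall_mem_cons, List.forall_mem_append]
    exact ⟨h0 _, ha, hb⟩
  | not a ha =>
    simp only [fToks, List.forall_mem_cons]
    exact ⟨h0 _, ha⟩

lemma formula_run (x : ℕ → ℝ) (Φ : Fm) (s : Bool × List Bool) :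
    ∃ v : Bool, (v = true ↔ Φ.Holds x) ∧ (fToks x Φ).foldr fStep s = (s.1, v :: s.2) := by
  induction Φ generalizing s with
  | eq p => exact ⟨_, by simp [Fm.Holds], rfl⟩
  | pos p =>
    refine ⟨_, ?_, rfl⟩
    simp only [Fm.Holds, cond_true, Bool.and_eq_true, Bool.not_eq_eq_eq_not, Bool.not_true,
      decide_eq_false_iff_not, decide_eq_true_eq]
    exact ⟨fun h => h.2, fun h => ⟨h.ne', h⟩⟩
  | and a b ha hb =>
    obtain ⟨v, h1, h2⟩ := hb s
    obtain ⟨u, h3, h4⟩ := ha (s.1, v :: s.2)
    exact ⟨u && v, by simp [Fm.Holds, h1, h3], by simp [fToks, fStep, h2, h4]⟩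
  | or a b ha hb =>
    obtain ⟨v, h1, h2⟩ := hb s
    obtain ⟨u, h3, h4⟩ := ha (s.1, v :: s.2)
    exact ⟨u || v, by simp [Fm.Holds, h1, h3], by simp [fToks, fStep, h2, h4]⟩
  | not a ha =>
    obtain ⟨v, h1, h2⟩ := ha s
    exact ⟨!v, by simp [Fm.Holds, ← h1], by simp [fToks, fStep, h2]⟩

lemma formula_iff (w : Str) : w ∈ ETR ↔ ∃ T : List FTok, T.flatMap fCode = w ∧ fEval T = true ∧
    ∃ x : ℕ → ℝ, ∀ t ∈ T, FOk x t := by
  constructor
  · rintro ⟨Φ, rfl, x, hx⟩
    refine ⟨fToks x Φ, formula_code x Φ, ?_, x, formula_ok x Φ⟩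
    obtain ⟨v, h1, h2⟩ := formula_run x Φ (true, [])
    simp [fEval, fRun, h2, h1, hx]
  · rintro ⟨T, rfl, h, x, hx⟩
    simp only [fEval, Bool.and_eq_true] at h
    obtain ⟨L, h1, h2⟩ := formula_sound x T h.1 hx
    obtain ⟨-, h3, h4⟩ := h
    generalize (fRun T).2 = s at h2 h3 h4
    rcases h2 with _ | ⟨k1, _ | ⟨k2, h2⟩⟩
    · simp at h4
    · exact ⟨_, by simpa using h1, x, k1.mp h4⟩
    · simp at h3

lemma formula_szP (p : List FMon) : sz p ≤ 6 * (fCodeP p).length := by
  have h1 : ∀ e : List (List Bool), sz e ≤ 6 *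
      (e.flatMap (fun e => true :: (e.map (fun _ => true) ++ [false]))).length + 1 := by
    intro e
    induction e with
    | nil => simp
    | cons a e ih =>
      simp only [sz_cons, sz_bits, List.flatMap_cons, List.length_append, List.length_cons,
        List.length_map, List.length_nil] at ih ⊢
      omega
  have h2 : ∀ l : List Bool, (l.flatMap fun b => [true, b]).length = 2 * l.length := by
    intro l
    induction l with
    | nil => rfl
    | cons a l ih => simp only [List.flatMap_cons, List.length_append, ih, List.length_cons,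
        List.length_nil]; omega
  unfold fCodeP
  induction p with
  | nil => simp
  | cons m p ih =>
    obtain ⟨⟨s, n⟩, e⟩ := m
    have h3 := h1 e
    have h4 := h2 n.bits
    have h5 := Nat.size_eq_bits_len n
    simp only [sz_cons, sz_pair, sz_bool, sz_nat, List.flatMap_cons, List.length_append,
      List.length_cons, List.length_nil] at ih ⊢
    omega

lemma formula_sz (T : List FTok) (h : (fRun T).1 = true) :
    sz T ≤ 12 * (T.flatMap fCode).length + 1 := by
  induction T with
  | nil => simp
  | cons t T ih =>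
    have e : fRun (t :: T) = fStep t (fRun T) := rfl
    rw [e] at h
    obtain ⟨⟨a, b, c⟩, ⟨z, g⟩, p⟩ := t
    have h1 := formula_szP p
    cases a
    · cases b
      · have := ih h
        simp only [fCode, sz_cons, sz_pair, sz_bool, List.flatMap_cons, List.length_append,
          List.length_cons, Bool.or_self, cond_false]
        omega
      · simp only [fStep, cond_true, cond_false, Bool.and_eq_true, List.isEmpty_iff] at h
        obtain ⟨h2, rfl, -⟩ := h
        have := ih h2
        simp only [fCode, sz_cons, sz_pair, sz_bool, List.flatMap_cons, List.length_append,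
          List.length_cons, sz_nil]
        omega
    · simp only [fStep, cond_true, Bool.and_eq_true, List.isEmpty_iff] at h
      obtain ⟨h2, -, -, rfl, -⟩ := h
      have := ih h2
      simp only [fCode, sz_cons, sz_pair, sz_bool, List.flatMap_cons, List.length_append,
        List.length_cons, sz_nil]
      omega

lemma formula_ct_code : CT 0 fun T : List FTok => T.flatMap fCode := by
  have h : CT 0 fCodeP := by
    unfold fCodeP
    fun_prop
  have h' : CT 0 fun t : List FTok × FTok => fCodeP t.2.2.2 := h.comp (by fun_prop)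
  refine CT.flatMap (f := fun _ t => fCode t) ?_ CT.id
  unfold fCode
  exact CT.cons (by fun_prop) (CT.cons (by fun_prop) (CT.cons (by fun_prop)
    (CT.cond (by fun_prop) (CT.const _) h')))

lemma formula_ct_eval : CT 0 fEval := by
  have h : CT 0 fRun :=
    (CT.foldl (g := fun _ s t => fStep t s) (init := fun _ => (true, [])) (G := fun _ => 6)
      (by unfold fStep; fun_prop) (CT.const _) (CT.reverse CT.id) (Bd.const 6) fun _ s t => by
        obtain ⟨⟨a, b, c⟩, g, p⟩ := t
        obtain ⟨f, s⟩ := s
        have h1 := sz_tail s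
        have h2 := sz_tail s.tail
        cases a <;> cases b <;> simp [fStep] <;> omega).of_eq fun T => by
      simp [fRun, List.foldl_reverse]
  exact h.fst.and (h.snd.tail.isEmpty.and (h.snd.headD (CT.const false)))

open MvPolynomial

/-- The polynomial of a list of monomials in `N` variables. -/
noncomputable def fMv (N : ℕ) (p : List FMon) : MvPolynomial (Fin N) ℤ :=
  ∑ r ∈ range p.length, (if (p.getD r ((false, 0), [])).1.1 = true then -1 else 1) *
    ((p.getD r ((false, 0), [])).1.2 : MvPolynomial (Fin N) ℤ) *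
      ∏ i ∈ range (p.getD r ((false, 0), [])).2.length,
        xv N ℤ i ^ ((p.getD r ((false, 0), [])).2.getD i []).length

/-- The equation that checks a guessed sign. -/
noncomputable def fEqn (N i : ℕ) (t : FTok) : MvPolynomial (Fin N) ℤ :=
  if t.2.1.1 = true then fMv N t.2.2 else
    if t.2.1.2 = true then fMv N t.2.2 * xv N ℤ i ^ 2 - 1 else fMv N t.2.2 * xv N ℤ i ^ 2 + 1

/-- A default token. -/
def fDef : FTok := ((false, false, false), (false, false), [])

/-- The sum of squares. -/
noncomputable def fSos (T : List FTok) : MvPolynomial (Fin (sz T + T.length)) ℤ :=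
  ∑ t ∈ range T.length, fEqn (sz T + T.length) (sz T + t) (T.getD t fDef) ^ 2

section
variable {α : Type} [Enc α] [Dec α] {N : α → ℕ}

lemma formula_dp_mv (hN : FH N) {p : α → List FMon} (hp : FH p) :
    DP fun a => fMv (N a) (p a) := by
  have hm : FH fun s : α × ℕ => (p s.1).getD s.2 ((false, 0), []) := by fun_prop
  refine DP.sum (R := fun a => MvPolynomial (Fin (N a)) ℤ) (F := fun a r =>
    (if ((p a).getD r ((false, 0), [])).1.1 = true then -1 else 1) *
    (((p a).getD r ((false, 0), [])).1.2 : MvPolynomial (Fin (N a)) ℤ) *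
      ∏ i ∈ range ((p a).getD r ((false, 0), [])).2.length,
        xv (N a) ℤ i ^ (((p a).getD r ((false, 0), [])).2.getD i []).length) ?_ hp.length
  refine DP.mul (DP.mul (DP.ite (CH.eq hm.fst.fst (FH.const true)) DP.one.neg DP.one)
    (DP.nat hm.fst.snd)) ?_
  refine DP.prod (R := fun s : α × ℕ => MvPolynomial (Fin (N s.1)) ℤ) (F := fun s i =>
    xv (N s.1) ℤ i ^ (((p s.1).getD s.2 ((false, 0), [])).2.getD i []).length) ?_ hm.snd.length
  have hm' : FH fun s : (α × ℕ) × ℕ => ((p s.1.1).getD s.1.2 ((false, 0), [])).2 :=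
    hm.snd.comp (g := Prod.fst) (by fun_prop)
  exact DP.pow (DP.var (R := fun _ => ℤ) (N := fun s : (α × ℕ) × ℕ => N s.1.1) (by fun_prop)
    (by fun_prop)) (FH.getD hm' (by fun_prop) (FH.const _)).length

lemma formula_dp_eqn (hN : FH N) {i : α → ℕ} (hi : FH i) {t : α → FTok} (ht : FH t) :
    DP fun a => fEqn (N a) (i a) (t a) := by
  have h1 := formula_dp_mv hN ht.snd.snd
  have h2 := h1.mul ((DP.var (R := fun _ => ℤ) hN hi).pow (FH.const 2))
  exact DP.ite (CH.eq ht.snd.fst.fst (FH.const true)) h1
    (DP.ite (CH.eq ht.snd.fst.snd (FH.const true)) (h2.sub DP.one) (h2.add DP.one))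

end

lemma formula_dp : DP fSos := by
  have hs : FH fun s : List FTok × ℕ => sz s.1 := FH.ofCT (ct_sz.comp (CT.fst CT.id))
  refine DP.sum (R := fun T : List FTok => MvPolynomial (Fin (sz T + T.length)) ℤ)
    (F := fun T t => fEqn (sz T + T.length) (sz T + t) (T.getD t fDef) ^ 2) ?_ FH.id.length
  exact (formula_dp_eqn (N := fun s : List FTok × ℕ => sz s.1 + s.1.length)
    (hs.add (by fun_prop)) (hs.add (by fun_prop)) (by fun_prop)).pow (FH.const 2)

/-- Extension by zero. -/
noncomputable def fExt {N : ℕ} (ξ : Fin N → ℝ) (i : ℕ) : ℝ := if h : i < N then ξ ⟨i, h⟩ else 0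

lemma formula_xv {N : ℕ} (ξ : Fin N → ℝ) (i : ℕ) : aeval ξ (xv N ℤ i) = fExt ξ i := by
  unfold xv fExt
  split_ifs <;> simp

lemma formula_sum {β : Type} (l : List β) (d : β) (f : β → ℝ) :
    (l.map f).sum = ∑ r ∈ range l.length, f (l.getD r d) := by
  induction l with
  | nil => simp
  | cons a l ih => simp [sum_range_succ', ih, add_comm]

lemma formula_mv {N : ℕ} (ξ : Fin N → ℝ) (p : List FMon) :
    aeval ξ (fMv N p) = (fPoly p).val (fExt ξ) := by
  rw [fMv, fPoly, Poly.val, List.map_map, formula_sum p ((false, 0), []), map_sum]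
  refine sum_congr rfl fun r _ => ?_
  generalize p.getD r ((false, 0), []) = m
  obtain ⟨⟨s, n⟩, e⟩ := m
  have h : ∀ i, (e.map List.length).getD i 0 = (e.getD i []).length := fun i =>
    List.getD_map (f := List.length) (l := e) (d := []) (n := i)
  simp only [map_mul, map_prod, map_pow, formula_xv, Function.comp, List.length_map, h,
    map_natCast]
  cases s <;> simp [fInt]

lemma formula_congr {x y : ℕ → ℝ} {p : List FMon} {n : ℕ} (hn : sz p ≤ n)
    (h : ∀ i < n, x i = y i) : (fPoly p).val x = (fPoly p).val y := by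
  rw [fPoly, Poly.val, Poly.val, List.map_map, List.map_map]
  congr 1
  refine List.map_congr_left fun m hm => ?_
  have h1 := sz_mem hm
  have h2 := length_lt_sz m.2
  rw [sz_prod] at h1
  simp only [Function.comp, List.length_map]
  congr 1
  exact prod_congr rfl fun i hi => by rw [h i (by have := mem_range.mp hi; omega)]

lemma formula_zero (T : List FTok) : (∃ ξ : Fin (sz T + T.length) → ℝ, aeval ξ (fSos T) = 0) ↔
    ∃ x : ℕ → ℝ, ∀ t ∈ T, FOk x t := by
  have key : ∀ ξ : Fin (sz T + T.length) → ℝ, aeval ξ (fSos T) = 0 ↔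
      ∀ t < T.length, aeval ξ (fEqn (sz T + T.length) (sz T + t) (T.getD t fDef)) = 0 := by
    intro ξ
    simp only [fSos, map_sum, map_pow]
    rw [sum_eq_zero_iff_of_nonneg fun _ _ => sq_nonneg _]
    simp only [mem_range, pow_eq_zero_iff two_ne_zero]
  simp only [key]
  constructor
  · rintro ⟨ξ, h⟩
    refine ⟨fExt ξ, fun t ht => ?_⟩
    obtain ⟨i, hi, rfl⟩ := List.getElem_of_mem ht
    have h1 := h i hi
    rw [List.getD_eq_getElem _ _ hi] at h1
    unfold fEqn at h1
    unfold FOk
    have h2 := sq_nonneg (fExt ξ (sz T + i))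
    split_ifs at h1 ⊢
    · rwa [formula_mv] at h1
    · simp only [map_sub, map_mul, map_pow, map_one, formula_mv, formula_xv] at h1
      by_contra h3
      nlinarith [mul_nonneg (neg_nonneg.mpr (not_lt.mp h3)) h2]
    · simp only [map_add, map_mul, map_pow, map_one, formula_mv, formula_xv] at h1
      by_contra h3
      nlinarith [mul_nonneg (not_lt.mp h3) h2]
  · rintro ⟨x, h⟩
    let y : ℕ → ℝ := fun i => if i < sz T then x i else
      (√|(fPoly (T.getD (i - sz T) fDef).2.2).val x|)⁻¹
    refine ⟨fun i => y i, fun i hi => ?_⟩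
    have h1 : ∀ j < sz T + T.length, fExt (fun i : Fin (sz T + T.length) => y i) j = y j :=
      fun j hj => by simp [fExt, hj]
    have h2 := h1 (sz T + i) (by omega)
    simp only [y, add_lt_iff_neg_left, not_lt_zero, if_false, add_tsub_cancel_left] at h2
    rw [List.getD_eq_getElem _ _ hi] at h2 ⊢
    have h3 := h _ (List.getElem_mem hi)
    have h4 : (fPoly T[i].2.2).val (fExt fun i : Fin (sz T + T.length) => y i) =
        (fPoly T[i].2.2).val x := by
      refine formula_congr (n := sz T) ?_ fun j hj => by rw [h1 j (by omega)]; simp [y, hj]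
      have := sz_mem (List.getElem_mem hi)
      rw [sz_prod, sz_prod T[i].2] at this
      omega
    unfold FOk at h3
    unfold fEqn
    split_ifs at h3 ⊢
    · rw [formula_mv, h4, h3]
    · simp only [map_sub, map_mul, map_pow, map_one, formula_mv, formula_xv]
      rw [h4]
      simp only [y]
      rw [h2, inv_pow, Real.sq_sqrt (abs_nonneg _), abs_of_pos h3, mul_inv_cancel₀ h3.ne',
        sub_self]
    · simp only [map_add, map_mul, map_pow, map_one, formula_mv, formula_xv]
      rw [h4]
      simp only [y]
      rw [h2, inv_pow, Real.sq_sqrt (abs_nonneg _), abs_of_neg h3, inv_neg, mul_neg,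
        mul_inv_cancel₀ h3.ne, neg_add_cancel]

theorem ch_etr : CH fun x : Str => x ∈ ETR := by
  have h1 : CH fun T : List FTok => ∃ ξ : Fin (sz T + T.length) → ℝ, aeval ξ (fSos T) = 0 :=
    CH.hasZero (ct_sz.add (CT.length CT.id)) (Bd.self.add (CT.bd_length (e := 0) CT.id)) formula_dp
      fun T ξ => by
        simp only [fSos, map_sum, map_pow]
        exact sum_nonneg fun _ _ => sq_nonneg _
  have h2 : CH fun s : Str × List FTok => s.2.flatMap fCode = s.1 ∧ fEval s.2 = true ∧
      ∃ x : ℕ → ℝ, ∀ t ∈ s.2, FOk x t :=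
    (CH.eq (FH.ofCT (formula_ct_code.comp (CT.snd CT.id))) (FH.ofCT (CT.fst CT.id))).and
      ((CH.ofCT (formula_ct_eval.comp (CT.snd CT.id))).and
        ((h1.of_iff formula_zero).compCT (CT.snd CT.id)))
  refine (h2.ex_sz (B := fun x => 12 * sz x + 1) (((Bd.const 12).mul Bd.self).add (Bd.const 1))
    fun x T h => ⟨T, ?_, h⟩).of_iff fun x => (formula_iff x).symm
  obtain ⟨k1, k2, -⟩ := h
  simp only [fEval, Bool.and_eq_true] at k1 k2
  have k3 := formula_sz T k2.1
  have k4 := length_lt_sz x
  rw [k1] at k3
  omega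

end Vale.Agent.P337
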