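import Vale.Agent.P337.LimitA

/-!
A nonnegative polynomial has a real zero iff the leading coefficients of the characteristic
polynomials have real roots.
-/

namespace Vale.Agent.P337

open Finset MvPolynomial Filter Topology

variable {N : ℕ}

theorem limit_cont {R : Type} [CommRing R] [TopologicalSpace R] [IsTopologicalRing R]
    (G : MvPolynomial (Fin N) ℤ) : Continuous fun x : Fin N → R => aeval x G := by
  induction G using MvPolynomial.induction_on with
  | C a => simpa using continuous_const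
  | add p q hp hq => simpa using hp.fun_add hq
  | mul_X p i hp => simpa using hp.fun_mul (continuous_apply i)

theorem limit_deriv (G : MvPolynomial (Fin N) ℤ) (x : Fin N → ℝ) (i : Fin N) :
    HasDerivAt (fun t => aeval (Function.update x i t) G) (aeval x (pderiv i G)) (x i) := by
  induction G using MvPolynomial.induction_on with
  | C a => simpa using hasDerivAt_const _ _
  | add p q hp hq => simpa using hp.fun_add hq
  | mul_X p j hp =>
    by_cases h : j = i
    · subst h
      have h1 := hp.fun_mul (hasDerivAt_id' (x j))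
      simpa [add_comm, mul_comm] using h1
    · have h1 := hp.mul_const (x j)
      simpa [h, mul_comm] using h1

theorem limit_cast (F : MvPolynomial (Fin N) ℤ) (x : Fin N → ℝ) :
    aeval (fun i => (x i : ℂ)) F = ((aeval x F : ℝ) : ℂ) :=
  aeval_algebraMap_apply ℂ x F

theorem limit_min {k : ℕ} (F : MvPolynomial (Fin N) ℤ) (hF : ∀ x : Fin N → ℝ, 0 ≤ aeval x F)
    (hk : Odd k) {x₀ : Fin N → ℝ} (h0 : aeval x₀ F = 0) : ∃ R : ℝ, ∀ n : ℕ, ∃ x : Fin N → ℝ,
      |limitH F k n x| ≤ R ∧ (∀ i, |x i| ≤ R) ∧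
      ∀ i, x i ^ k + n * aeval x (pderiv i F) = 0 := by
  have hev : Even (k + 1) := hk.add_one
  set R := ∑ i, x₀ i ^ (k + 1) with hR
  have hR0 : 0 ≤ R := sum_nonneg fun i _ => hev.pow_nonneg _
  refine ⟨R + 1, fun n => ?_⟩
  have h1 : limitH F k n x₀ = R := by simp [limitH, h0, hR]
  have h2 : ∀ x : Fin N → ℝ, ∑ i, x i ^ (k + 1) ≤ limitH F k n x := fun x =>
    le_add_of_nonneg_right (mul_nonneg (by positivity) (hF x))
  have h3 : ∀ x : Fin N → ℝ, limitH F k n x ≤ R → ∀ i, |x i| ≤ R + 1 := fun x hx i => by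
    have h4 : x i ^ (k + 1) ≤ R :=
      (single_le_sum (fun i _ => hev.pow_nonneg (x i)) (mem_univ i)).trans ((h2 x).trans hx)
    rw [← hev.pow_abs] at h4
    by_contra h5
    have h6 : 1 ≤ |x i| := by linarith
    have h7 : |x i| ≤ |x i| ^ (k + 1) := le_self_pow₀ h6 (Nat.succ_ne_zero k)
    linarith
  have hc : Continuous (limitH (R := ℝ) F k n) := by
    have := limit_cont (R := ℝ) F
    unfold limitH
    fun_prop
  obtain ⟨x, hx⟩ := hc.exists_forall_le_of_isBounded x₀
    ((Metric.isBounded_closedBall (x := 0) (r := R + 1)).subset fun x hx => by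
      rw [mem_closedBall_zero_iff, pi_norm_le_iff_of_nonneg (by linarith)]
      exact h3 x (h1 ▸ hx))
  have h4 : limitH F k n x ≤ R := h1 ▸ hx x₀
  have h5 : 0 ≤ limitH F k n x := (sum_nonneg fun i _ => hev.pow_nonneg _).trans (h2 x)
  refine ⟨x, by rw [abs_of_nonneg h5]; linarith, h3 x h4, fun i => ?_⟩
  set G : MvPolynomial (Fin N) ℤ := ∑ i, X i ^ (k + 1) + C ((k + 1) * n : ℤ) * F with hG
  have h6 : ∀ y : Fin N → ℝ, aeval y G = limitH F k n y := fun y => by simp [hG, limitH]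
  have h7 : IsLocalMin (fun t => aeval (Function.update x i t) G) (x i) :=
    Eventually.of_forall fun t => by
      simp only [h6, Function.update_eq_self]
      exact hx _
  have h8 := h7.hasDerivAt_eq_zero (limit_deriv G x i)
  have h9 : aeval x (pderiv i G) = (k + 1) * (x i ^ k + n * aeval x (pderiv i F)) := by
    rw [hG, map_add, map_sum, pderiv_C_mul, sum_eq_single i]
    · simp
      ring
    · intro j _ hj
      simp [hj]
    · simp
  rw [h9] at h8
  exact (mul_eq_zero.mp h8).resolve_left (by positivity)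

theorem limit_back {k : ℕ} (F : MvPolynomial (Fin N) ℤ) (e : Fin (N + 1) → ℕ)
    (he : Function.Injective e) (τ : Fin (N + 1) → ℝ) {n : ℕ → ℕ} (hn : Tendsto n atTop atTop)
    (ξ : ℕ → Fin N → ℂ)
    (h : ∀ a, Tendsto (fun m => limitU F k (n m) (e a) (ξ m)) atTop (𝓝 (τ a))) :
    ∃ x : Fin N → ℝ, aeval x F = 0 := by
  set V := Matrix.vandermonde fun a => (e a : ℝ) with hV
  have h1 : IsUnit V.det := Ne.isUnit (Matrix.det_vandermonde_ne_zero_iff.mpr
    (Nat.cast_injective.comp he))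
  set w : ℕ → Fin (N + 1) → ℂ := fun m => Fin.cons (limitH F k (n m) (ξ m)) (ξ m) with hw
  have h2 : ∀ m a, limitU F k (n m) (e a) (ξ m) = ∑ b, (V a b : ℂ) * w m b := fun m a => by
    simp [limitU, hV, hw, Fin.sum_univ_succ]
  have h3 : ∀ m b, ∑ a, (V⁻¹ b a : ℂ) * limitU F k (n m) (e a) (ξ m) = w m b := fun m b => by
    have h4 : ∀ j, ∑ a, (V⁻¹ b a : ℂ) * V a j = if b = j then 1 else 0 := fun j => by
      have h5 := congrFun (congrFun (Matrix.nonsing_inv_mul V h1) b) j
      rw [Matrix.mul_apply, Matrix.one_apply] at h5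
      have h6 := congrArg Complex.ofReal h5
      simpa [apply_ite Complex.ofReal] using h6
    simp only [h2, mul_sum, ← mul_assoc]
    rw [sum_comm]
    simp [← sum_mul, h4]
  set y : Fin (N + 1) → ℝ := fun b => ∑ a, V⁻¹ b a * τ a with hy
  have h4 : ∀ b, Tendsto (fun m => w m b) atTop (𝓝 (y b)) := fun b => by
    have h5 := tendsto_finsetSum univ fun a _ => (h a).const_mul (V⁻¹ b a : ℂ)
    simpa [h3, hy] using h5
  have h5 : Tendsto ξ atTop (𝓝 fun i => (y i.succ : ℂ)) :=
    tendsto_pi_nhds.mpr fun i => by simpa [hw] using h4 i.succ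
  have h6 : Tendsto (fun m => limitH F k (n m) (ξ m)) atTop (𝓝 (y 0)) := by
    simpa [hw] using h4 0
  have h7 : Tendsto (fun m => ((n m : ℂ))⁻¹) atTop (𝓝 0) :=
    (tendsto_inv_atTop_nhds_zero_nat (𝕜 := ℂ)).comp hn
  have h8 := ((h6.sub (tendsto_finsetSum univ fun i _ =>
    (tendsto_pi_nhds.mp h5 i).pow (k + 1))).mul h7).div_const ((k + 1 : ℕ) : ℂ)
  rw [mul_zero, zero_div] at h8
  have h9 : Tendsto (fun m => aeval (ξ m) F) atTop (𝓝 0) := by
    refine h8.congr' ?_
    filter_upwards [hn.eventually_ne_atTop 0] with m hm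
    have k1 : (n m : ℂ) ≠ 0 := Nat.cast_ne_zero.mpr hm
    have k2 : ((k + 1 : ℕ) : ℂ) ≠ 0 := Nat.cast_ne_zero.mpr (Nat.succ_ne_zero k)
    rw [limitH, add_sub_cancel_left]
    field_simp
  have h10 := tendsto_nhds_unique (((limit_cont F).tendsto _).comp h5) h9
  rw [limit_cast] at h10
  exact ⟨_, by exact_mod_cast h10⟩

theorem hasZero_iff {N k B : ℕ} (F : MvPolynomial (Fin N) ℤ)
    (hF : ∀ x : Fin N → ℝ, 0 ≤ aeval x F) (hk : Odd k) (hd : F.totalDegree ≤ k)
    (hB : ∀ c ≤ N * k ^ N, ∀ j ≤ k ^ N, (uS F k c ^ j * jac k (hS F)).totalDegree < B) :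
    (∀ c ≤ N * k ^ N, chi F k B c ≠ 0) ∧ ((∃ x : Fin N → ℝ, aeval x F = 0) ↔
      ∀ c ≤ N * k ^ N, ∃ τ : ℝ, Polynomial.aeval τ (chi F k B c).leadingCoeff = 0) := by
  classical
  choose Z hZ hΛ using limit_points (B := B) F hk.pos hd
  choose Λ k1 k2 k3 k4 using fun n c (hc : c ≤ N * k ^ N) => hΛ n c (hB c hc)
  have hne : ∀ c ≤ N * k ^ N, chi F k B c ≠ 0 := fun c hc h0 => by
    obtain ⟨t, ht⟩ := (Λ 0 c hc).toFinset.exists_notMem
    have h1 := k2 0 c hc t
    have h2 : (((k ^ N).factorial : ℕ) : ℂ) ≠ 0 := Nat.cast_ne_zero.mpr (Nat.factorial_ne_zero _)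
    rw [h0, map_zero] at h1
    refine mul_ne_zero (mul_ne_zero h2 (pow_ne_zero _ (by simpa using h2)))
      (Multiset.prod_ne_zero fun h3 => ?_) h1.symm
    obtain ⟨l, hl, h4⟩ := Multiset.mem_map.mp h3
    exact ht (Multiset.mem_toFinset.mpr (sub_eq_zero.mp h4 ▸ hl))
  have hcast : ∀ (t : ℝ) (P : Polynomial ℤ),
      Polynomial.aeval (t : ℂ) P = 0 ↔ Polynomial.aeval t P = 0 := fun t P =>
    Polynomial.aeval_algebraMap_eq_zero_iff_of_injective Complex.ofReal_injective
  refine ⟨hne, fun ⟨x₀, h0⟩ c hc => ?_, fun h => ?_⟩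
  · obtain ⟨R, hR⟩ := limit_min F hF hk h0
    choose x h1 h2 h3 using hR
    obtain ⟨t, -, φ, hφ, ht⟩ := tendsto_subseq_of_bounded (Metric.isBounded_closedBall
      (x := 0) (r := R + ∑ i : Fin N, (c : ℝ) ^ (i.val + 1) * R))
      (x := fun n => limitU F k n c (x n)) fun n => by
        rw [mem_closedBall_zero_iff, Real.norm_eq_abs]
        refine (abs_add_le _ _).trans (add_le_add (h1 n)
          ((abs_sum_le_sum_abs _ _).trans (sum_le_sum fun i _ => ?_)))
        rw [abs_mul, abs_of_nonneg (by positivity)]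
        exact mul_le_mul_of_nonneg_left (h2 n i) (by positivity)
    have h4 := limit_asymp (chi F k B c) hφ.tendsto_atTop
      ((Complex.continuous_ofReal.tendsto t).comp ht)
    have h5 : ∀ n, limitEv n (limitU F k n c (x n) : ℝ) (chi F k B c) = 0 := fun n => by
      have h6 := k4 n c hc (fun i => x n i) fun i => by
        rw [limit_cast]
        exact_mod_cast h3 n i
      have h7 : limitU F k n c (fun i => (x n i : ℂ)) = (limitU F k n c (x n) : ℝ) := by
        simp [limitU, limitH, limit_cast]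
      rw [k2 n c hc, Multiset.prod_eq_zero, mul_zero]
      exact Multiset.mem_map.mpr ⟨_, h6, by rw [h7, sub_self]⟩
    simp only [Function.comp, h5, zero_div] at h4
    exact ⟨t, (hcast _ _).mp (tendsto_nhds_unique h4 tendsto_const_nhds)⟩
  · choose! τ hτ using h
    have h1 : ∀ m : ℕ, ∃ T ∈ (range (N * k ^ N + 1)).powerset, N + 1 ≤ T.card ∧ ∃ n ≥ m,
        ∃ ξ : Fin N → ℂ, ∀ c ∈ T, ‖(τ c : ℂ) - limitU F k n c ξ‖ < 1 / ((m : ℝ) + 1) := by
      intro m
      have h2 : ∀ᶠ n in atTop, ∀ c ∈ range (N * k ^ N + 1), ∃ ξ ∈ Z n,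
          ‖(τ c : ℂ) - limitU F k n c ξ‖ < 1 / ((m : ℝ) + 1) := by
        rw [eventually_all_finset]
        intro c hc
        have hc' : c ≤ N * k ^ N := Nat.lt_succ_iff.mp (mem_range.mp hc)
        filter_upwards [limit_near _ (hne c hc') (fun n => Λ n c hc') (fun n => k1 n c hc')
          (fun n => k2 n c hc') ((hcast _ _).mpr (hτ c hc')) (Nat.one_div_pos_of_nat (n := m))]
          with n ⟨l, hl, h3⟩
        obtain ⟨ξ, h4, rfl⟩ := k3 n c hc' l hl
        exact ⟨ξ, h4, h3⟩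
      obtain ⟨n, hn, h3⟩ := ((eventually_ge_atTop m).and h2).exists
      choose! f h4 h5 using h3
      obtain ⟨ξ, -, h6⟩ := exists_lt_card_fiber_of_mul_lt_card_of_maps_to h4 (n := N) (by
        rw [card_range, mul_comm]
        exact Nat.lt_succ_of_le (Nat.mul_le_mul_left _ (hZ n)))
      refine ⟨_, mem_powerset.mpr (filter_subset _ _), h6, n, hn, ξ, fun c hc => ?_⟩
      rw [mem_filter] at hc
      exact hc.2 ▸ h5 c hc.1
    have h2 : ∃ T ∈ (range (N * k ^ N + 1)).powerset, ∃ᶠ m : ℕ in atTop, N + 1 ≤ T.card ∧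
        ∃ n ≥ m, ∃ ξ : Fin N → ℂ, ∀ c ∈ T,
          ‖(τ c : ℂ) - limitU F k n c ξ‖ < 1 / ((m : ℝ) + 1) := by
      by_contra h3
      simp only [not_exists, not_and, not_frequently] at h3
      obtain ⟨m, hm⟩ := ((eventually_all_finset _).mpr h3).exists
      obtain ⟨T, h4, h5, h6⟩ := h1 m
      exact (not_exists.mpr fun n => not_and.mpr fun h7 => not_exists.mpr (hm T h4 h5 n h7)) h6
    obtain ⟨T, -, h3⟩ := h2
    obtain ⟨φ, hφ, h4⟩ := extraction_of_frequently_atTop h3
    choose h5 n hn ξ h6 using h4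
    obtain ⟨T', h7, h8⟩ := exists_subset_card_eq (h5 0)
    refine limit_back (k := k) F (T'.orderEmbOfFin h8) (T'.orderEmbOfFin h8).injective
      (fun a => τ (T'.orderEmbOfFin h8 a)) (tendsto_atTop_mono hn hφ.tendsto_atTop) ξ fun a => ?_
    rw [tendsto_iff_norm_sub_tendsto_zero]
    refine squeeze_zero (fun _ => norm_nonneg _) (fun m => ?_)
      (tendsto_one_div_add_atTop_nhds_zero_nat.comp hφ.tendsto_atTop)
    rw [norm_sub_rev]
    exact (h6 m _ (h7 (T'.orderEmbOfFin_mem h8 a))).le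

end Vale.Agent.P337
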