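import Mathlib

/-!
Linear algebra for the trace formula: power traces of an endomorphism and characters of a finite
dimensional commutative algebra.
-/

namespace Vale.Agent.P337

open Finset Module

theorem pointsLin_trace_pow {V : Type} [AddCommGroup V] [Module ℂ V] [FiniteDimensional ℂ V]
    (g : Module.End ℂ V) (μ : ℂ) (hg : IsNilpotent (g - algebraMap ℂ _ μ)) (j : ℕ) :
    LinearMap.trace ℂ V (g ^ j) = (finrank ℂ V : ℂ) * μ ^ j := by
  induction j with
  | zero => simp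
  | succ j ih =>
    rw [pow_succ, Module.End.mul_eq_comp,
      LinearMap.trace_comp_eq_mul_of_commute_of_isNilpotent μ ((Commute.refl g).pow_left j) hg, ih]
    ring

theorem pointsLin_eigen {V : Type} [AddCommGroup V] [Module ℂ V] [FiniteDimensional ℂ V]
    (f : Module.End ℂ V) : ∃ Λ : Multiset ℂ,
      (∀ j, LinearMap.trace ℂ V (f ^ j) = (Λ.map (· ^ j)).sum) ∧
      ∀ l, l ∈ Λ ↔ f.HasEigenvalue l := by
  classical
  have hds := DirectSum.isInternal_submodule_of_iSupIndep_of_iSup_eq_top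
    f.independent_maxGenEigenspace (Module.End.iSup_maxGenEigenspace_eq_top f)
  have hfin : {μ | f.maxGenEigenspace μ ≠ ⊥}.Finite :=
    WellFoundedGT.finite_ne_bot_of_iSupIndep f.independent_maxGenEigenspace
  refine ⟨∑ μ ∈ hfin.toFinset, Multiset.replicate (finrank ℂ (f.maxGenEigenspace μ)) μ, ?_, ?_⟩
  · intro j
    have hm : ∀ μ, Set.MapsTo (f ^ j) ↑(f.maxGenEigenspace μ) ↑(f.maxGenEigenspace μ) :=
      fun μ => f.mapsTo_maxGenEigenspace_of_comm ((Commute.refl f).pow_right j) μ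
    rw [LinearMap.trace_eq_sum_trace_restrict' hds hfin hm, ← Multiset.coe_mapAddMonoidHom,
      map_sum, Multiset.sum_sum]
    refine sum_congr rfl fun μ _ => ?_
    have hf' := f.mapsTo_maxGenEigenspace_of_comm (Commute.refl _) μ
    have hn := f.isNilpotent_restrict_maxGenEigenspace_sub_algebraMap μ
    have h1 : (f ^ j).restrict (hm μ) = (f.restrict hf') ^ j :=
      (Module.End.pow_restrict j hf' (hm μ)).symm
    rw [h1, pointsLin_trace_pow (f.restrict hf') μ hn j]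
    simp
  · intro l
    rw [Multiset.mem_sum]
    simp only [Set.Finite.mem_toFinset, Set.mem_ofPred_eq, Multiset.mem_replicate]
    refine Iff.trans ?_
      (Module.End.hasUnifEigenvalue_iff_hasUnifEigenvalue_one (k := ⊤) ENat.top_pos)
    constructor
    · rintro ⟨μ, hμ, -, rfl⟩
      exact hμ
    · intro hl
      exact ⟨l, hl, fun h0 => hl (Submodule.finrank_eq_zero.mp h0), rfl⟩

theorem pointsLin_char {A : Type} [CommRing A] [Algebra ℂ A] [FiniteDimensional ℂ A] (u : A)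
    (l : ℂ) : (Algebra.lmul ℂ A u).HasEigenvalue l ↔ ∃ χ : A →ₐ[ℂ] ℂ, χ u = l := by
  rw [Module.End.hasEigenvalue_iff_mem_spectrum, spectrum.mem_iff,
    ← (Algebra.lmul ℂ A).commutes, ← map_sub, Algebra.lmul_isUnit_iff]
  constructor
  · intro hu
    obtain ⟨m, hm, hum⟩ := exists_max_ideal_of_mem_nonunits (mem_nonunits_iff.mpr hu)
    have : IsDomain (A ⧸ m) := Ideal.Quotient.isDomain m
    have hb : Function.Bijective (Algebra.ofId ℂ (A ⧸ m)) :=
      IsAlgClosed.algebraMap_bijective_of_isIntegral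
    let e := AlgEquiv.ofBijective (Algebra.ofId ℂ (A ⧸ m)) hb
    refine ⟨(e.symm : A ⧸ m →ₐ[ℂ] ℂ).comp (Ideal.Quotient.mkₐ ℂ m), ?_⟩
    have h0 : Ideal.Quotient.mkₐ ℂ m (algebraMap ℂ A l - u) = 0 :=
      Ideal.Quotient.eq_zero_iff_mem.mpr hum
    rw [map_sub, sub_eq_zero, AlgHom.commutes] at h0
    rw [AlgHom.comp_apply, ← h0, AlgHom.commutes]
    rfl
  · rintro ⟨χ, rfl⟩ hu
    have := hu.map χ
    simp at this

theorem pointsLin_dual {A ι : Type} [CommRing A] [Algebra ℂ A] (ρ : A →ₗ[ℂ] ℂ) (s : Finset ι)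
    (a d : ι → A) (h : ∀ φ, φ = ∑ i ∈ s, ρ (a i * φ) • d i) :
    ∃ _ : FiniteDimensional ℂ A, ∀ v, LinearMap.trace ℂ A (Algebra.lmul ℂ A v) =
      ρ (v * ∑ i ∈ s, a i * d i) := by
  classical
  have hfin : FiniteDimensional ℂ A := by
    refine ⟨⟨s.image d, eq_top_iff.mpr fun φ _ => ?_⟩⟩
    rw [h φ]
    refine Submodule.sum_mem _ fun i hi => Submodule.smul_mem _ _ (Submodule.subset_span ?_)
    exact mem_coe.mpr (mem_image_of_mem d hi)
  refine ⟨hfin, fun v => ?_⟩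
  have h1 : Algebra.lmul ℂ A v =
      ∑ i ∈ s, (ρ ∘ₗ Algebra.lmul ℂ A (a i * v)).smulRight (d i) := by
    ext φ
    rw [LinearMap.sum_apply]
    simp only [LinearMap.smulRight_apply, LinearMap.comp_apply, Algebra.coe_lmul_eq_mul,
      LinearMap.mul_apply', mul_assoc]
    exact h _
  rw [h1, map_sum, mul_sum, map_sum]
  refine sum_congr rfl fun i _ => ?_
  rw [LinearMap.trace_smulRight]
  simp only [LinearMap.comp_apply, Algebra.coe_lmul_eq_mul, LinearMap.mul_apply']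
  congr 1
  ring

/-- The abstract form of the statement, for an algebra with a dual system. -/
theorem pointsLin_main {A ι : Type} [CommRing A] [Algebra ℂ A] (ρ : A →ₗ[ℂ] ℂ) (s : Finset ι)
    (a d : ι → A) (h : ∀ φ, φ = ∑ i ∈ s, ρ (a i * φ) • d i) (D : ℕ)
    (hD : ρ (∑ i ∈ s, a i * d i) = D) :
    ∃ T : Finset (A →ₐ[ℂ] ℂ), T.card ≤ D ∧ ∀ u : A, ∃ Λ : Multiset ℂ, Λ.card = D ∧
      (∀ j, ρ (u ^ j * ∑ i ∈ s, a i * d i) = (Λ.map (· ^ j)).sum) ∧
      (∀ l ∈ Λ, ∃ χ ∈ T, χ u = l) ∧ ∀ χ : A →ₐ[ℂ] ℂ, χ u ∈ Λ := by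
  obtain ⟨hfin, htr⟩ := pointsLin_dual ρ s a d h
  have hrank : finrank ℂ A = D := by
    have h1 := htr 1
    rw [one_mul, hD, map_one, LinearMap.trace_one] at h1
    exact_mod_cast h1
  have : Fintype (A →ₐ[ℂ] ℂ) := Fintype.ofFinite _
  refine ⟨univ, ?_, fun u => ?_⟩
  · have := card_algHom_le_finrank ℂ A ℂ
    rwa [Nat.card_eq_fintype_card, hrank] at this
  obtain ⟨Λ, h1, h2⟩ := pointsLin_eigen (Algebra.lmul ℂ A u)
  have h3 : ∀ j, ρ (u ^ j * ∑ i ∈ s, a i * d i) = (Λ.map (· ^ j)).sum := fun j => by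
    rw [← htr, map_pow, h1]
  refine ⟨Λ, ?_, h3, fun l hl => ?_, fun χ => ?_⟩
  · have h4 := h3 0
    rw [pow_zero, one_mul, hD] at h4
    simp only [pow_zero, Multiset.map_const', Multiset.sum_replicate, nsmul_eq_mul, mul_one] at h4
    exact_mod_cast h4.symm
  · obtain ⟨χ, hχ⟩ := (pointsLin_char u l).mp ((h2 l).mp hl)
    exact ⟨χ, mem_univ _, hχ⟩
  · exact (h2 _).mpr ((pointsLin_char u _).mpr ⟨χ, rfl⟩)

end Vale.Agent.P337
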