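import Mathlib

/-!
Degree bookkeeping for the trace formula: polynomials of total degree below a bound, determinants
and divided differences.
-/

namespace Vale.Agent.P337

open Finset MvPolynomial

section

variable {R : Type} [CommRing R] {N : ℕ}

/-- All monomials of `f` have degree below `n`. -/
def PointsLow (n : ℕ) (f : MvPolynomial (Fin N) R) : Prop :=
  ∀ m : Fin N →₀ ℕ, n ≤ m.degree → coeff m f = 0

theorem pointsLow_zero (n : ℕ) : PointsLow n (0 : MvPolynomial (Fin N) R) :=
  fun _ _ => coeff_zero _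

theorem pointsLow_add {n : ℕ} {f g : MvPolynomial (Fin N) R} (hf : PointsLow n f)
    (hg : PointsLow n g) : PointsLow n (f + g) := fun m hm => by
  rw [coeff_add, hf m hm, hg m hm, add_zero]

theorem pointsLow_sub {n : ℕ} {f g : MvPolynomial (Fin N) R} (hf : PointsLow n f)
    (hg : PointsLow n g) : PointsLow n (f - g) := fun m hm => by
  rw [coeff_sub, hf m hm, hg m hm, sub_zero]

theorem pointsLow_neg {n : ℕ} {f : MvPolynomial (Fin N) R} (hf : PointsLow n f) :
    PointsLow n (-f) := fun m hm => by
  rw [coeff_neg, hf m hm, neg_zero]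

theorem pointsLow_mono {n n' : ℕ} {f : MvPolynomial (Fin N) R} (hf : PointsLow n f)
    (h : n ≤ n') : PointsLow n' f := fun m hm => hf m (h.trans hm)

theorem pointsLow_sum {ι : Type} {n : ℕ} {s : Finset ι} {f : ι → MvPolynomial (Fin N) R}
    (hf : ∀ i ∈ s, PointsLow n (f i)) : PointsLow n (∑ i ∈ s, f i) := fun m hm => by
  rw [coeff_sum]
  exact sum_eq_zero fun i hi => hf i hi m hm

theorem pointsLow_mul {a b : ℕ} {f g : MvPolynomial (Fin N) R} (hf : PointsLow (a + 1) f)
    (hg : PointsLow b g) : PointsLow (a + b) (f * g) := fun m hm => by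
  classical
  rw [coeff_mul]
  refine sum_eq_zero fun p hp => ?_
  have h1 : p.1.degree + p.2.degree = m.degree := by
    rw [← map_add, mem_antidiagonal.mp hp]
  by_cases h2 : a + 1 ≤ p.1.degree
  · rw [hf _ h2, zero_mul]
  · rw [hg p.2 (by omega), mul_zero]

theorem pointsLow_of_totalDegree {n : ℕ} {f : MvPolynomial (Fin N) R} (hf : f.totalDegree < n) :
    PointsLow n f := fun m hm =>
  coeff_eq_zero_of_totalDegree_lt (by
    rw [Finsupp.degree_apply] at hm
    exact hf.trans_le hm)

theorem pointsLow_monomial (s : Fin N →₀ ℕ) (a : R) :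
    PointsLow (s.degree + 1) (monomial s a) := fun m hm => by
  classical
  rw [coeff_monomial, if_neg]
  rintro rfl
  omega

theorem pointsLow_C (a : R) : PointsLow 1 (C a : MvPolynomial (Fin N) R) := by
  simpa using pointsLow_monomial (0 : Fin N →₀ ℕ) a

theorem pointsLow_X_pow (i : Fin N) (e : ℕ) :
    PointsLow (e + 1) (X i ^ e : MvPolynomial (Fin N) R) := by
  simpa [X_pow_eq_monomial] using pointsLow_monomial (Finsupp.single i e) (1 : R)

theorem pointsLow_X (i : Fin N) : PointsLow (1 + 1) (X i : MvPolynomial (Fin N) R) := by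
  simpa using pointsLow_X_pow (R := R) i 1

theorem pointsLow_map {R' : Type} [CommRing R'] (φ : R →+* R') {n : ℕ}
    {f : MvPolynomial (Fin N) R} (hf : PointsLow n f) : PointsLow n (map φ f) := fun m hm => by
  rw [coeff_map, hf m hm, map_zero]

theorem pointsLow_pderiv {n : ℕ} {f : MvPolynomial (Fin N) R} (hf : PointsLow (n + 1) f)
    (j : Fin N) : PointsLow n (pderiv j f) := fun m hm => by
  rw [coeff_pderiv, hf _ (by rw [map_add, Finsupp.degree_single]; omega), zero_mul]

theorem pointsLow_prod {ι : Type} (s : Finset ι) (e : ι → ℕ) (f : ι → MvPolynomial (Fin N) R)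
    (hf : ∀ i, PointsLow (e i + 1) (f i)) : PointsLow (∑ i ∈ s, e i + 1) (∏ i ∈ s, f i) := by
  classical
  induction s using Finset.induction_on with
  | empty => simpa using pointsLow_C (N := N) (1 : R)
  | insert a s ha ih =>
    rw [prod_insert ha, sum_insert ha, add_assoc]
    exact pointsLow_mul (hf a) ih

theorem pointsLow_pow {e : ℕ} {f : MvPolynomial (Fin N) R} (hf : PointsLow (e + 1) f) (m : ℕ) :
    PointsLow (e * m + 1) (f ^ m) := by
  simpa [mul_comm] using pointsLow_prod (range m) (fun _ => e) (fun _ => f) fun _ => hf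

theorem pointsLow_prod_sub {ι : Type} (s : Finset ι) (e : ℕ) (f d : ι → MvPolynomial (Fin N) R)
    (hd : ∀ i, PointsLow (e + 1) (d i)) (hf : ∀ i, PointsLow e (f i - d i)) :
    PointsLow (s.card * e) (∏ i ∈ s, f i - ∏ i ∈ s, d i) := by
  classical
  have hf' : ∀ i, PointsLow (e + 1) (f i) := fun i => by
    have := pointsLow_add (pointsLow_mono (hf i) (Nat.le_succ e)) (hd i)
    rwa [sub_add_cancel] at this
  induction s using Finset.induction_on with
  | empty => simpa using pointsLow_zero (N := N) (R := R) 0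
  | insert a s ha ih =>
    rw [prod_insert ha, prod_insert ha, card_insert_of_notMem ha]
    have h1 : f a * ∏ i ∈ s, f i - d a * ∏ i ∈ s, d i =
        f a * (∏ i ∈ s, f i - ∏ i ∈ s, d i) + (∏ i ∈ s, d i) * (f a - d a) := by ring
    rw [h1]
    refine pointsLow_add (pointsLow_mono (pointsLow_mul (hf' a) ih) (by ring_nf; rfl))
      (pointsLow_mono (pointsLow_mul (pointsLow_prod s (fun _ => e) d hd) (hf a)) ?_)
    rw [sum_const, smul_eq_mul, add_mul, one_mul]

/-- The exponent of the top monomial. -/
noncomputable def pointsTop (N e : ℕ) : Fin N →₀ ℕ := Finsupp.equivFunOnFinite.symm fun _ => e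

theorem pointsTop_degree (N e : ℕ) : (pointsTop N e).degree = N * e := by
  simp [Finsupp.degree_eq_sum, pointsTop]

theorem pointsLow_det (e : ℕ) (c : R) (M : Matrix (Fin N) (Fin N) (MvPolynomial (Fin N) R))
    (hM : ∀ i j, PointsLow e (M i j - if i = j then C c * X i ^ e else 0)) :
    PointsLow (N * e + 1) M.det ∧ coeff (pointsTop N e) M.det = c ^ N := by
  classical
  let D : Matrix (Fin N) (Fin N) (MvPolynomial (Fin N) R) :=
    Matrix.diagonal fun i => C c * X i ^ e
  have hD : ∀ i j, PointsLow (e + 1) (D i j) := fun i j => by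
    simp only [D, Matrix.diagonal_apply]
    split_ifs
    · simpa using pointsLow_mul (a := 0) (pointsLow_C c) (pointsLow_X_pow i e)
    · exact pointsLow_zero _
  have h1 : PointsLow (N * e) (M.det - D.det) := by
    rw [Matrix.det_apply', Matrix.det_apply', ← sum_sub_distrib]
    refine pointsLow_sum fun σ _ => ?_
    rw [← mul_sub]
    have h2 := pointsLow_prod_sub univ e (fun i => M (σ i) i) (fun i => D (σ i) i)
      (fun i => hD _ _) fun i => by simpa only [D, Matrix.diagonal_apply] using hM (σ i) i
    rw [card_univ, Fintype.card_fin] at h2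
    have h3 := pointsLow_mul (a := 0) (pointsLow_C (N := N) (((Equiv.Perm.sign σ : ℤˣ) : ℤ) : R)) h2
    rwa [zero_add, map_intCast] at h3
  have h4 : D.det = monomial (pointsTop N e) (c ^ N) := by
    rw [Matrix.det_diagonal, prod_mul_distrib, prod_const, card_univ, Fintype.card_fin,
      monomial_eq, Finsupp.prod_fintype _ _ (by simp), map_pow]
    rfl
  have h5 : M.det = (M.det - D.det) + D.det := by ring
  constructor
  · rw [h5]
    refine pointsLow_add (pointsLow_mono h1 (Nat.le_succ _)) ?_
    rw [h4, ← pointsTop_degree]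
    exact pointsLow_monomial _ _
  · rw [h5, coeff_add, h1 _ (pointsTop_degree N e).ge, h4, coeff_monomial, if_pos rfl, zero_add]

/-- Divided differences of `f` of degree below `n`. -/
def PointsDiv (n : ℕ) (f : MvPolynomial (Fin N) R) : Prop :=
  ∃ G : Fin N → MvPolynomial (Fin N) (MvPolynomial (Fin N) R), (∀ j, PointsLow n (G j)) ∧
    map C f - C f = ∑ j, G j * (X j - C (X j)) ∧ ∀ j, eval X (G j) = pderiv j f

theorem pointsDiv_C (n : ℕ) (a : R) : PointsDiv n (C a : MvPolynomial (Fin N) R) :=
  ⟨0, fun _ => pointsLow_zero _, by simp, by simp⟩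

theorem pointsDiv_add {n : ℕ} {f g : MvPolynomial (Fin N) R} (hf : PointsDiv n f)
    (hg : PointsDiv n g) : PointsDiv n (f + g) := by
  obtain ⟨F, h1, h2, h3⟩ := hf
  obtain ⟨G, h4, h5, h6⟩ := hg
  refine ⟨fun j => F j + G j, fun j => pointsLow_add (h1 j) (h4 j), ?_, fun j => ?_⟩
  · simp only [add_mul, sum_add_distrib, ← h2, ← h5, map_add]
    ring
  · rw [map_add, map_add, h3, h6]

theorem pointsDiv_X_mul {n : ℕ} {f : MvPolynomial (Fin N) R} (hf : PointsDiv n f) (l : Fin N) :
    PointsDiv (n + 1) (X l * f) := by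
  classical
  obtain ⟨F, h1, h2, h3⟩ := hf
  refine ⟨fun j => X l * F j + if j = l then C f else 0, fun j => ?_, ?_, fun j => ?_⟩
  · refine pointsLow_add (pointsLow_mono (pointsLow_mul (pointsLow_X l) (h1 j)) (by omega)) ?_
    split_ifs
    · exact pointsLow_mono (pointsLow_C _) (by omega)
    · exact pointsLow_zero _
  · simp only [add_mul, sum_add_distrib, mul_assoc, ← mul_sum, ← h2, ite_mul, zero_mul,
      sum_ite_eq', mem_univ, if_true, map_mul, map_X]
    ring
  · rw [map_add, map_mul, h3, eval_X, pderiv_mul, pderiv_X, Pi.single_apply, add_comm]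
    by_cases h : j = l
    · subst h
      simp
    · simp [h, Ne.symm h]

theorem pointsDiv_monomial (n : ℕ) (s : Fin N →₀ ℕ) (hs : s.degree ≤ n) (a : R) :
    PointsDiv n (monomial s a) := by
  classical
  induction n generalizing s with
  | zero =>
    have : s = 0 := (Finsupp.degree_eq_zero_iff s).mp (by omega)
    subst this
    exact pointsDiv_C _ _
  | succ n ih =>
    by_cases h0 : s = 0
    · subst h0
      exact pointsDiv_C _ _
    obtain ⟨l, hl⟩ := Finsupp.ne_iff.mp h0
    have h1 : s = Finsupp.single l 1 + (s - Finsupp.single l 1) :=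
      (add_tsub_cancel_of_le (Finsupp.single_le_iff.mpr (Nat.one_le_iff_ne_zero.mpr hl))).symm
    have h2 : (s - Finsupp.single l 1).degree ≤ n := by
      rw [h1, map_add, Finsupp.degree_single] at hs
      omega
    have h3 := pointsDiv_X_mul (ih _ h2) l
    rwa [X, monomial_mul, one_mul, ← h1] at h3

theorem pointsDiv_of_low {n : ℕ} {f : MvPolynomial (Fin N) R} (hf : PointsLow (n + 1) f) :
    PointsDiv n f := by
  rw [f.as_sum]
  refine sum_induction _ (PointsDiv n) (fun _ _ => pointsDiv_add) ?_ fun s hs => ?_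
  · simpa using pointsDiv_C (N := N) n (0 : R)
  · refine pointsDiv_monomial n s ?_ _
    by_contra h
    exact mem_support_iff.mp hs (hf s (by omega))

theorem pointsDiv_pow (i : Fin N) (e : ℕ) :
    ∃ q : MvPolynomial (Fin N) (MvPolynomial (Fin N) R), PointsLow e (q - X i ^ e) ∧
      X i ^ (e + 1) - C (X i ^ (e + 1)) = q * (X i - C (X i)) ∧
      eval X q = ((e + 1 : ℕ) : MvPolynomial (Fin N) R) * X i ^ e := by
  induction e with
  | zero => exact ⟨1, by simpa using pointsLow_zero _, by simp, by simp⟩
  | succ e ih =>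
    obtain ⟨q, h1, h2, h3⟩ := ih
    refine ⟨X i * q + C (X i ^ (e + 1)), ?_, ?_, ?_⟩
    · have h4 : X i * q + C (X i ^ (e + 1)) - X i ^ (e + 1) =
          X i * (q - X i ^ e) + C (X i ^ (e + 1)) := by ring
      rw [h4]
      exact pointsLow_add (pointsLow_mono (pointsLow_mul (pointsLow_X i) h1) (by omega))
        (pointsLow_mono (pointsLow_C _) (by omega))
    · rw [add_mul, mul_assoc, ← h2]
      simp only [map_pow]
      ring
    · rw [map_add, map_mul, h3, eval_X, eval_C]
      push_cast
      ring

end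

end Vale.Agent.P337
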