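import Vale.Agent.P337.Alg
import Vale.Agent.P337.PointsLow

/-!
The global residue as a linear functional and the Bezoutian identity.
-/

namespace Vale.Agent.P337

open Finset MvPolynomial

section

variable {R : Type} [CommRing R] {N e : ℕ} {h : Fin N → MvPolynomial (Fin N) R}

/-- The exponent that occurs in the residue formula. -/
noncomputable def pointsIdx (e : ℕ) (m : Fin N → ℕ) : Fin N →₀ ℕ :=
  Finsupp.equivFunOnFinite.symm fun i => (e + 1) * (m i + 1) - 1

theorem pointsIdx_apply (e : ℕ) (m : Fin N → ℕ) (i : Fin N) :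
    pointsIdx e m i = e * m i + m i + e := by
  have h1 : (e + 1) * (m i + 1) = e * m i + m i + e + 1 := by ring
  simp [pointsIdx, h1]

/-- One term of the residue formula. -/
noncomputable def pointsTerm (e : ℕ) (h : Fin N → MvPolynomial (Fin N) R)
    (φ : MvPolynomial (Fin N) R) (m : Fin N → ℕ) : R :=
  coeff (pointsIdx e m) (φ * ∏ i, h i ^ m i)

theorem pointsTerm_eq_zero (hh : ∀ i, PointsLow (e + 1) (h i)) {b : ℕ}
    {φ : MvPolynomial (Fin N) R} (hφ : PointsLow b φ) {m : Fin N → ℕ}
    (hm : b ≤ ∑ i, m i + N * e) : pointsTerm e h φ m = 0 := by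
  have h1 := pointsLow_mul
    (pointsLow_prod univ (fun i => e * m i) (fun i => h i ^ m i) fun i => pointsLow_pow (hh i) _) hφ
  rw [pointsTerm, mul_comm]
  refine h1 _ ?_
  simp only [Finsupp.degree_eq_sum, pointsIdx_apply, sum_add_distrib, sum_const, card_univ,
    Fintype.card_fin, smul_eq_mul]
  omega

theorem pointsTerm_support (hh : ∀ i, PointsLow (e + 1) (h i)) {b : ℕ}
    {φ : MvPolynomial (Fin N) R} (hφ : PointsLow b φ) :
    Function.support (pointsTerm e h φ) ⊆ ↑(Fintype.piFinset fun _ : Fin N => range b) := by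
  intro m hm
  rw [mem_coe, Fintype.mem_piFinset]
  intro i
  rw [mem_range]
  by_contra hi
  refine hm (pointsTerm_eq_zero hh hφ ?_)
  have := single_le_sum (f := m) (fun j _ => Nat.zero_le _) (mem_univ i)
  omega

theorem pointsTerm_finite (hh : ∀ i, PointsLow (e + 1) (h i)) (φ : MvPolynomial (Fin N) R) :
    (Function.support (pointsTerm e h φ)).Finite :=
  (finite_toSet _).subset (pointsTerm_support hh (pointsLow_of_totalDegree (Nat.lt_succ_self _)))

/-- The global residue. -/
noncomputable def pointsRes (hh : ∀ i, PointsLow (e + 1) (h i)) :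
    MvPolynomial (Fin N) R →ₗ[R] R where
  toFun φ := ∑ᶠ m, pointsTerm e h φ m
  map_add' φ ψ := by
    rw [← finsum_add_distrib (pointsTerm_finite hh φ) (pointsTerm_finite hh ψ)]
    refine finsum_congr fun m => ?_
    simp only [pointsTerm, add_mul, coeff_add]
  map_smul' r φ := by
    rw [RingHom.id_apply, smul_finsum' r (pointsTerm_finite hh φ)]
    refine finsum_congr fun m => ?_
    simp only [pointsTerm, smul_mul_assoc, coeff_smul]

theorem pointsRes_eq_rho (hh : ∀ i, PointsLow (e + 1) (h i)) {b : ℕ}
    {φ : MvPolynomial (Fin N) R} (hφ : PointsLow b φ) : pointsRes hh φ = rho (e + 1) b h φ :=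
  finsum_eq_sum_of_support_subset _ (pointsTerm_support hh hφ)

theorem pointsRes_map {R' : Type} [CommRing R'] (f : R →+* R') (hh : ∀ i, PointsLow (e + 1) (h i))
    (φ : MvPolynomial (Fin N) R) :
    pointsRes (fun i => pointsLow_map f (hh i)) (map f φ) = f (pointsRes hh φ) := by
  have h1 := pointsLow_of_totalDegree (Nat.lt_succ_self φ.totalDegree)
  rw [pointsRes_eq_rho hh h1, pointsRes_eq_rho _ (pointsLow_map f h1), map_rho]

theorem pointsRes_top (hh : ∀ i, PointsLow (e + 1) (h i)) {φ : MvPolynomial (Fin N) R}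
    (hφ : PointsLow (N * e + 1) φ) : pointsRes hh φ = coeff (pointsTop N e) φ := by
  have h1 : pointsRes hh φ = pointsTerm e h φ 0 := by
    refine finsum_eq_single _ _ fun m hm => pointsTerm_eq_zero hh hφ ?_
    obtain ⟨i, hi⟩ := Function.ne_iff.mp hm
    have := single_le_sum (f := m) (fun j _ => Nat.zero_le _) (mem_univ i)
    have h2 : m i ≠ 0 := hi
    omega
  rw [h1, pointsTerm]
  congr 1
  · ext i
    simp [pointsIdx_apply, pointsTop]
  · simp

theorem pointsRes_kill (hh : ∀ i, PointsLow (e + 1) (h i)) (φ : MvPolynomial (Fin N) R)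
    (i : Fin N) : pointsRes hh (φ * (X i ^ (e + 1) - h i)) = 0 := by
  classical
  rw [mul_sub, map_sub, sub_eq_zero]
  have hinj : Function.Injective fun m : Fin N → ℕ => m + Pi.single i 1 := add_left_injective _
  have h1 : ∀ m, pointsTerm e h (φ * X i ^ (e + 1)) (m + Pi.single i 1) =
      pointsTerm e h (φ * h i) m := fun m => by
    have h2 : pointsIdx e (m + Pi.single i 1) = pointsIdx e m + Finsupp.single i (e + 1) := by
      ext j
      rw [Finsupp.add_apply, pointsIdx_apply, pointsIdx_apply, Pi.add_apply]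
      by_cases hj : j = i
      · subst hj
        simp only [Pi.single_eq_same, Finsupp.single_eq_same]
        ring
      · simp [hj]
    have h3 : ∏ j, h j ^ (m + Pi.single i 1 : Fin N → ℕ) j = h i * ∏ j, h j ^ m j := by
      simp only [Pi.add_apply, pow_add, prod_mul_distrib]
      rw [mul_comm, Fintype.prod_eq_single i fun j hj => by simp [hj]]
      simp
    rw [pointsTerm, pointsTerm, h2, h3, mul_right_comm, X_pow_eq_monomial, coeff_mul_monomial,
      mul_one, mul_assoc]
  have h4 : Function.support (pointsTerm e h (φ * X i ^ (e + 1))) ⊆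
      Set.range fun m : Fin N → ℕ => m + Pi.single i 1 := by
    intro m hm
    by_cases h0 : m i = 0
    · refine absurd ?_ hm
      rw [pointsTerm, mul_right_comm, X_pow_eq_monomial, coeff_mul_monomial', if_neg]
      rw [Finsupp.single_le_iff, pointsIdx_apply, h0]
      omega
    · refine ⟨m - Pi.single i 1, ?_⟩
      ext j
      by_cases hj : j = i
      · subst hj
        simp only [Pi.add_apply, Pi.sub_apply, Pi.single_eq_same]
        omega
      · simp [hj]
  change ∑ᶠ m, pointsTerm e h (φ * X i ^ (e + 1)) m = ∑ᶠ m, pointsTerm e h (φ * h i) m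
  rw [← finsum_mem_support, ← Set.inter_eq_right.mpr h4, finsum_mem_inter_support,
    finsum_mem_range hinj]
  exact finsum_congr h1

theorem pointsRes_jac (hh : ∀ i, PointsLow (e + 1) (h i)) :
    pointsRes hh (jac (e + 1) h) = ((e + 1 : ℕ) : R) ^ N := by
  classical
  have := pointsLow_det e ((e + 1 : ℕ) : R) (Matrix.of fun i j => pderiv j (X i ^ (e + 1) - h i))
    fun i j => by
      have h1 : pderiv j (X i ^ (e + 1) : MvPolynomial (Fin N) R) =
          if i = j then C ((e + 1 : ℕ) : R) * X i ^ e else 0 := by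
        rw [pderiv_pow, pderiv_X, Pi.single_apply, map_natCast]
        split_ifs <;> simp
      rw [Matrix.of_apply, map_sub, h1, sub_sub_cancel_left]
      exact pointsLow_neg (pointsLow_pderiv (hh i) j)
  rw [jac, pointsRes_top hh this.1, this.2]

/-- The Bezoutian identity. -/
theorem pointsRes_bezout (hh : ∀ i, PointsLow (e + 1) (h i)) :
    ∃ Δ : MvPolynomial (Fin N) (MvPolynomial (Fin N) R),
      ∑ a ∈ Δ.support, monomial a 1 * coeff a Δ = jac (e + 1) h ∧
      ∀ φ, φ - ∑ a ∈ Δ.support, pointsRes hh (monomial a 1 * φ) • coeff a Δ ∈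
        Ideal.span (Set.range fun i => X i ^ (e + 1) - h i) := by
  classical
  choose G hG1 hG2 hG3 using fun i => pointsDiv_of_low (hh i)
  choose q hq1 hq2 hq3 using fun i : Fin N => pointsDiv_pow (R := R) i e
  let M : Matrix (Fin N) (Fin N) (MvPolynomial (Fin N) (MvPolynomial (Fin N) R)) :=
    Matrix.of fun i j => (if i = j then q i else 0) - G i j
  have hh' : ∀ i, PointsLow (e + 1) (map (C : R →+* MvPolynomial (Fin N) R) (h i)) :=
    fun i => pointsLow_map C (hh i)
  have hdet := pointsLow_det e 1 M fun i j => by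
    simp only [M, Matrix.of_apply, map_one, one_mul]
    split_ifs
    · rw [sub_right_comm]
      exact pointsLow_sub (hq1 i) (hG1 i j)
    · rw [sub_zero, zero_sub]
      exact pointsLow_neg (hG1 i j)
  have hone : pointsRes hh' M.det = 1 := by rw [pointsRes_top hh' hdet.1, hdet.2, one_pow]
  set I := Ideal.span (Set.range fun i => X i ^ (e + 1) - h i) with hI
  have hrow : ∀ i, ∑ j, M i j * (X j - C (X j)) =
      (X i ^ (e + 1) - map C (h i)) - C (X i ^ (e + 1) - h i) := fun i => by
    simp only [M, Matrix.of_apply, sub_mul, sum_sub_distrib, ite_mul, zero_mul, sum_ite_eq,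
      mem_univ, if_true, ← hG2, ← hq2, map_sub]
    ring
  have hcr : ∀ j, M.det * (X j - C (X j)) =
      ∑ i, M.adjugate j i * ((X i ^ (e + 1) - map C (h i)) - C (X i ^ (e + 1) - h i)) := fun j => by
    have h1 := congrFun (Matrix.mulVec_mulVec (fun j => X j - C (X j)) M.adjugate M) j
    rw [Matrix.adjugate_mul, Matrix.smul_mulVec, Matrix.one_mulVec] at h1
    simp only [← hrow]
    exact h1.symm
  have hmem : ∀ ψ j, pointsRes hh' (ψ * (M.det * (X j - C (X j)))) ∈ I := fun ψ j => by
    rw [hcr, mul_sum, map_sum]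
    refine sum_mem fun i _ => ?_
    rw [← mul_assoc, mul_sub _ _ (C _), map_sub, pointsRes_kill hh', zero_sub, mul_comm _ (C _),
      C_mul', map_smul, smul_eq_mul]
    exact neg_mem (Ideal.mul_mem_right _ _ (Ideal.subset_span ⟨i, rfl⟩))
  refine ⟨M.det, ?_, fun φ => ?_⟩
  · have h1 : eval X M.det = jac (e + 1) h := by
      rw [RingHom.map_det, jac]
      congr 1
      ext1 i j
      simp only [M, RingHom.mapMatrix_apply, Matrix.map_apply, Matrix.of_apply, map_sub, hG3]
      rw [pderiv_pow, pderiv_X, Pi.single_apply]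
      split_ifs
      · rw [hq3]
        simp
      · simp
    rw [← h1, eval_eq']
    refine sum_congr rfl fun a _ => ?_
    rw [mul_comm, monomial_eq, map_one, one_mul, Finsupp.prod_fintype _ _ (by simp)]
  · obtain ⟨F, -, hF, -⟩ :=
      pointsDiv_of_low (pointsLow_of_totalDegree (Nat.lt_succ_self φ.totalDegree))
    have h1 : pointsRes hh' (M.det * (map C φ - C φ)) ∈ I := by
      rw [hF, mul_sum, map_sum]
      refine sum_mem fun j _ => ?_
      rw [mul_left_comm]
      exact hmem _ _
    have h2 : pointsRes hh' (M.det * map C φ) =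
        ∑ a ∈ M.det.support, pointsRes hh (monomial a 1 * φ) • coeff a M.det := by
      conv_lhs => rw [M.det.as_sum]
      rw [sum_mul, map_sum]
      refine sum_congr rfl fun a _ => ?_
      have h3 : monomial a (coeff a M.det) * map C φ =
          coeff a M.det • map (C : R →+* MvPolynomial (Fin N) R) (monomial a 1 * φ) := by
        rw [map_mul, map_monomial, map_one, ← smul_mul_assoc, smul_monomial, smul_eq_mul, mul_one]
      rw [h3, map_smul, pointsRes_map, smul_eq_mul, mul_comm, C_mul']
    rw [mul_sub, map_sub, h2, mul_comm _ (C φ), C_mul', map_smul, hone, smul_eq_mul,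
      mul_one] at h1
    rw [← neg_sub]
    exact neg_mem h1

end

end Vale.Agent.P337
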