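import Vale.Agent.P337.Alg
import Vale.Agent.P337.PointsLin
import Vale.Agent.P337.PointsRes

/-!
The multivariate residue trace formula.
-/

namespace Vale.Agent.P337

open Finset MvPolynomial

theorem points {N k : ℕ} (hk : 1 ≤ k) (h : Fin N → MvPolynomial (Fin N) ℂ)
    (hh : ∀ i, (h i).totalDegree < k) :
    ∃ Z : Finset (Fin N → ℂ), Z.card ≤ k ^ N ∧ ∀ u : MvPolynomial (Fin N) ℂ, ∃ Λ : Multiset ℂ,
      Λ.card = k ^ N ∧
      (∀ j B, (u ^ j * jac k h).totalDegree < B →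
        rho k B h (u ^ j * jac k h) = (Λ.map (· ^ j)).sum) ∧
      (∀ l ∈ Λ, ∃ ξ ∈ Z, eval ξ u = l) ∧
      ∀ ξ : Fin N → ℂ, (∀ i, ξ i ^ k = eval ξ (h i)) → eval ξ u ∈ Λ := by
  classical
  obtain ⟨e, rfl⟩ : ∃ e, k = e + 1 := ⟨k - 1, by omega⟩
  have hl : ∀ i, PointsLow (e + 1) (h i) := fun i => pointsLow_of_totalDegree (hh i)
  obtain ⟨Δ, hΔ, hb⟩ := pointsRes_bezout hl
  set I := Ideal.span (Set.range fun i => X i ^ (e + 1) - h i) with hI
  have hkill : ∀ φ ∈ I, pointsRes hl φ = 0 := fun φ hφ => by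
    obtain ⟨c, rfl⟩ := Ideal.mem_span_range_iff_exists_fun.mp hφ
    rw [map_sum]
    exact sum_eq_zero fun i _ => pointsRes_kill hl _ i
  let π := Ideal.Quotient.mkₐ ℂ I
  have hπ : Function.Surjective π := Ideal.Quotient.mkₐ_surjective ℂ I
  obtain ⟨s, hs⟩ := π.toLinearMap.exists_rightInverse_of_surjective
    (LinearMap.range_eq_top.mpr hπ)
  have hρ : ∀ φ, (pointsRes hl ∘ₗ s) (π φ) = pointsRes hl φ := fun φ => by
    rw [LinearMap.comp_apply, ← sub_eq_zero, ← map_sub]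
    exact hkill _ (Ideal.Quotient.eq.mp (LinearMap.congr_fun hs (π φ)))
  have hsum : ∑ a ∈ Δ.support, π (monomial a 1) * π (coeff a Δ) = π (jac (e + 1) h) := by
    rw [← hΔ, map_sum]
    simp only [map_mul]
  obtain ⟨T, hT, hu⟩ := pointsLin_main (pointsRes hl ∘ₗ s) Δ.support (fun a => π (monomial a 1))
    (fun a => π (coeff a Δ)) (fun φ => by
      obtain ⟨φ, rfl⟩ := hπ φ
      simp only [← map_mul, hρ, ← map_smul, ← map_sum]
      exact Ideal.Quotient.eq.mpr (hb φ)) ((e + 1) ^ N) (by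
      rw [hsum, hρ, pointsRes_jac, Nat.cast_pow])
  have hev : ∀ (χ : (MvPolynomial (Fin N) ℂ ⧸ I) →ₐ[ℂ] ℂ) (u : MvPolynomial (Fin N) ℂ),
      eval (fun i => χ (π (X i))) u = χ (π u) := fun χ u => by
    rw [← coe_aeval_eq_eval]
    exact (DFunLike.congr_fun (aeval_unique (χ.comp π)) u).symm
  refine ⟨T.image fun χ i => χ (π (X i)), card_image_le.trans hT, fun u => ?_⟩
  obtain ⟨Λ, h1, h2, h3, h4⟩ := hu (π u)
  refine ⟨Λ, h1, fun j B hB => ?_, fun l hl => ?_, fun ξ hξ => ?_⟩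
  · rw [← h2, hsum, ← map_pow, ← map_mul, hρ, pointsRes_eq_rho hl (pointsLow_of_totalDegree hB)]
  · obtain ⟨χ, hχ, rfl⟩ := h3 l hl
    exact ⟨_, mem_image_of_mem _ hχ, hev χ u⟩
  · have h5 : ∀ φ ∈ I, aeval ξ φ = 0 := fun φ hφ => by
      obtain ⟨c, rfl⟩ := Ideal.mem_span_range_iff_exists_fun.mp hφ
      rw [map_sum]
      refine sum_eq_zero fun i _ => ?_
      rw [map_mul, map_sub, map_pow, aeval_X, hξ i]
      simp [aeval_eq_eval]
    exact h4 (Ideal.Quotient.liftₐ I (aeval ξ) h5)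

end Vale.Agent.P337
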