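import Vale.Agent.P337.Newton
import Vale.Agent.P337.Points

/-!
The characteristic polynomial as a product over critical points, and its asymptotics.
-/

namespace Vale.Agent.P337

open Finset MvPolynomial Filter Topology

variable {N : ℕ}

/-- Evaluation at `T = τ`, `s = n`. -/
noncomputable def limitEv (n : ℕ) (τ : ℂ) : A2 →+* ℂ :=
  Polynomial.eval₂RingHom (Polynomial.eval₂RingHom (Int.castRingHom ℂ) τ) n

/-- The perturbed potential. -/
noncomputable def limitH {R : Type} [CommRing R] (F : MvPolynomial (Fin N) ℤ) (k n : ℕ)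
    (x : Fin N → R) : R :=
  ∑ i, x i ^ (k + 1) + ((k + 1 : ℕ) : R) * n * aeval x F

/-- The perturbed potential plus a linear form. -/
noncomputable def limitU {R : Type} [CommRing R] (F : MvPolynomial (Fin N) ℤ) (k n c : ℕ)
    (x : Fin N → R) : R :=
  limitH F k n x + ∑ i : Fin N, (c : R) ^ (i.val + 1) * x i

theorem limit_eval_map (G : MvPolynomial (Fin N) ℤ) (x : Fin N → ℂ) :
    eval x (map (Int.castRingHom ℂ) G) = aeval x G := by
  rw [eval_map, aeval_def]
  rfl

theorem limit_map_map (n : ℕ) (τ : ℂ) (G : MvPolynomial (Fin N) ℤ) :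
    map (limitEv n τ) (map (Int.castRingHom A2) G) = map (Int.castRingHom ℂ) G := by
  rw [MvPolynomial.map_map]
  exact congrArg (fun f => MvPolynomial.map f G) (RingHom.ext_int _ _)

theorem limit_ev_X (n : ℕ) (τ : ℂ) : limitEv n τ Polynomial.X = n := by simp [limitEv]

theorem limit_ev_T (n : ℕ) (τ : ℂ) : limitEv n τ (Polynomial.C Polynomial.X) = τ := by
  simp [limitEv]

theorem limit_pderiv_lt {k : ℕ} (hk : 1 ≤ k) {G : MvPolynomial (Fin N) ℂ} (hG : G.totalDegree ≤ k)
    (i : Fin N) : (pderiv i G).totalDegree < k := by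
  rw [totalDegree, Finset.sup_lt_iff (by exact hk)]
  intro m hm
  rw [mem_support_iff, coeff_pderiv] at hm
  have h1 := le_totalDegree (mem_support_iff.mpr (left_ne_zero_of_mul hm))
  rw [Finsupp.sum_add_index' (fun _ => rfl) (fun _ _ _ => rfl), Finsupp.sum_single_index rfl] at h1
  omega

theorem limit_map_le {A A' : Type} [CommRing A] [CommRing A'] (f : A →+* A')
    (G : MvPolynomial (Fin N) A) : (MvPolynomial.map f G).totalDegree ≤ G.totalDegree :=
  Finset.sup_mono (support_map_subset _ _)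

theorem limit_points {k B : ℕ} (F : MvPolynomial (Fin N) ℤ) (hk : 1 ≤ k) (hd : F.totalDegree ≤ k)
    (n : ℕ) : ∃ Z : Finset (Fin N → ℂ), Z.card ≤ k ^ N ∧ ∀ c : ℕ,
      (∀ j ≤ k ^ N, (uS F k c ^ j * jac k (hS F)).totalDegree < B) → ∃ Λ : Multiset ℂ,
      Λ.card = k ^ N ∧
      (∀ τ, limitEv n τ (chi F k B c) =
        (k ^ N).factorial * (1 * (k ^ N).factorial) ^ k ^ N * (Λ.map (τ - ·)).prod) ∧
      (∀ l ∈ Λ, ∃ ξ ∈ Z, limitU F k n c ξ = l) ∧
      ∀ ξ : Fin N → ℂ, (∀ i, ξ i ^ k + n * aeval ξ (pderiv i F) = 0) → limitU F k n c ξ ∈ Λ := by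
  set h : Fin N → MvPolynomial (Fin N) ℂ := fun i =>
    -(C (n : ℂ) * pderiv i (map (Int.castRingHom ℂ) F)) with hh
  have h1 : ∀ τ i, map (limitEv n τ) (hS F i) = h i := fun τ i => by
    simp only [hS, hh, map_neg, map_mul, map_C, limit_ev_X, ← pderiv_map, limit_map_map]
  have h0 : (map (Int.castRingHom ℂ) F).totalDegree ≤ k :=
    (limit_map_le _ _).trans hd
  obtain ⟨Z, hZ, h2⟩ := points hk h fun i => by
    simp only [hh]
    rw [totalDegree_neg, C_mul']
    exact (totalDegree_smul_le _ _).trans_lt (limit_pderiv_lt hk h0 i)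
  refine ⟨Z, hZ, fun c hB => ?_⟩
  set u : MvPolynomial (Fin N) ℂ := ∑ i, X i ^ (k + 1) + ((k + 1 : ℕ) : MvPolynomial (Fin N) ℂ) *
    C (n : ℂ) * map (Int.castRingHom ℂ) F +
      ∑ i : Fin N, (c : MvPolynomial (Fin N) ℂ) ^ (i.val + 1) * X i with hu
  have h3 : ∀ τ, map (limitEv n τ) (uS F k c) = u := fun τ => by
    simp only [uS, hu, map_add, map_sum, map_mul, map_pow, map_X, map_natCast, map_C, limit_ev_X,
      limit_map_map]
  have h4 : ∀ ξ, eval ξ u = limitU F k n c ξ := fun ξ => by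
    simp only [hu, limitU, limitH, map_add, map_sum, map_mul, map_pow, eval_X, map_natCast,
      limit_eval_map]
  obtain ⟨Λ, k1, k2, k3, k4⟩ := h2 u
  refine ⟨Λ, k1, fun τ => ?_, fun l hl => ?_, fun ξ hξ => ?_⟩
  · have h5 : ∀ j, MvPolynomial.map (limitEv n τ) (uS F k c ^ j * jac k (hS F)) =
        u ^ j * jac k h := fun j => by
      rw [map_mul, map_pow, map_jac, h3, funext (h1 τ)]
    rw [chi, map_nchi, map_one, limit_ev_T, ← k1]
    refine nchi_eq Λ 1 τ _ fun j _ hj => ?_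
    rw [map_rho, funext (h1 τ), h5, one_mul]
    refine k2 j B ?_
    rw [← h5]
    exact (limit_map_le _ _).trans_lt (hB j (k1 ▸ hj))
  · simpa only [h4] using k3 l hl
  · rw [← h4]
    refine k4 ξ fun i => ?_
    rw [hh, map_neg, map_mul, eval_C, pderiv_map, limit_eval_map]
    exact eq_neg_of_add_eq_zero_left (hξ i)

theorem limit_asymp (q : A2) {n : ℕ → ℕ} {τ : ℕ → ℂ} {t : ℂ} (hn : Tendsto n atTop atTop)
    (hτ : Tendsto τ atTop (𝓝 t)) :
    Tendsto (fun m => limitEv (n m) (τ m) q / (n m : ℂ) ^ q.natDegree) atTop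
      (𝓝 (Polynomial.aeval t q.leadingCoeff)) := by
  have h1 : Tendsto (fun m => ((n m : ℂ))⁻¹) atTop (𝓝 0) :=
    (tendsto_inv_atTop_nhds_zero_nat (𝕜 := ℂ)).comp hn
  have h2 : Tendsto (fun m => ∑ i ∈ range (q.natDegree + 1),
      Polynomial.aeval (τ m) (q.coeff i) * ((n m : ℂ))⁻¹ ^ (q.natDegree - i)) atTop
      (𝓝 (∑ i ∈ range (q.natDegree + 1),
        Polynomial.aeval t (q.coeff i) * 0 ^ (q.natDegree - i))) :=
    tendsto_finsetSum _ fun i _ =>
      (((q.coeff i).continuous_aeval.tendsto t).comp hτ).mul (h1.pow _)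
  rw [sum_range_succ, sum_eq_zero, Nat.sub_self, pow_zero, mul_one, zero_add] at h2
  · refine h2.congr' ?_
    filter_upwards [hn.eventually_ne_atTop 0] with m hm
    have h3 : (n m : ℂ) ≠ 0 := Nat.cast_ne_zero.mpr hm
    rw [limitEv, Polynomial.coe_eval₂RingHom, Polynomial.eval₂_eq_sum_range, sum_div]
    refine sum_congr rfl fun i hi => ?_
    obtain ⟨j, hj⟩ := Nat.exists_eq_add_of_le (Nat.lt_succ_iff.mp (mem_range.mp hi))
    rw [hj, Nat.add_sub_cancel_left, pow_add, Polynomial.coe_eval₂RingHom, Polynomial.aeval_def]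
    simp only [algebraMap_int_eq, inv_pow]
    field_simp
  · intro i hi
    rw [zero_pow (by have := mem_range.mp hi; omega), mul_zero]

theorem limit_near (q : A2) (hq : q ≠ 0) {κ : ℂ} {D : ℕ} (Λ : ℕ → Multiset ℂ)
    (hD : ∀ n, (Λ n).card = D) (hΛ : ∀ n τ, limitEv n τ q = κ * ((Λ n).map (τ - ·)).prod) {t : ℂ}
    (ht : Polynomial.aeval t q.leadingCoeff = 0) {d : ℝ} (hd : 0 < d) :
    ∀ᶠ n in atTop, ∃ l ∈ Λ n, ‖t - l‖ < d := by
  have h1 : q.leadingCoeff.map (algebraMap ℤ ℂ) ≠ 0 :=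
    (Polynomial.map_ne_zero_iff (RingHom.injective_int _)).mpr
      (Polynomial.leadingCoeff_ne_zero.mpr hq)
  obtain ⟨t', h2, h3⟩ := (infinite_of_mem_nhds t (Metric.ball_mem_nhds t hd)).exists_notMem_finite
    (Polynomial.finite_setOfPred_isRoot h1)
  have h4 : Polynomial.aeval t' q.leadingCoeff ≠ 0 := by
    rwa [← Polynomial.eval_map_algebraMap]
  have h5 := ((limit_asymp q tendsto_id (tendsto_const_nhds (x := t))).norm.const_mul
    (2 ^ D)).eventually_lt (limit_asymp q tendsto_id (tendsto_const_nhds (x := t'))).norm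
    (by simpa [ht] using h4)
  filter_upwards [h5] with n hn
  by_contra h6
  push Not at h6
  have h7 : ∀ L : Multiset ℂ, (∀ l ∈ L, d ≤ ‖t - l‖) →
      ‖(L.map (t' - ·)).prod‖ ≤ 2 ^ L.card * ‖(L.map (t - ·)).prod‖ := by
    intro L
    induction L using Multiset.induction_on with
    | empty => simp
    | cons l L ih =>
      intro h
      have k1 := ih fun l hl => h l (Multiset.mem_cons_of_mem hl)
      have k2 : ‖t' - l‖ ≤ 2 * ‖t - l‖ := by
        have k3 := h l (Multiset.mem_cons_self _ _)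
        have k4 := norm_sub_le_norm_sub_add_norm_sub t' t l
        rw [mem_ball_iff_norm] at h2
        linarith
      simp only [Multiset.map_cons, Multiset.prod_cons, norm_mul, Multiset.card_cons]
      exact (mul_le_mul k2 k1 (norm_nonneg _) (by positivity)).trans (le_of_eq (by ring))
  have h8 := h7 _ h6
  simp only [id, hΛ, norm_div, norm_mul] at hn
  rw [hD] at h8
  refine absurd hn (not_lt.mpr ?_)
  rw [← mul_div_assoc, mul_left_comm]
  gcongr

end Vale.Agent.P337
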