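import Vale.Agent.P337.CH

/-!
Long products modulo primes are in the counting hierarchy.
-/

namespace Vale.Agent.P337

open Vale.Agent.Lib.TM Finset

variable {α : Type} [Enc α]

/-- Modular powers. -/
def pm (g e p : ℕ) : ℕ := g ^ e % (p - 1 + 1)

lemma pm_eq {p : ℕ} (hp : 1 ≤ p) (g e : ℕ) : pm g e p = g ^ e % p := by
  rw [pm, Nat.sub_add_cancel hp]

lemma pm_cast {p : ℕ} (hp : p.Prime) (g e : ℕ) : (pm g e p : ZMod p) = (g : ZMod p) ^ e := by
  rw [pm_eq hp.one_le]; simp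

@[fun_prop]
theorem ct_pm {g e p : α → ℕ} (hg : CT 0 g) (he : CT 0 e) (hp : CT 0 p) :
    CT 0 fun a => pm (g a) (e a) (p a) := by
  refine CT.binRec (G := fun a u _ => pm (g a) u (p a)) (h := fun a s x =>
    bif x.1 then s * s * g a % (p a - 1 + 1) else s * s % (p a - 1 + 1)) (by fun_prop)
    (by unfold pm; simp only [pow_zero]; fun_prop) he (CT.const 0) hp.size ?_ ?_
  · intro a x y u v
    cases x
    · simp only [pm, Nat.bit_val, cond_false, Bool.toNat_false, add_zero, two_mul, pow_add]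
      exact Nat.mul_mod _ _ _
    · simp only [pm, Nat.bit_val, cond_true, Bool.toNat_true, two_mul, pow_add, pow_one]
      rw [Nat.mul_mod, Nat.mul_mod (g a ^ u), Nat.mul_mod (_ * _) (g a)]
  · intro a u v _ _
    have := Nat.mod_lt (g a ^ u) (show 0 < p a - 1 + 1 by omega)
    exact sz_mono (by unfold pm; omega)

variable [Dec α]

@[fun_prop]
theorem FH.pm {g e p : α → ℕ} (hg : FH g) (he : FH e) (hp : FH p) :
    FH fun a => pm (g a) (e a) (p a) :=
  FH.op2 (o := fun g (q : ℕ × ℕ) => P337.pm g q.1 q.2) (by fun_prop) hg (he.mk hp)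

lemma exists_gen {p : ℕ} (hp : p.Prime) : ∃ g < p, ∀ x < p, x = 0 ∨ ∃ e < p, pm g e p = x := by
  have := Fact.mk hp
  obtain ⟨g, hg⟩ := IsCyclic.exists_generator (α := (ZMod p)ˣ)
  refine ⟨(g : ZMod p).val, ZMod.val_lt _, fun x hx => ?_⟩
  by_cases h0 : x = 0
  · exact .inl h0
  have h1 : (x : ZMod p) ≠ 0 := by
    rw [Ne, ZMod.natCast_eq_zero_iff]
    exact Nat.not_dvd_of_pos_of_lt (Nat.pos_of_ne_zero h0) hx
  classical
  obtain ⟨e, he, h2⟩ := mem_image.mp (mem_zpowers_iff_mem_range_orderOf.mp (hg (Units.mk0 _ h1)))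
  refine .inr ⟨e, ?_, ?_⟩
  · have := orderOf_le_card_univ (x := g)
    rw [ZMod.card_units] at this
    have := mem_range.mp he
    omega
  · have h3 := pm_cast hp (g : ZMod p).val e
    have h4 := congrArg Units.val h2
    simp only [Units.val_pow_eq_pow_val, Units.val_mk0] at h4
    rw [ZMod.natCast_zmod_val, h4, ZMod.natCast_eq_natCast_iff', pm_eq hp.one_le, Nat.mod_mod,
      Nat.mod_eq_of_lt hx] at h3
    rw [pm_eq hp.one_le, h3]

theorem FH.prodMod {g : α × ℕ → ℕ} (hg : FH g) {N P : α → ℕ} (hN : FH N) (hP : FH P) :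
    ∃ G : α → ℕ, FH G ∧ ∀ a, (P a).Prime →
      (G a : ZMod (P a)) = ∏ y ∈ range (N a), (g (a, y) : ZMod (P a)) := by
  classical
  let γ : α → ℕ := fun a => P337.lst (P a) fun c =>
    ∀ x < P a, x = 0 ∨ ∃ e < P a, P337.pm c e (P a) = x
  have hγ : FH γ := FH.lst (q := fun s : α × ℕ =>
      ∀ x < P s.1, x = 0 ∨ ∃ e < P s.1, P337.pm s.2 e (P s.1) = x)
    (CH.all (q := fun s : (α × ℕ) × ℕ =>
      s.2 = 0 ∨ ∃ e < P s.1.1, P337.pm s.1.2 e (P s.1.1) = s.2)
      ((CH.eq (by fun_prop) (by fun_prop)).or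
        (CH.ex (q := fun s : ((α × ℕ) × ℕ) × ℕ => P337.pm s.1.1.2 s.2 (P s.1.1.1) = s.1.2)
          (CH.eq (by fun_prop) (by fun_prop)) (by fun_prop))) (by fun_prop)) hP
  let dl : α × ℕ → ℕ := fun s => P337.lst (P s.1) fun e =>
    P337.pm (γ s.1) e (P s.1) = g s % P s.1
  have hdl : FH dl := FH.lst (q := fun s : (α × ℕ) × ℕ =>
      P337.pm (γ s.1.1) s.2 (P s.1.1) = g s.1 % P s.1.1) (CH.eq (by fun_prop) (by fun_prop))
      (by fun_prop)
  refine ⟨fun a => if ∃ y < N a, g (a, y) % P a = 0 then 0 else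
    P337.pm (γ a) (∑ y ∈ range (N a), dl (a, y)) (P a),
    FH.ite (CH.ex (q := fun s : α × ℕ => g s % P s.1 = 0) (CH.eq (by fun_prop) (by fun_prop)) hN)
      (FH.const 0) (hγ.pm (hdl.sum hN) hP), fun a hp => ?_⟩
  dsimp only
  split_ifs with h
  · obtain ⟨y, hy, h⟩ := h
    rw [prod_eq_zero (mem_range.mpr hy), Nat.cast_zero]
    exact (ZMod.natCast_eq_zero_iff _ _).mpr (Nat.dvd_of_mod_eq_zero h)
  · rw [pm_cast hp, ← prod_pow_eq_pow_sum]
    refine prod_congr rfl fun y hy => ?_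
    have h1 := (lst_spec (exists_gen hp) _ (Nat.mod_lt (g (a, y)) hp.pos)).resolve_left
      fun h' => h ⟨y, mem_range.mp hy, h'⟩
    have h2 : P337.pm (γ a) (dl (a, y)) (P a) = g (a, y) % P a :=
      lst_spec (q := fun e => P337.pm (γ a) e (P a) = g (a, y) % P a) h1
    rw [← pm_cast hp, h2, ZMod.natCast_mod]

lemma CH.prime {P : α → ℕ} (hP : FH P) : CH fun a => (P a).Prime :=
  ((CH.le (FH.const 2) hP).and (CH.all (q := fun s : α × ℕ => P s.1 % s.2 = 0 → s.2 = 1)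
    ((CH.eq (by fun_prop) (by fun_prop)).imp (CH.eq (by fun_prop) (by fun_prop))) hP)).of_iff
    fun a => by simp only [Nat.prime_def_lt, Nat.dvd_iff_mod_eq_zero]

end Vale.Agent.P337
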