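import Vale.Agent.P337.UniDP
import Vale.Agent.P337.Limit

/-!
The existence of a real zero of a nonnegative polynomial is in the counting hierarchy.
-/

namespace Vale.Agent.P337

open Vale.Agent.Lib.TM Finset MvPolynomial

section
variable {A : Type} [CommRing A] {n : ℕ}

/-- The partial derivative with a given index, or zero. -/
noncomputable def pd (i : ℕ) (f : MvPolynomial (Fin n) A) : MvPolynomial (Fin n) A :=
  if h : i < n then pderiv ⟨i, h⟩ f else 0

@[simp] lemma pd_val (i : Fin n) (f : MvPolynomial (Fin n) A) : pd i f = pderiv i f := by simp [pd]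

lemma as_sum_box {f : MvPolynomial (Fin n) A} {B : ℕ} (h : f.totalDegree < B) :
    f = ∑ m ∈ Fintype.piFinset fun _ : Fin n => range B,
      monomial (Finsupp.equivFunOnFinite.symm m) (coeff (Finsupp.equivFunOnFinite.symm m) f) := by
  refine f.as_sum.trans (sum_of_injOn (fun v => ⇑v) (fun _ _ _ _ h => DFunLike.coe_injective h)
    (fun v hv => ?_) (fun m _ hm => ?_) fun v _ => by simp)
  · refine mem_coe.mpr (Fintype.mem_piFinset.mpr fun i => mem_range.mpr ?_)
    exact ((monomial_le_degreeOf i hv).trans (degreeOf_le_totalDegree f i)).trans_lt h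
  · rw [notMem_support_iff.mp fun h => hm ⟨_, h, by simp⟩, map_zero]

lemma pd_eq {f : MvPolynomial (Fin n) A} {B : ℕ} (h : f.totalDegree < B) (i : ℕ) :
    pd i f = ∑ x ∈ range (B ^ n), C (coeff (ex n fun l => (digs n B x).getD l 0) f) *
      ((((digs n B x).getD i 0 : ℕ) : MvPolynomial (Fin n) A) * ∏ l ∈ range n,
        xv n A l ^ ((digs n B x).getD l 0 - if l = i then 1 else 0)) := by
  unfold pd
  split_ifs with hi
  · conv_lhs => rw [as_sum_box h, map_sum, sum_digs]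
    refine sum_congr rfl fun x _ => ?_
    rw [pderiv_monomial, monomial_eq, Finsupp.prod_fintype _ _ fun _ => pow_zero _, prod_range,
      map_mul, map_natCast, mul_assoc]
    simp [ex, Finsupp.single_apply, Fin.ext_iff, eq_comm]
  · refine (sum_eq_zero fun x _ => ?_).symm
    rw [List.getD_eq_default (digs n B x) (n := i) _ (by simpa [digs] using hi), Nat.cast_zero, zero_mul, mul_zero]

lemma det_eq (M : ℕ → ℕ → A) : (Matrix.of fun i j : Fin n => M i j).det =
    ∑ x ∈ range (n ^ n), (∏ j ∈ range n, ∏ i ∈ range n, if i < j then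
      (if (digs n n x).getD i 0 < (digs n n x).getD j 0 then 1 else
        if (digs n n x).getD i 0 = (digs n n x).getD j 0 then 0 else -1) else 1) *
      ∏ i ∈ range n, M ((digs n n x).getD i 0) i := by
  simp only [prod_range]
  rw [← sum_digs n n fun m => (∏ j : Fin n, ∏ i : Fin n, if i.val < j.val then
    (if m i < m j then 1 else if m i = m j then 0 else -1) else 1) * ∏ i, M (m i) i,
    Matrix.det_apply']
  refine sum_of_injOn (fun σ i => (σ i).val)
    (fun σ _ τ _ h => Equiv.ext fun i => Fin.ext (congrFun h i)) (fun σ _ => by simp)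
    (fun m hm hm' => ?_) fun σ _ => ?_
  · have h1 : ∀ i, m i < n := fun i => mem_range.mp (Fintype.mem_piFinset.mp hm i)
    have h2 : ¬ Function.Injective fun i => (⟨m i, h1 i⟩ : Fin n) := fun h =>
      hm' ⟨Equiv.ofBijective _ (Finite.injective_iff_bijective.mp h), by simp, rfl⟩
    obtain ⟨i, j, h3, h4⟩ : ∃ i j : Fin n, m i = m j ∧ i < j := by
      obtain ⟨i, j, h3, h4⟩ := Function.not_injective_iff.mp h2
      have h5 : m i = m j := congrArg Fin.val h3
      rcases lt_or_gt_of_ne h4 with h | h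
      exacts [⟨i, j, h5, h⟩, ⟨j, i, h5.symm, h⟩]
    rw [prod_eq_zero (mem_univ j) (prod_eq_zero (mem_univ i) (by simp [h3, h4])), zero_mul]
  · rw [σ.sign_eq_prod_prod_Iio]
    simp only [Units.coe_prod, Int.cast_prod, Matrix.of_apply]
    congr 1
    refine prod_congr rfl fun j _ => ?_
    rw [← prod_filter, show univ.filter (fun i : Fin n => i.val < j.val) = Iio j by ext; simp]
    refine prod_congr rfl fun i hi => ?_
    have : σ i ≠ σ j := σ.injective.ne (mem_Iio.mp hi).ne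
    by_cases h : σ i < σ j <;> simp [h, Fin.val_inj, this]

end

variable {α : Type} [Enc α] [Dec α] {R : α → Type} [∀ a, CommRing (R a)] [∀ a, Sys (R a)]
  {N : α → ℕ}

omit [Dec α] in
lemma bd_fst {β : Type} [Enc β] (h : Bd 0 N) : Bd 0 fun s : α × β => N s.1 :=
  h.comp (CT.fst (e := 0) CT.id).size

lemma fh_dig (hN : CT 0 N) (hN' : Bd 0 N) {B : α → ℕ} (hB : CT 0 B) :
    FH fun s : (α × ℕ) × ℕ => (digs (N s.1.1) (B s.1.1) s.1.2).getD s.2 0 :=
  .ofCT (CT.getD (ct_digs (by fun_prop) (bd_fst (bd_fst hN')) (by fun_prop) (by fun_prop))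
    (by fun_prop) (by fun_prop))

lemma DP.pd (hN : CT 0 N) (hN' : Bd 0 N) {f : ∀ a, MvPolynomial (Fin (N a)) (R a)} (h : DP f)
    {i : α → ℕ} (hi : FH i) : DP fun a => pd (i a) (f a) := by
  obtain ⟨u, k1, k2⟩ := h.deg
  have hd := fh_dig hN hN' k1
  simp only [fun a => pd_eq (k2 a) (i a)]
  refine DP.sum ?_ (.ofCT (CT.pow k1 hN hN'))
  refine DP.mul (DP.mC ?_) (DP.mul (DP.nat ?_) ?_)
  · exact DP.mco (N := fun s : α × ℕ => N s.1) (by fun_prop) (bd_fst hN') h.fst hd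
  · exact hd.comp (g := fun s : α × ℕ => (s, i s.1)) (by fun_prop)
  refine DP.prod ?_ (by fun_prop)
  exact DP.pow (DP.var (by fun_prop) (by fun_prop))
    (FH.sub hd (FH.ite (CH.eq (by fun_prop) (by fun_prop)) (by fun_prop) (by fun_prop)))

lemma DP.det (hN : CT 0 N) (hN' : Bd 0 N) {M : ∀ a, ℕ → ℕ → R a}
    (h : DP fun s : (α × ℕ) × ℕ => M s.1.1 s.1.2 s.2) :
    DP fun a => (Matrix.of fun i j : Fin (N a) => M a i j).det := by
  have hd := fh_dig hN hN' hN
  have h1 : FH fun s : ((α × ℕ) × ℕ) × ℕ =>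
      (digs (N s.1.1.1) (N s.1.1.1) s.1.1.2).getD s.2 0 :=
    hd.comp (g := fun s : ((α × ℕ) × ℕ) × ℕ => (s.1.1, s.2)) (by fun_prop)
  have h2 : FH fun s : ((α × ℕ) × ℕ) × ℕ =>
      (digs (N s.1.1.1) (N s.1.1.1) s.1.1.2).getD s.1.2 0 := hd.comp (g := Prod.fst) (by fun_prop)
  simp only [det_eq]
  refine DP.sum ?_ (.ofCT (CT.pow hN hN hN'))
  refine DP.mul ?_ ?_
  · refine DP.prod ?_ (by fun_prop)
    refine DP.prod ?_ (by fun_prop)
    exact DP.ite (CH.lt (by fun_prop) (by fun_prop)) (DP.ite (CH.lt h1 h2) DP.one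
      (DP.ite (CH.eq h1 h2) DP.zero DP.one.neg)) DP.one
  refine DP.prod ?_ (by fun_prop)
  exact h.comp (u := fun s : (α × ℕ) × ℕ =>
    ((s.1.1, (digs (N s.1.1) (N s.1.1) s.1.2).getD s.2 0), s.2))
    (FH.mk (FH.mk (by fun_prop) hd) (by fun_prop))

lemma DP.jac (hN : CT 0 N) (hN' : Bd 0 N) {h : ∀ a, ℕ → MvPolynomial (Fin (N a)) (R a)}
    (hh : DP fun s : α × ℕ => h s.1 s.2) {k : α → ℕ} (hk : FH k) :
    DP fun a => jac (k a) fun i : Fin (N a) => h a i := by
  refine (DP.det hN hN' (M := fun a i j => P337.pd j (xv (N a) (R a) i ^ k a - h a i))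
    (DP.pd (N := fun s : (α × ℕ) × ℕ => N s.1.1) ?_ (bd_fst (bd_fst hN'))
      (DP.sub (DP.pow (DP.var ?_ ?_) ?_) hh.fst) ?_)).of_eq fun a => by simp [P337.jac]
  all_goals fun_prop

lemma DP.rho (hN : CT 0 N) (hN' : Bd 0 N) {h : ∀ a, ℕ → MvPolynomial (Fin (N a)) (R a)}
    (hh : DP fun s : α × ℕ => h s.1 s.2) {k B : α → ℕ} (hk : FH k) (hB : CT 0 B)
    {φ : ∀ a, MvPolynomial (Fin (N a)) (R a)} (hφ : DP φ) :
    DP fun a => rho (k a) (B a) (fun i : Fin (N a) => h a i) (φ a) := by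
  have hd := fh_dig hN hN' hB
  have h1 : DP fun a => ∑ x ∈ range (B a ^ N a),
      coeff (ex (N a) fun i => k a * ((digs (N a) (B a) x).getD i 0 + 1) - 1)
        (φ a * ∏ i ∈ range (N a), h a i ^ (digs (N a) (B a) x).getD i 0) := by
    refine DP.sum (DP.mco (N := fun s : α × ℕ => N s.1) ?_ (bd_fst hN')
      (DP.mul hφ.fst (DP.prod (DP.pow ?_ hd) ?_)) (FH.sub (FH.mul ?_ (FH.add hd ?_)) ?_))
      (.ofCT (CT.pow hB hN hN'))
    any_goals fun_prop
    exact hh.comp (u := fun s : (α × ℕ) × ℕ => (s.1.1, s.2)) (by fun_prop)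
  exact h1.of_eq fun a => by simp only [P337.rho, sum_digs, prod_range, ex]

theorem CH.hasZero (hN : CT 0 N) (hN' : Bd 0 N)
    {F : ∀ a, MvPolynomial (Fin (N a)) ℤ} (hF : DP F)
    (h0 : ∀ a (x : Fin (N a) → ℝ), 0 ≤ aeval x (F a)) :
    CH fun a => ∃ x : Fin (N a) → ℝ, aeval x (F a) = 0 := by
  obtain ⟨u, k1, k2⟩ := hF.deg
  obtain ⟨k, hk, hk1, hk2⟩ : ∃ k : α → ℕ, CT 0 k ∧ (∀ a, Odd (k a)) ∧
      ∀ a, (F a).totalDegree ≤ k a :=
    ⟨fun a => 2 * u a + 1, by fun_prop, fun a => ⟨_, rfl⟩, fun a => by have := k2 a; dsimp only; omega⟩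
  have hD : CT 0 fun a => k a ^ N a := CT.pow hk hN hN'
  generalize hD' : (fun a => k a ^ N a) = D at hD
  replace hD' : ∀ a, k a ^ N a = D a := congrFun hD'
  have hF2 : DP fun a => map (Int.castRingHom A2) (F a) := hF.mapInt (R := fun _ => A2)
  let h : ∀ a, ℕ → MvPolynomial (Fin (N a)) A2 := fun a i =>
    -(C Polynomial.X * pd i (map (Int.castRingHom A2) (F a)))
  have hh : DP fun s : α × ℕ => h s.1 s.2 :=
    ((DP.mC DP.pX).mul (DP.pd (N := fun s : α × ℕ => N s.1) (by fun_prop) (bd_fst hN') hF2.fst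
      (by fun_prop))).neg
  have e1 : ∀ a, (fun i : Fin (N a) => h a i) = hS (F a) := fun a => by
    funext i; simp [h, hS]
  have hu : DP fun s : α × ℕ => uS (F s.1) (k s.1) s.2 := by
    have : DP fun s : α × ℕ => ∑ i ∈ range (N s.1), xv (N s.1) A2 i ^ (k s.1 + 1) +
        ((k s.1 + 1 : ℕ) : MvPolynomial (Fin (N s.1)) A2) * C Polynomial.X *
          map (Int.castRingHom A2) (F s.1) +
        ∑ i ∈ range (N s.1), (s.2 : MvPolynomial (Fin (N s.1)) A2) ^ (i + 1) * xv (N s.1) A2 i := by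
      refine DP.add (DP.add (DP.sum (DP.pow (DP.var ?_ ?_) ?_) ?_)
        (DP.mul (DP.mul (DP.nat ?_) (DP.mC DP.pX)) hF2.fst))
        (DP.sum (DP.mul (DP.pow (DP.nat ?_) ?_) (DP.var ?_ ?_)) ?_)
      all_goals fun_prop
    exact this.of_eq fun s => by simp only [uS, sum_range, xv_val]
  have hj : DP fun a => jac (k a) (hS (F a)) :=
    (DP.jac hN hN' hh (.ofCT hk)).of_eq fun a => by rw [e1]
  have hφ : DP fun s : (α × ℕ) × ℕ =>
      uS (F s.1.1) (k s.1.1) s.1.2 ^ s.2 * jac (k s.1.1) (hS (F s.1.1)) :=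
    (hu.fst.pow (by fun_prop)).mul hj.fst.fst
  obtain ⟨v, l1, l2⟩ := DP.deg (N := fun s : (α × ℕ) × ℕ => N s.1.1) hφ
  obtain ⟨v', l3, l4⟩ := (EB.ofCT l1).sup (N := fun s => D s.1 + 1) (.ofCT (by fun_prop))
  obtain ⟨B, l5, l6⟩ := (EB.ofCT l3).sup (N := fun a => N a * D a + 1) (.ofCT (by fun_prop))
  have hc : DP fun s : α × ℕ => chi (F s.1) (k s.1) (B s.1) s.2 := by
    simp only [chi, hD']
    refine DP.nchi (by fun_prop) DP.one ?_ (DP.pC DP.pX)
    exact (DP.rho (N := fun s : (α × ℕ) × ℕ => N s.1.1) (by fun_prop) (bd_fst (bd_fst hN'))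
      (h := fun s => h s.1.1)
      (hh.comp (u := fun s : ((α × ℕ) × ℕ) × ℕ => (s.1.1.1, s.2)) (by fun_prop))
      (k := fun s => k s.1.1) (B := fun s => B s.1.1) (by fun_prop) (by fun_prop) hφ).of_eq
      fun s => by rw [e1]
  refine (CH.all (CH.realRoot (hc.pco (hc.fhDeg (DP.peq0 DP.eq0)))) (N := fun a => N a * D a + 1)
    (by fun_prop)).of_iff fun a => ?_
  obtain ⟨m1, m2⟩ := hasZero_iff (B := B a) (F a) (h0 a) (hk1 a) (hk2 a) fun c hc j hj =>
    ((l2 ((a, c), j)).trans (l4 (a, c) j (by rw [hD'] at hj; exact Nat.lt_succ_of_le hj))).trans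
      (l6 a c (by rw [hD'] at hc; omega))
  rw [m2, hD']
  rw [hD'] at m1
  exact forall_congr' fun c => (imp_congr_left Nat.lt_succ_iff).trans (imp_congr_right fun hc =>
    and_iff_right (Polynomial.leadingCoeff_ne_zero.mpr (m1 c hc)))

end Vale.Agent.P337
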