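import Vale.Agent.P337.Alg

/-!
Newton's identities in closed form.
-/

namespace Vale.Agent.P337

open Finset Polynomial

section

variable {K : Type} [Field K]

/-- The reversed polynomial with given roots. -/
noncomputable def newtonChi (Λ : Multiset K) : K[X] := (Λ.map fun l => 1 - C l * X).prod

theorem newtonChi_cons (l : K) (Λ : Multiset K) :
    newtonChi (l ::ₘ Λ) = (1 - C l * X) * newtonChi Λ := by
  simp [newtonChi]

theorem newton_geom (l : K) (D : ℕ) :
    (∑ j ∈ range D, C (l ^ (j + 1)) * X ^ j) * (1 - C l * X) = C l - X ^ D * C l ^ (D + 1) := by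
  induction D with
  | zero => simp
  | succ D ih =>
    rw [sum_range_succ, add_mul, ih, C_pow]
    ring

theorem newton_ode_chi (D : ℕ) (Λ : Multiset K) :
    X ^ D ∣ derivative (newtonChi Λ) +
      (∑ j ∈ range D, C ((Λ.map (· ^ (j + 1))).sum) * X ^ j) * newtonChi Λ := by
  induction Λ using Multiset.induction_on with
  | empty => simp [newtonChi]
  | cons l Λ ih =>
    obtain ⟨q, hq⟩ := ih
    refine ⟨(1 - C l * X) * q - C l ^ (D + 1) * newtonChi Λ, ?_⟩
    have h1 := newton_geom l D
    have h2 : derivative (1 - C l * X : K[X]) = - C l := by simp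
    simp only [Multiset.map_cons, Multiset.sum_cons, C_add, add_mul, sum_add_distrib,
      newtonChi_cons, derivative_mul, h2]
    linear_combination (1 - C l * X) * hq + newtonChi Λ * h1

theorem newton_ode_exp [CharZero K] (S : K[X]) (n : ℕ) :
    derivative (∑ r ∈ range (n + 1), C ((r.factorial : K)⁻¹) * (-S) ^ r) +
      derivative S * ∑ r ∈ range (n + 1), C ((r.factorial : K)⁻¹) * (-S) ^ r =
      derivative S * (C ((n.factorial : K)⁻¹) * (-S) ^ n) := by
  induction n with
  | zero => simp
  | succ n ih =>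
    have h1 : (C (((n + 1).factorial : K)⁻¹) : K[X]) * C ((n + 1 : ℕ) : K) =
        C ((n.factorial : K)⁻¹) := by
      rw [← C_mul, Nat.factorial_succ]
      have h2 : ((n + 1 : ℕ) : K) ≠ 0 := Nat.cast_ne_zero.mpr (Nat.succ_ne_zero n)
      have h3 : ((n.factorial : ℕ) : K) ≠ 0 := Nat.cast_ne_zero.mpr n.factorial_ne_zero
      rw [Nat.cast_mul]
      congr 1
      field_simp
    rw [sum_range_succ _ (n + 1), derivative_add, derivative_C_mul, derivative_pow, derivative_neg,
      Nat.add_sub_cancel]
    linear_combination ih - (-S) ^ n * derivative S * h1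

theorem newton_unique [CharZero K] {W T : K[X]} {D : ℕ} (h0 : W.coeff 0 = 0)
    (h : X ^ D ∣ derivative W + T * W) : ∀ i ≤ D, W.coeff i = 0 := by
  rw [X_pow_dvd_iff] at h
  intro i
  induction i using Nat.strong_induction_on with
  | _ i ih =>
    intro hi
    cases i with
    | zero => exact h0
    | succ i =>
      have h1 := h i (by omega)
      have h2 : (T * W).coeff i = 0 := by
        rw [coeff_mul]
        refine sum_eq_zero fun x hx => ?_
        have h3 := mem_antidiagonal.mp hx
        rw [ih x.2 (by omega) (by omega), mul_zero]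
      rw [coeff_add, h2, add_zero, coeff_derivative] at h1
      exact (mul_eq_zero.mp h1).resolve_right (by exact_mod_cast Nat.succ_ne_zero i)

theorem newton_natDegree (Λ : Multiset K) : (newtonChi Λ).natDegree ≤ Λ.card := by
  induction Λ using Multiset.induction_on with
  | empty => simp [newtonChi]
  | cons l Λ ih =>
    rw [newtonChi_cons, Multiset.card_cons]
    have h1 : (1 - C l * X : K[X]).natDegree ≤ 1 := by compute_degree
    exact natDegree_mul_le.trans (by omega)

theorem newton_reflect (Λ : Multiset K) (τ : K) :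
    ∑ i ∈ range (Λ.card + 1), (newtonChi Λ).coeff i * τ ^ (Λ.card - i) =
      (Λ.map (τ - ·)).prod := by
  induction Λ using Multiset.induction_on with
  | empty => simp [newtonChi]
  | cons l Λ ih =>
    have h1 : (newtonChi Λ).coeff (Λ.card + 1) = 0 :=
      coeff_eq_zero_of_natDegree_lt (Nat.lt_succ_of_le (newton_natDegree Λ))
    have h2 : ∑ i ∈ range (Λ.card + 1 + 1), (newtonChi Λ).coeff i * τ ^ (Λ.card + 1 - i) =
        τ * (Λ.map (τ - ·)).prod := by
      rw [sum_range_succ, h1, zero_mul, add_zero, ← ih, mul_sum]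
      refine sum_congr rfl fun i hi => ?_
      rw [show Λ.card + 1 - i = Λ.card - i + 1 by have := mem_range.mp hi; omega, pow_succ]
      ring
    have h3 : ∑ i ∈ range (Λ.card + 1 + 1), (X * newtonChi Λ).coeff i * τ ^ (Λ.card + 1 - i) =
        (Λ.map (τ - ·)).prod := by
      rw [sum_range_succ', ← ih]
      simp [coeff_X_mul]
    rw [newtonChi_cons, Multiset.card_cons, Multiset.map_cons, Multiset.prod_cons, sub_mul, one_mul,
      mul_assoc, sub_mul, ← h2, ← h3, mul_sum, ← sum_sub_distrib]
    refine sum_congr rfl fun i _ => ?_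
    rw [coeff_sub, coeff_C_mul]
    ring

end

theorem nchi_eq {K : Type} [Field K] [CharZero K] (Λ : Multiset K) (L τ : K) (p : ℕ → K)
    (hp : ∀ j, 1 ≤ j → j ≤ Λ.card → p j = L * (Λ.map (· ^ j)).sum) :
    nchi Λ.card L p τ =
      Λ.card.factorial * (L * Λ.card.factorial) ^ Λ.card * (Λ.map (τ - ·)).prod := by
  set D := Λ.card with hD
  set S : K[X] := ∑ j ∈ range D, C ((Λ.map (· ^ (j + 1))).sum / ((j + 1 : ℕ) : K)) * X ^ (j + 1)
    with hS
  set E : K[X] := ∑ r ∈ range (D + 1), C ((r.factorial : K)⁻¹) * (-S) ^ r with hE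
  have hS' : derivative S = ∑ j ∈ range D, C ((Λ.map (· ^ (j + 1))).sum) * X ^ j := by
    rw [hS, derivative_sum]
    refine sum_congr rfl fun j _ => ?_
    have h2 : ((j + 1 : ℕ) : K) ≠ 0 := Nat.cast_ne_zero.mpr (Nat.succ_ne_zero j)
    rw [derivative_C_mul, derivative_X_pow, ← mul_assoc, ← C_mul, Nat.add_sub_cancel,
      div_mul_cancel₀ _ h2]
  have hX : X ∣ S := dvd_sum fun j _ => Dvd.dvd.mul_left (dvd_pow_self _ (Nat.succ_ne_zero j)) _
  have h1 : ∑ j ∈ range D, C (p (j + 1) * ((D.factorial / (j + 1) : ℕ) : K)) * X ^ (j + 1) =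
      C (L * D.factorial) * S := by
    rw [hS, mul_sum]
    refine sum_congr rfl fun j hj => ?_
    have hj' := mem_range.mp hj
    have h2 : ((j + 1 : ℕ) : K) ≠ 0 := Nat.cast_ne_zero.mpr (Nat.succ_ne_zero j)
    rw [hp (j + 1) (by omega) hj', Nat.cast_div (Nat.dvd_factorial (Nat.succ_pos j) hj') h2,
      ← mul_assoc, ← C_mul]
    congr 2
    field_simp
  have h2 : newt D L p = C (D.factorial * (L * D.factorial) ^ D) * E := by
    rw [newt, h1, hE, mul_sum (range (D + 1))]
    refine sum_congr rfl fun r hr => ?_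
    have hr' : r ≤ D := Nat.lt_succ_iff.mp (mem_range.mp hr)
    have h3 : ((r.factorial : ℕ) : K) ≠ 0 := Nat.cast_ne_zero.mpr r.factorial_ne_zero
    rw [← mul_neg, mul_pow (C _), ← C_pow, ← mul_assoc, ← mul_assoc, ← C_mul, ← C_mul,
      Nat.cast_div (Nat.factorial_dvd_factorial hr') h3]
    congr 2
    rw [mul_assoc, ← pow_add, Nat.sub_add_cancel hr']
    field_simp
  have h3 : ∀ i ≤ D, (E - newtonChi Λ).coeff i = 0 := by
    refine newton_unique (T := derivative S) ?_ ?_
    · have h4 : S.eval 0 = 0 := by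
        obtain ⟨q, hq⟩ := hX
        simp [hq]
      rw [coeff_zero_eq_eval_zero, hE, sum_range_succ']
      simp [eval_finsetSum, h4, newtonChi, eval_multiset_prod]
    · have h4 := newton_ode_chi D Λ
      rw [← hS'] at h4
      have h5 : X ^ D ∣ derivative E + derivative S * E := by
        rw [hE, newton_ode_exp]
        exact ((pow_dvd_pow_of_dvd hX.neg_right D).mul_left _).mul_left _
      have h6 := dvd_sub h5 h4
      rwa [show derivative E + derivative S * E - (derivative (newtonChi Λ) +
        derivative S * newtonChi Λ) = derivative (E - newtonChi Λ) +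
        derivative S * (E - newtonChi Λ) by rw [derivative_sub]; ring] at h6
  clear_value E
  rw [nchi, h2, ← newton_reflect, mul_sum]
  refine sum_congr rfl fun i hi => ?_
  have h4 := h3 i (Nat.lt_succ_iff.mp (mem_range.mp hi))
  rw [coeff_sub, sub_eq_zero] at h4
  rw [coeff_C_mul, h4, mul_assoc]

end Vale.Agent.P337
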