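import Vale.Agent.P337.Sys

/-!
Closure properties of `DP` for polynomial rings: variables, constants, coefficients.
-/

namespace Vale.Agent.P337

open Vale.Agent.Lib.TM Finset

lemma powsum {p : ℕ} (hp : p.Prime) {i c : ℕ} (hi : i + 1 < p) (hc : c + 1 < p) :
    ∑ x ∈ range p, (x : ZMod p) ^ i * (x : ZMod p) ^ (p - 1 - c) = if i = c then -1 else 0 := by
  have := Fact.mk hp
  classical
  have h1 : ∑ x ∈ range p, (x : ZMod p) ^ i * (x : ZMod p) ^ (p - 1 - c) =
      ∑ x : ZMod p, x ^ (i + (p - 1 - c)) := by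
    refine sum_nbij' (fun x => (x : ZMod p)) ZMod.val (fun _ _ => mem_univ _)
      (fun x _ => mem_range.mpr (ZMod.val_lt x))
      (fun x hx => ZMod.val_cast_of_lt (mem_range.mp hx)) (fun x _ => ZMod.natCast_zmod_val x)
      fun x _ => (pow_add _ _ _).symm
  let φ : (ZMod p)ˣ ↪ ZMod p := ⟨fun x => x, Units.val_injective⟩
  have h2 : univ.map φ = univ \ {0} := by
    ext x
    simpa only [mem_map, mem_univ, Function.Embedding.coeFn_mk, true_and, mem_sdiff,
      mem_singleton, φ] using! isUnit_iff_ne_zero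
  rw [h1, ← sum_sdiff ({0} : Finset (ZMod p)).subset_univ, sum_singleton,
    zero_pow (by omega), add_zero, ← h2, sum_map]
  refine (FiniteField.sum_pow_units (ZMod p) _).trans ?_
  rw [ZMod.card]
  refine if_congr ⟨fun ⟨k, hk⟩ => ?_, fun h => ⟨1, by omega⟩⟩ rfl rfl
  rcases k with _ | _ | k
  · omega
  · omega
  · have : (p - 1) * (k + 1 + 1) = (p - 1) * k + (p - 1) * 2 := by ring
    omega

variable {α : Type} [Enc α] [Dec α] {R : α → Type} [∀ a, CommRing (R a)] [∀ a, Sys (R a)]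
  {A : Type} [CommRing A] [Sys A]

section Uni

open Polynomial

lemma nrm_coeff_mul (f : A[X]) (m : ℕ) : nrm (f.coeff m) * 2 ^ m ≤ nrm f := by
  by_cases h : m ∈ f.support
  · exact single_le_sum (f := fun m => nrm (f.coeff m) * 2 ^ m) (fun _ _ => Nat.zero_le _) h
  · simp [notMem_support_iff.mp h, nrm_zero]

lemma nrm_coeff (f : A[X]) (m : ℕ) : nrm (f.coeff m) ≤ nrm f :=
  (Nat.le_mul_of_pos_right _ (Nat.two_pow_pos m)).trans (nrm_coeff_mul f m)

lemma natDegree_le_of_nrm {f : A[X]} {b : ℕ} (h : nrm f ≤ 2 ^ b) : f.natDegree ≤ b := by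
  by_cases h0 : f = 0
  · simp [h0]
  · have h1 := nrm_pos _ (leadingCoeff_ne_zero.mpr h0)
    exact (Nat.pow_le_pow_iff_right one_lt_two).mp
      (((Nat.le_mul_of_pos_left _ h1).trans (nrm_coeff_mul f _)).trans h)

lemma nrm_monomial (m : ℕ) (a : A) : nrm (monomial m a) ≤ nrm a * 2 ^ m :=
  (sum_le_sum_of_subset (f := fun i => nrm ((monomial m a).coeff i) * 2 ^ i)
    (support_monomial_subset m a)).trans (by simp)

lemma ev_poly (p : ℕ) (xs : List (List ℕ)) (f : A[X]) :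
    ev p xs f = f.eval₂ (ev p xs.tail) (((xs.getD 0 []).getD 0 0 : ℕ) : ZMod p) := rfl

lemma DP.pC {f : ∀ a, R a} (h : DP f) : DP fun a => C (f a) :=
  let ⟨b, G, h1, h2, h3⟩ := h
  ⟨b, fun s => G (s.1, s.2.1, s.2.2.tail), h1, by fun_prop, fun a =>
    ⟨(nrm_monomial 0 _).trans (by simpa using (h3 a).1), fun p xs hp hb => by
      rw [ev_poly, eval₂_C]; exact (h3 a).2 _ _ hp hb⟩⟩

lemma DP.pX : DP fun a => (X : (R a)[X]) :=
  ⟨fun _ => 1, fun s => (s.2.2.getD 0 []).getD 0 0, .const 1, by fun_prop, fun a =>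
    ⟨(nrm_monomial 1 _).trans (by have := nrm_one (R := R a); dsimp only; omega), fun p xs _ _ => by
      rw [ev_poly, eval₂_X]⟩⟩

lemma DP.pco {f : ∀ a, (R a)[X]} (h : DP f) {c : α → ℕ} (hc : FH c) :
    DP fun a => (f a).coeff (c a) := by
  obtain ⟨b, G, h1, h2, h3⟩ := h
  refine ⟨fun a => b a + c a + 1, fun s => ∑ x ∈ range s.2.1, (s.2.1 - 1) *
    (G (s.1, s.2.1, [x] :: s.2.2) * pm x (s.2.1 - 1 - c s.1) s.2.1),
    (h1.add hc.eb).add (.const 1), FH.sum (g := fun s : (α × ℕ × List (List ℕ)) × ℕ =>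
      (s.1.2.1 - 1) * (G (s.1.1, s.1.2.1, [s.2] :: s.1.2.2) *
        pm s.2 (s.1.2.1 - 1 - c s.1.1) s.1.2.1)) (by fun_prop) (by fun_prop),
    fun a => ⟨(nrm_coeff _ _).trans ((h3 a).1.trans (Nat.pow_le_pow_right two_pos (by dsimp only; omega))),
      fun p xs hp hb => ?_⟩⟩
  have h4 := natDegree_le_of_nrm (h3 a).1
  dsimp only at hb
  have h5 : ∀ xs, (G (a, p, xs) : ZMod p) = _ := fun xs => (h3 a).2 p xs hp (by omega)
  simp only [Nat.cast_sum, Nat.cast_mul, cast_pred hp, pm_cast hp, h5, ev_poly, List.tail_cons,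
    List.getD_cons_zero, eval₂_eq_sum_range' _ (show (f a).natDegree < b a + c a + 1 by omega),
    sum_mul, mul_assoc, ← mul_sum]
  rw [sum_comm, sum_eq_single (c a)]
  · rw [← mul_sum, powsum hp (by omega) (by omega)]; simp
  · intro i hi hi'
    rw [← mul_sum, powsum hp (by have := mem_range.mp hi; omega) (by omega), if_neg hi', mul_zero]
  · simp only [mem_range]; omega

lemma DP.natDeg {f : ∀ a, (R a)[X]} (h : DP f) :
    ∃ u : α → ℕ, CT 0 u ∧ ∀ a, (f a).natDegree < u a :=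
  let ⟨_, _, h1, _, h3⟩ := h
  let ⟨u, k1, k2⟩ := h1.bound
  ⟨u, k1, fun a => (natDegree_le_of_nrm (h3 a).1).trans_lt (k2 a)⟩

end Uni

/-- Digits in base `B`. -/
def digs (N B n : ℕ) : List ℕ := (List.range N).map fun i => n / B ^ i % B

omit [Dec α] in
lemma ct_digs {N B n : α → ℕ} (hN : CT 0 N) (hN' : Bd 0 N) (hB : CT 0 B) (hn : CT 0 n) :
    CT 0 fun a => digs (N a) (B a) (n a) := by
  have h1 : CT 0 fun s : α × ℕ => B s.1 ^ min s.2 (N s.1) :=
    CT.pow (by fun_prop) (by fun_prop)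
      ((hN'.comp (CT.fst (e := 0) CT.id).size).of_le fun _ => min_le_right _ _)
  refine (CT.map (f := fun a i => n a / B a ^ min i (N a) % B a)
    (CT.mod (CT.div (by fun_prop) h1) (by fun_prop)) (hN.range hN')).of_eq fun a => ?_
  exact List.map_congr_left fun i hi => by rw [min_eq_left (List.mem_range.mp hi).le]

lemma sum_digs {M : Type} [AddCommMonoid M] (N B : ℕ) (F : (Fin N → ℕ) → M) :
    ∑ m ∈ Fintype.piFinset fun _ : Fin N => range B, F m =
      ∑ n ∈ range (B ^ N), F fun i => (digs N B n).getD i 0 := by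
  rw [sum_range, ← finFunctionFinEquiv.sum_comp]
  symm
  refine sum_nbij (fun f i => (f i).val) (by simp) (fun f _ g _ h => ?_) (fun m hm => ?_)
    fun f _ => ?_
  · exact funext fun i => Fin.ext (congrFun h i)
  · exact ⟨fun i => ⟨m i, by simpa using Fintype.mem_piFinset.mp hm i⟩, by simp, rfl⟩
  · congr 1
    funext i
    have := congrArg Fin.val (congrFun (finFunctionFinEquiv.symm_apply_apply f) i)
    rw [finFunctionFinEquiv_symm_apply_val] at this
    simpa [digs] using this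

section Multi

open MvPolynomial

variable {n : ℕ}

lemma nrm_mcoeff_mul (f : MvPolynomial (Fin n) A) (m : Fin n →₀ ℕ) :
    nrm (f.coeff m) * 2 ^ (∑ i, m i) ≤ nrm f := by
  by_cases h : m ∈ f.support
  · exact single_le_sum (f := fun m => nrm (f.coeff m) * 2 ^ (∑ i, m i))
      (fun _ _ => Nat.zero_le _) h
  · simp [notMem_support_iff.mp h, nrm_zero]

lemma sum_le_of_nrm {f : MvPolynomial (Fin n) A} {b : ℕ} (h : nrm f ≤ 2 ^ b) {m : Fin n →₀ ℕ}
    (hm : m ∈ f.support) : ∑ i, m i ≤ b :=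
  (Nat.pow_le_pow_iff_right one_lt_two).mp (((Nat.le_mul_of_pos_left _
    (nrm_pos _ (mem_support_iff.mp hm))).trans (nrm_mcoeff_mul f _)).trans h)

lemma nrm_mmonomial (m : Fin n →₀ ℕ) (a : A) : nrm (monomial m a) ≤ nrm a * 2 ^ (∑ i, m i) :=
  (sum_le_sum_of_subset (f := fun i => nrm ((monomial m a).coeff i) * 2 ^ (∑ j, i j))
    support_monomial_subset).trans (by simp)

lemma ev_mv (p : ℕ) (xs : List (List ℕ)) (f : MvPolynomial (Fin n) A) :
    ev p xs f = f.eval₂ (ev p xs.tail) fun i : Fin n => (((xs.getD 0 []).getD i 0 : ℕ) : ZMod p) := rfl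

/-- The variable with a given index, or zero. -/
noncomputable def xv (n : ℕ) (A : Type) [CommRing A] (i : ℕ) : MvPolynomial (Fin n) A :=
  if h : i < n then X ⟨i, h⟩ else 0

omit [Sys A] in
@[simp] lemma xv_val (i : Fin n) : xv n A i = X i := by simp [xv]

/-- The exponent vector of a function. -/
noncomputable def ex (n : ℕ) (c : ℕ → ℕ) : Fin n →₀ ℕ := Finsupp.equivFunOnFinite.symm fun i => c i

variable {N : α → ℕ}

lemma DP.mC {f : ∀ a, R a} (h : DP f) : DP fun a => (C (f a) : MvPolynomial (Fin (N a)) (R a)) :=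
  let ⟨b, G, h1, h2, h3⟩ := h
  ⟨b, fun s => G (s.1, s.2.1, s.2.2.tail), h1, by fun_prop, fun a =>
    ⟨(nrm_mmonomial 0 _).trans (by simpa using (h3 a).1), fun p xs hp hb => by
      rw [ev_mv, eval₂_C]; exact (h3 a).2 _ _ hp hb⟩⟩

lemma DP.var (hN : FH N) {i : α → ℕ} (hi : FH i) : DP fun a => xv (N a) (R a) (i a) := by
  refine ⟨fun _ => 1, fun s => if i s.1 < N s.1 then (s.2.2.getD 0 []).getD (i s.1) 0 else 0,
    .const 1, FH.ite (CH.lt (by fun_prop) (by fun_prop)) (by fun_prop) (by fun_prop),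
    fun a => ⟨?_, fun p xs _ _ => ?_⟩⟩ <;> simp only [xv] <;> split_ifs
  · refine (nrm_mmonomial _ _).trans ?_
    have := nrm_one (R := R a)
    simp only [Finsupp.single_apply, sum_ite_eq, mem_univ, if_true]
    omega
  · simp [nrm_zero]
  · rw [ev_mv, eval₂_X]
  · simp

lemma DP.mco (hN : CT 0 N) (hN' : Bd 0 N) {f : ∀ a, MvPolynomial (Fin (N a)) (R a)} (h : DP f)
    {c : α → ℕ → ℕ} (hc : FH fun s : α × ℕ => c s.1 s.2) :
    DP fun a => (f a).coeff (ex (N a) (c a)) := by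
  obtain ⟨b, G, h1, h2, h3⟩ := h
  obtain ⟨u, k1, k2⟩ := hc.eb.sup (.ofCT hN)
  have hd : CT 0 fun s : (α × ℕ × List (List ℕ)) × ℕ => digs (N s.1.1) s.1.2.1 s.2 :=
    ct_digs (by fun_prop) (hN'.comp (CT.fst (e := 0) (CT.fst CT.id)).size) (by fun_prop)
      (by fun_prop)
  obtain ⟨H, l1, l2⟩ := FH.prodMod (g := fun s : ((α × ℕ × List (List ℕ)) × ℕ) × ℕ =>
    (s.1.1.2.1 - 1) * pm ((digs (N s.1.1.1) s.1.1.2.1 s.1.2).getD s.2 0)
      (s.1.1.2.1 - 1 - c s.1.1.1 s.2) s.1.1.2.1)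
    (FH.mul (by fun_prop) (FH.pm (FH.getD ((FH.ofCT hd).comp (g := Prod.fst) (by fun_prop))
      (by fun_prop) (by fun_prop)) (FH.sub (by fun_prop)
        (hc.comp (g := fun s : ((α × ℕ × List (List ℕ)) × ℕ) × ℕ => (s.1.1.1, s.2)) (by fun_prop)))
      (by fun_prop)))
    (N := fun s => N s.1.1) (P := fun s => s.1.2.1) (by fun_prop) (by fun_prop)
  refine ⟨fun a => b a + u a + 1, fun s => ∑ x ∈ range (s.2.1 ^ N s.1),
    G (s.1, s.2.1, digs (N s.1) s.2.1 x :: s.2.2) * H (s, x),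
    (h1.add (.ofCT k1)).add (.const 1), FH.sum (g := fun s : (α × ℕ × List (List ℕ)) × ℕ =>
      G (s.1.1, s.1.2.1, digs (N s.1.1) s.1.2.1 s.2 :: s.1.2.2) * H s)
      (FH.mul (h2.comp (.ofCT (CT.mk (by fun_prop) (CT.mk (by fun_prop) (hd.cons (by fun_prop))))))
        l1)
      (.ofCT (CT.pow (by fun_prop) (by fun_prop) (hN'.comp (CT.fst (e := 0) CT.id).size))),
    fun a => ⟨((Nat.le_mul_of_pos_right _ (Nat.two_pow_pos _)).trans (nrm_mcoeff_mul _ _)).trans
      ((h3 a).1.trans (Nat.pow_le_pow_right two_pos (by dsimp only; omega))), fun p xs hp hb => ?_⟩⟩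
  dsimp only at hb
  have h5 : ∀ xs, (G (a, p, xs) : ZMod p) = _ := fun xs => (h3 a).2 p xs hp (by omega)
  have h6 : ∀ x, (H ((a, p, xs), x) : ZMod p) = _ := fun x => l2 ((a, p, xs), x) hp
  simp only [Nat.cast_sum, Nat.cast_mul, cast_pred hp, pm_cast hp, h5, h6, ev_mv, List.tail_cons,
    List.getD_cons_zero, prod_range]
  rw [← sum_digs (N a) p fun m => (f a).eval₂ (ev p xs) (fun i => (m i : ZMod p)) *
    ∏ i : Fin (N a), -1 * (m i : ZMod p) ^ (p - 1 - c a i)]
  simp only [eval₂_eq', sum_mul, mul_assoc, ← prod_mul_distrib]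
  rw [sum_comm]
  have h7 : ∀ m ∈ (f a).support, ∑ x ∈ Fintype.piFinset fun _ : Fin (N a) => range p,
      ev p xs ((f a).coeff m) * ∏ i, (x i : ZMod p) ^ m i * (-1 * (x i : ZMod p) ^ (p - 1 - c a i))
      = if ex (N a) (c a) = m then ev p xs ((f a).coeff m) else 0 := by
    intro m hm
    rw [← mul_sum, ← prod_univ_sum (f := fun (i : Fin (N a)) (x : ℕ) =>
      (x : ZMod p) ^ m i * (-1 * (x : ZMod p) ^ (p - 1 - c a i))),
      prod_congr rfl (g := fun i => if m i = c a i then 1 else 0) fun i _ => ?_, prod_boole]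
    · have : (∀ i ∈ univ, m i = c a i) ↔ ex (N a) (c a) = m := by
        simp [ex, Finsupp.ext_iff, eq_comm]
      simp only [this, mul_ite, mul_one, mul_zero]
    · have h8 := (single_le_sum (f := fun i => m i) (fun _ _ => Nat.zero_le _) (mem_univ i)).trans
        (sum_le_of_nrm (h3 a).1 hm)
      have h9 : c a i < u a := k2 a i i.2
      simp only [mul_left_comm _ (-1 : ZMod p), ← mul_sum]
      rw [powsum hp (by omega) (by omega)]
      split_ifs <;> simp
  rw [sum_congr rfl h7, sum_ite_eq]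
  split_ifs with h
  · rfl
  · rw [notMem_support_iff.mp h, map_zero]

lemma DP.deg {f : ∀ a, MvPolynomial (Fin (N a)) (R a)} (h : DP f) :
    ∃ u : α → ℕ, CT 0 u ∧ ∀ a, (f a).totalDegree < u a :=
  let ⟨_, _, h1, _, h3⟩ := h
  let ⟨u, k1, k2⟩ := h1.bound
  ⟨u, k1, fun a => lt_of_le_of_lt (Finset.sup_le fun m hm => by
    rw [Finsupp.sum_fintype _ _ fun _ => rfl]; exact sum_le_of_nrm (h3 a).1 hm) (k2 a)⟩

lemma DP.mapInt {f : ∀ a, MvPolynomial (Fin (N a)) ℤ} (h : DP f) :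
    DP fun a => map (Int.castRingHom (R a)) (f a) := by
  obtain ⟨b, G, h1, h2, h3⟩ := h
  refine ⟨b, G, h1, h2, fun a => ⟨le_trans ?_ (h3 a).1, fun p xs hp hb => ?_⟩⟩
  · dsimp only
    conv_lhs => rw [(f a).as_sum, map_sum]
    refine (nrm_sum _ _).trans (sum_le_sum fun m _ => ?_)
    rw [map_monomial]
    exact (nrm_mmonomial _ _).trans (Nat.mul_le_mul_right _ (nrm_int _))
  · rw [(h3 a).2 p xs hp hb, ev_mv, ev_mv, eval₂_map]
    congr 1
    exact RingHom.ext_int _ _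

end Multi

end Vale.Agent.P337
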