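import Vale.Agent.P337.Newton

/-!
The univariate residue formula for sums over roots, and Cauchy bounds.
-/

namespace Vale.Agent.P337

open Finset Polynomial

theorem rho1_add (ψ : ℂ[X]) (k B : ℕ) (φ φ' : ℂ[X]) :
    rho1 ψ k B (φ + φ') = rho1 ψ k B φ + rho1 ψ k B φ' := by
  simp only [rho1, add_mul, coeff_add, mul_add, sum_add_distrib]

theorem rho1_C_mul (ψ : ℂ[X]) (k B : ℕ) (a : ℂ) (φ : ℂ[X]) :
    rho1 ψ k B (C a * φ) = a * rho1 ψ k B φ := by
  simp only [rho1, mul_assoc, coeff_C_mul, mul_sum]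
  exact sum_congr rfl fun m _ => by ring

theorem rho1_sum (ψ : ℂ[X]) (k B : ℕ) (s : Multiset ℂ) (φ : ℂ → ℂ[X]) :
    rho1 ψ k B (s.map φ).sum = (s.map fun l => rho1 ψ k B (φ l)).sum := by
  induction s using Multiset.induction_on with
  | empty => simp [rho1]
  | cons a s ih => simp [rho1_add, ih]

theorem rho1_low {ψ : ℂ[X]} {k : ℕ} (hk : ψ.natDegree = k) (h1 : 1 ≤ k) :
    (C (ψ.coeff k) * X ^ k - ψ).natDegree ≤ k - 1 := by
  rw [natDegree_le_iff_coeff_eq_zero]
  intro n hn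
  rw [coeff_sub, coeff_C_mul, coeff_X_pow]
  split_ifs with h
  · simp [h]
  · rw [coeff_eq_zero_of_natDegree_lt (n := n) (by omega)]
    simp

theorem rho1_mul {ψ q : ℂ[X]} {k B : ℕ} (hk : ψ.natDegree = k) (h1 : 1 ≤ k)
    (hB : q.natDegree + 2 ≤ B) : rho1 ψ k B (q * ψ) = 0 := by
  set h := C (ψ.coeff k) * X ^ k - ψ with hh
  set a : ℕ → ℂ := fun m =>
    ψ.coeff k ^ (B + 1 - m) * (X ^ k * (q * h ^ m)).coeff (k * (m + 1) - 1) with ha
  have h2 : rho1 ψ k B (q * ψ) = ∑ m ∈ range B, (a m - a (m + 1)) := by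
    refine sum_congr rfl fun m hm => ?_
    have hm' := mem_range.mp hm
    have h3 : q * ψ * h ^ m = C (ψ.coeff k) * (X ^ k * (q * h ^ m)) - q * h ^ (m + 1) := by
      rw [pow_succ h]
      linear_combination (q * h ^ m) * hh
    have h4 : k * (m + 1 + 1) - 1 = k * (m + 1) - 1 + k := by
      have : k * (m + 1 + 1) = k * (m + 1) + k := by ring
      have : 1 ≤ k * (m + 1) := Nat.mul_pos h1 (Nat.succ_pos m)
      omega
    simp only [ha]
    rw [← hh, h3, coeff_sub, coeff_C_mul, h4, coeff_X_pow_mul,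
      show B + 1 - m = B - m + 1 by omega, show B + 1 - (m + 1) = B - m by omega, pow_succ]
    ring
  have h3 : a 0 = 0 := by
    simp only [ha]
    rw [coeff_X_pow_mul', if_neg (by omega), mul_zero]
  have h4 : a B = 0 := by
    simp only [ha]
    refine mul_eq_zero_of_right _ (coeff_eq_zero_of_natDegree_lt ?_)
    have h5 : (h ^ B).natDegree ≤ B * (k - 1) := natDegree_pow_le_of_le _ (rho1_low hk h1)
    have h6 : (X ^ k * (q * h ^ B)).natDegree ≤ k + (q.natDegree + B * (k - 1)) :=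
      natDegree_mul_le.trans (add_le_add (natDegree_X_pow_le k)
        (natDegree_mul_le.trans (add_le_add le_rfl h5)))
    obtain ⟨j, rfl⟩ : ∃ j, k = j + 1 := ⟨k - 1, by omega⟩
    have h7 : (j + 1) * (B + 1) = B * j + B + j + 1 := by ring
    rw [Nat.add_sub_cancel] at h6
    omega
  rw [h2, sum_range_sub', h3, h4, sub_zero]

theorem rho1_small {ψ r : ℂ[X]} {k B : ℕ} (hk : ψ.natDegree = k) (h1 : 1 ≤ k)
    (hB : 1 ≤ B) (hr : r.natDegree ≤ k - 1) :
    rho1 ψ k B r = ψ.coeff k ^ B * r.coeff (k - 1) := by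
  rw [rho1, sum_eq_single 0]
  · simp
  · intro m _ hm
    refine mul_eq_zero_of_right _ (coeff_eq_zero_of_natDegree_lt ?_)
    have h5 := natDegree_pow_le_of_le m (rho1_low hk h1)
    have h6 := natDegree_mul_le.trans (add_le_add hr h5)
    obtain ⟨j, rfl⟩ : ∃ j, k = j + 1 := ⟨k - 1, by omega⟩
    have h7 : (j + 1) * (m + 1) = m * j + m + j + 1 := by ring
    rw [Nat.add_sub_cancel] at h6
    omega
  · intro h
    exact absurd (mem_range.mpr hB) h

theorem rho1_eq (ψ φ : ℂ[X]) {k B : ℕ} (hk : ψ.natDegree = k) (h1 : 1 ≤ k)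
    (hB : φ.natDegree + 2 ≤ B) :
    rho1 ψ k B (φ * derivative ψ) = ψ.coeff k ^ (B + 1) * (ψ.roots.map fun l => φ.eval l).sum := by
  classical
  have hc : ψ.roots.card = k := IsAlgClosed.card_roots_eq_natDegree.trans hk
  have hψ : C (ψ.coeff k) * (ψ.roots.map fun l => X - C l).prod = ψ := by
    have := C_leadingCoeff_mul_prod_multiset_X_sub_C (hc.trans hk.symm)
    rwa [leadingCoeff, hk] at this
  have hd : φ * derivative ψ = (ψ.roots.map fun l =>
      φ * (C (ψ.coeff k) * ((ψ.roots.erase l).map fun l => X - C l).prod)).sum := by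
    conv_lhs => rw [← hψ]
    rw [derivative_C_mul, derivative_prod, Multiset.sum_map_mul_left, Multiset.sum_map_mul_left]
    simp
  rw [hd, rho1_sum, ← Multiset.sum_map_mul_left]
  refine congrArg _ (Multiset.map_congr rfl fun l hl => ?_)
  set r := ((ψ.roots.erase l).map fun l => X - C l).prod with hr
  have h2 : (X - C l) * r = (ψ.roots.map fun l => X - C l).prod :=
    Multiset.prod_map_erase (f := fun l => X - C l) hl
  have h3 : r.natDegree = k - 1 := by
    rw [hr, natDegree_multiset_prod_X_sub_C_eq_card, Multiset.card_erase_of_mem hl, hc]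
    rfl
  have h4 : r.coeff (k - 1) = 1 := by
    rw [← h3]
    exact monic_multiset_prod_of_monic _ _ fun l _ => monic_X_sub_C l
  have h5 : φ = C (φ.eval l) + (X - C l) * (φ /ₘ (X - C l)) := by
    rw [← modByMonic_X_sub_C_eq_C_eval, modByMonic_add_div]
  have h6 : φ * (C (ψ.coeff k) * r) =
      C (φ.eval l * ψ.coeff k) * r + (φ /ₘ (X - C l)) * ψ := by
    rw [C_mul]
    linear_combination (C (ψ.coeff k) * r) * h5 + (φ /ₘ (X - C l)) * C (ψ.coeff k) * h2 +
      (φ /ₘ (X - C l)) * hψ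
  have h7 : (φ /ₘ (X - C l)).natDegree ≤ φ.natDegree := by
    rw [natDegree_divByMonic _ (monic_X_sub_C l)]
    omega
  rw [h6, rho1_add, rho1_C_mul, rho1_mul hk h1 (by omega), rho1_small hk h1 (by omega) h3.le, h4]
  ring

theorem cp_eq {A : Type} [CommRing A] (f : A →+* ℂ) (ψ G : ℤ[X]) {k B : ℕ}
    (hk : ψ.natDegree = k) (h1 : 1 ≤ k) (hB : k * G.natDegree + 2 ≤ B) (τ : A) :
    f (cp ψ G k B τ) = k.factorial * ((ψ.coeff k : ℂ) ^ (B + 1) * k.factorial) ^ k *
      ((ψ.aroots ℂ).map fun l => f τ - aeval l G).prod := by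
  have hk' : (ψ.map (algebraMap ℤ ℂ)).natDegree = k :=
    (natDegree_map_eq_of_injective (RingHom.injective_int _) _).trans hk
  have hc : ((ψ.aroots ℂ).map fun l => aeval l G).card = k := by
    rw [Multiset.card_map, aroots_def, IsAlgClosed.card_roots_eq_natDegree, hk']
  have h2 := nchi_eq ((ψ.aroots ℂ).map fun l => aeval l G) ((ψ.coeff k : ℂ) ^ (B + 1)) (f τ)
    (fun j => ((rho1 ψ k B (G ^ j * derivative ψ) : ℤ) : ℂ)) fun j _ hj => by
      have h3 : ((G.map (algebraMap ℤ ℂ)) ^ j).natDegree + 2 ≤ B := by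
        have h4 := natDegree_pow_le_of_le j (natDegree_map_le (f := algebraMap ℤ ℂ) (p := G))
        have h5 := Nat.mul_le_mul_right G.natDegree (hj.trans hc.le)
        omega
      have h4 := rho1_eq _ _ hk' h1 h3
      have h5 := map_rho1 (algebraMap ℤ ℂ) ψ k B (G ^ j * derivative ψ)
      rw [Polynomial.map_mul, Polynomial.map_pow, ← derivative_map, h4] at h5
      simp only [eval_pow, eval_map_algebraMap, coeff_map] at h5
      simpa [aroots_def] using h5
  rw [hc, Multiset.map_map] at h2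
  rw [cp, map_nchi]
  simpa using h2

theorem rho1_root_le (R : ℤ[X]) (hR : R ≠ 0) {β : ℕ} (h : ∀ i, (R.coeff i).natAbs < 2 ^ β) {g : ℂ}
    (hg : aeval g R = 0) : ‖g‖ ≤ 2 ^ β := by
  have hinj : Function.Injective (algebraMap ℤ ℂ) := RingHom.injective_int _
  have h1 : R.map (algebraMap ℤ ℂ) ≠ 0 := (Polynomial.map_ne_zero_iff hinj).mpr hR
  have h2 : (R.map (algebraMap ℤ ℂ)).IsRoot g := by
    rwa [IsRoot.def, eval_map_algebraMap]
  have h3 := h2.norm_lt_cauchyBound h1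
  have h4 : ∀ i, ‖(R.map (algebraMap ℤ ℂ)).coeff i‖₊ ≤ ((2 ^ β - 1 : ℕ) : NNReal) := fun i => by
    have h5 : (R.coeff i).natAbs ≤ 2 ^ β - 1 := by have := h i; omega
    rw [coeff_map, algebraMap_int_eq, eq_intCast, Complex.nnnorm_intCast, ← NNReal.natCast_natAbs]
    exact_mod_cast h5
  have h5 : 1 ≤ ‖(R.map (algebraMap ℤ ℂ)).leadingCoeff‖₊ := by
    rw [leadingCoeff_map_of_injective hinj, algebraMap_int_eq, eq_intCast, Complex.nnnorm_intCast,
      ← NNReal.natCast_natAbs]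
    exact_mod_cast Int.natAbs_pos.mpr (leadingCoeff_ne_zero.mpr hR)
  have h6 : cauchyBound (R.map (algebraMap ℤ ℂ)) ≤ ((2 ^ β - 1 : ℕ) : NNReal) + 1 :=
    add_le_add ((div_le_self zero_le h5).trans (Finset.sup_le fun i _ => h4 i)) le_rfl
  have h7 : ((2 ^ β - 1 : ℕ) : NNReal) + 1 = 2 ^ β := by
    have : 1 ≤ 2 ^ β := Nat.one_le_two_pow
    exact_mod_cast Nat.sub_add_cancel this
  exact_mod_cast (h3.le.trans h6).trans h7.le

theorem root_bound (R : ℤ[X]) (hR : R ≠ 0) {β : ℕ} (h : ∀ i, (R.coeff i).natAbs < 2 ^ β) {g : ℂ}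
    (hg : aeval g R = 0) (h0 : g ≠ 0) : 1 / 2 ^ β ≤ ‖g‖ ∧ ‖g‖ ≤ 2 ^ β := by
  refine ⟨?_, rho1_root_le R hR h hg⟩
  let _ := invertibleOfNonzero h0
  have h1 := rho1_root_le R.reverse (mt reverse_eq_zero.mp hR) (g := ⅟g)
    (fun i => by rw [coeff_reverse]; exact h _)
    ((eval₂_reverse_eq_zero_iff (algebraMap ℤ ℂ) g R).mpr hg)
  rw [invOf_eq_inv, norm_inv] at h1
  rw [one_div]
  exact inv_le_of_inv_le₀ (norm_pos_iff.mpr h0) h1

end Vale.Agent.P337
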