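import Mathlib

/-!
The sign of an integer from its residues, and products of primes.
-/

namespace Vale.Agent.P337

open Finset

/-- A low precision approximation of the fractional part of `∑ y p / p`, shifted. -/
def sA (S : Finset ℕ) (Y : ℕ) (y : ℕ → ℕ) : ℕ := (∑ p ∈ S, 64 * Y * y p / p + 8 * Y) % (64 * Y)

theorem signM_crt (w : ℤ) (S : Finset ℕ) (hS : ∀ p ∈ S, p.Prime) (y : ℕ → ℕ)
    (hy : ∀ p ∈ S, (y p : ZMod p) * ∏ q ∈ S.erase p, (q : ZMod p) = (w : ZMod p)) :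
    ∃ R : ℤ, ∑ p ∈ S, (y p : ℝ) / p = w / (∏ p ∈ S, p : ℕ) + R := by
  have h1 : ((∏ p ∈ S, p : ℕ) : ℤ) ∣ ∑ p ∈ S, (y p : ℤ) * ∏ q ∈ S.erase p, (q : ℤ) - w := by
    rw [Int.natCast_dvd]
    refine Finset.prod_primes_dvd _ (fun p hp => (hS p hp).prime) fun p hp => ?_
    rw [← Int.natCast_dvd, ← ZMod.intCast_zmod_eq_zero_iff_dvd]
    push_cast
    rw [sum_eq_single p, hy p hp, sub_self]
    · intro q _ hq
      rw [prod_eq_zero (mem_erase.mpr ⟨hq.symm, hp⟩) (ZMod.natCast_self p), mul_zero]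
    · exact fun h => absurd hp h
  obtain ⟨R, hR⟩ := h1
  refine ⟨R, ?_⟩
  have h2 : ∀ p ∈ S, (p : ℝ) ≠ 0 := fun p hp => Nat.cast_ne_zero.mpr (hS p hp).ne_zero
  have h3 : ((∏ p ∈ S, p : ℕ) : ℝ) ≠ 0 := by
    push_cast
    exact prod_ne_zero_iff.mpr h2
  have h4 := congrArg (Int.cast : ℤ → ℝ) hR
  have h5 : (∑ p ∈ S, (y p : ℝ) / p) * (∏ p ∈ S, p : ℕ) =
      ∑ p ∈ S, (y p : ℝ) * ∏ q ∈ S.erase p, (q : ℝ) := by
    rw [sum_mul]
    refine sum_congr rfl fun p hp => ?_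
    have := h2 p hp
    push_cast
    rw [← mul_prod_erase S _ hp]
    field_simp
  rw [eq_div_of_mul_eq h3 h5]
  simp only [Int.cast_sub, Int.cast_sum, Int.cast_mul, Int.cast_prod, Int.cast_natCast] at h4
  field_simp
  linear_combination h4

theorem signM_approx (S : Finset ℕ) {Y : ℕ} (hY : S.card ≤ Y) (hY1 : 1 ≤ Y) (y : ℕ → ℕ) {x : ℝ}
    {R : ℤ} (h : ∑ p ∈ S, (y p : ℝ) / p = x + R) :
    ∃ (R' : ℤ) (δ : ℝ), 0 ≤ δ ∧ δ ≤ 1 ∧ (sA S Y y : ℝ) / Y = 64 * x + 64 * R' + 8 - δ := by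
  have hY' : (0 : ℝ) < Y := by exact_mod_cast hY1
  set N := ∑ p ∈ S, 64 * Y * y p / p with hN
  have h1 : ∑ p ∈ S, ((64 * Y * y p : ℕ) : ℝ) / p = 64 * Y * (x + R) := by
    rw [← h, mul_sum]
    refine sum_congr rfl fun p _ => ?_
    push_cast
    ring
  have h2 : (N : ℝ) ≤ 64 * Y * (x + R) := by
    rw [← h1, hN, Nat.cast_sum]
    exact sum_le_sum fun p _ => Nat.cast_div_le
  have h3 : 64 * Y * (x + R) ≤ N + Y := by
    have h4 : ∀ p ∈ S, ((64 * Y * y p : ℕ) : ℝ) / p ≤ ((64 * Y * y p / p : ℕ) : ℝ) + 1 :=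
      fun p _ => by
        rw [← Nat.floor_div_eq_div (K := ℝ)]
        exact (Nat.lt_floor_add_one _).le
    have h5 := sum_le_sum h4
    rw [h1, sum_add_distrib, ← Nat.cast_sum, ← hN] at h5
    have h6 : (S.card : ℝ) ≤ Y := by exact_mod_cast hY
    simp only [sum_const, nsmul_eq_mul, mul_one] at h5
    linarith
  have h4 : (sA S Y y : ℝ) + 64 * Y * ((N + 8 * Y) / (64 * Y) : ℕ) = N + 8 * Y := by
    exact_mod_cast Nat.mod_add_div (N + 8 * Y) (64 * Y)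
  refine ⟨R - ((N + 8 * Y) / (64 * Y) : ℕ), (64 * Y * (x + R) - N) / Y,
    div_nonneg (by linarith) hY'.le, (div_le_one hY').mpr (by linarith), ?_⟩
  rw [Int.cast_sub, Int.cast_natCast]
  field_simp
  linear_combination h4

theorem signM_zero {R : ℤ} (h1 : (-64 : ℝ) < 64 * R) (h2 : (64 : ℝ) * R < 64) : (R : ℝ) = 0 := by
  have h3 : (-1 : ℤ) < R := by
    have : (-1 : ℝ) < R := by linarith
    exact_mod_cast this
  have h4 : R < 1 := by
    have : (R : ℝ) < 1 := by linarith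
    exact_mod_cast this
  exact_mod_cast (by omega : R = 0)

theorem signM_real (x : ℝ) (a : ℕ → ℝ) (J : ℕ) (h0 : |x| < 8) (hJ : 0 < x → 20 ≤ 2 ^ J * x)
    (ha : ∀ j, 0 ≤ a j ∧ a j < 64)
    (h : ∀ j, ∃ (R : ℤ) (δ : ℝ), 0 ≤ δ ∧ δ ≤ 1 ∧ a j = 2 ^ j * x + 64 * R + 8 - δ) :
    0 < x ↔ ∃ j ≤ J, 16 ≤ a j ∧ a j < 40 ∧ ∀ j' < j, a j' < 16 := by
  have inv : ∀ j, (∀ j' < j, a j' < 16) → -20 < 2 ^ j * x ∧ 2 ^ j * x < 20 := by
    intro j
    induction j with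
    | zero =>
      intro _
      have := abs_lt.mp h0
      constructor <;> linarith
    | succ j ih =>
      intro hj
      obtain ⟨h1, h2⟩ := ih fun j' hj' => hj j' (by omega)
      obtain ⟨R, δ, h3, h4, h5⟩ := h j
      have h6 := hj j (by omega)
      have h7 := (ha j).1
      have h8 := signM_zero (R := R) (by linarith) (by linarith)
      rw [pow_succ, mul_comm _ (2 : ℝ), mul_assoc]
      constructor <;> linarith
  constructor
  · intro hx
    have h1 : ∃ j, j < J ∧ 16 ≤ a j := by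
      by_contra h2
      push Not at h2
      linarith [(inv J h2).2, hJ hx]
    classical
    obtain ⟨h2, h3⟩ := Nat.find_spec h1
    have h4 : ∀ j' < Nat.find h1, a j' < 16 := fun j' hj' => by
      have := Nat.find_min h1 hj'
      push Not at this
      exact this (by omega)
    refine ⟨_, h2.le, h3, ?_, h4⟩
    obtain ⟨-, h5⟩ := inv _ h4
    obtain ⟨R, δ, h6, h7, h8⟩ := h (Nat.find h1)
    have h9 : 0 < 2 ^ Nat.find h1 * x := by positivity
    have h10 := (ha (Nat.find h1)).2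
    have h11 := signM_zero (R := R) (by linarith) (by linarith)
    linarith
  · rintro ⟨j, -, h1, h2, h3⟩
    obtain ⟨h4, h5⟩ := inv _ h3
    obtain ⟨R, δ, h6, h7, h8⟩ := h j
    have h9 := signM_zero (R := R) (by linarith) (by linarith)
    have h10 : 0 < 2 ^ j * x := by linarith
    exact (mul_pos_iff_of_pos_left (by positivity)).mp h10

theorem sign_iff (z : ℤ) (S : Finset ℕ) (hS : ∀ p ∈ S, p.Prime) {Y J : ℕ} (hY : S.card ≤ Y)
    (hY1 : 1 ≤ Y) (hz : 8 * z.natAbs < ∏ p ∈ S, p) (hJ : ∏ p ∈ S, p ≤ 2 ^ J) (y : ℕ → ℕ → ℕ)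
    (hy : ∀ j, ∀ p ∈ S, (y j p : ZMod p) * ∏ q ∈ S.erase p, (q : ZMod p) = 2 ^ j * (z : ZMod p)) :
    0 < z ↔ ∃ j ≤ J, 16 * Y ≤ sA S Y (y j) ∧ sA S Y (y j) < 40 * Y ∧
      ∀ j' < j, sA S Y (y j') < 16 * Y := by
  have hY' : (0 : ℝ) < Y := by exact_mod_cast hY1
  set M := ∏ p ∈ S, p with hM
  have hM' : (0 : ℝ) < M := by exact_mod_cast (by omega : 0 < M)
  have h1 : 0 < z ↔ 0 < 64 * ((z : ℝ) / M) := by
    rw [mul_pos_iff_of_pos_left (by norm_num), div_pos_iff_of_pos_right hM', Int.cast_pos]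
  have h2 : ∀ c n : ℕ, n < c * Y ↔ (n : ℝ) / Y < c := fun c n => by
    rw [div_lt_iff₀ hY']
    exact_mod_cast Iff.rfl
  have h3 : ∀ c n : ℕ, c * Y ≤ n ↔ c ≤ (n : ℝ) / Y := fun c n => by
    rw [← not_lt, ← not_lt, h2]
  simp only [h1, h2, h3, Nat.cast_ofNat]
  refine signM_real _ (fun j => (sA S Y (y j) : ℝ) / Y) J ?_ (fun hx => ?_) (fun j => ?_)
    fun j => ?_
  · have h4 : 8 * |(z : ℝ)| < M := by
      rw [← Int.cast_abs, ← Nat.cast_natAbs]
      exact_mod_cast hz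
    rw [abs_mul, abs_div, abs_of_pos hM', abs_of_pos (by norm_num : (0 : ℝ) < 64), ← mul_div_assoc,
      div_lt_iff₀ hM']
    linarith
  · have h4 : (1 : ℝ) ≤ z := by exact_mod_cast h1.mpr hx
    have h5 : (M : ℝ) ≤ 2 ^ J := by exact_mod_cast hJ
    rw [← mul_div_assoc, ← mul_div_assoc, le_div_iff₀ hM']
    nlinarith
  · exact ⟨by positivity, by exact_mod_cast (h2 64 _).mp (Nat.mod_lt _ (by omega))⟩
  · obtain ⟨R, hR⟩ := signM_crt (2 ^ j * z) S hS (y j) fun p hp => by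
      rw [hy j p hp]
      push_cast
      rfl
    obtain ⟨R', δ, h4, h5, h6⟩ := signM_approx S hY hY1 _ hR
    refine ⟨R', δ, h4, h5, h6.trans ?_⟩
    rw [← hM]
    push_cast
    ring

theorem signM_count (t : ℕ) (ht : 1 ≤ t) : t ≤ (Nat.primesLE (8 * t ^ 2)).card + 2 := by
  set Y := 8 * t ^ 2 with hY
  have hY0 : Y ≠ 0 := by positivity
  have h1 : Nat.lcmUpto Y ≤ (Y + 1) ^ (Nat.primesLE Y).card := by
    rw [Nat.lcmUpto_eq_prod_pow_log]
    exact prod_le_pow_card _ _ _ fun p _ => (Nat.pow_log_le_self p hY0).trans (Nat.le_succ _)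
  have h2 : Y + 1 ≤ 2 ^ (2 * t + 4) := by
    have h3 : t < 2 ^ t := Nat.lt_two_pow_self
    rw [pow_add, mul_comm 2 t, pow_mul]
    nlinarith
  have h3 : 2 ^ Y ≤ 2 ^ ((2 * t + 4) * ((Nat.primesLE Y).card + 1)) := by
    rw [pow_mul 2 (2 * t + 4), pow_succ' (2 ^ (2 * t + 4))]
    exact (Chebyshev.two_pow_le_mul_lcmUpto Y).trans
      (Nat.mul_le_mul h2 (h1.trans (Nat.pow_le_pow_left h2 _)))
  have h4 := (Nat.pow_le_pow_iff_right (by norm_num)).mp h3
  by_contra h5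
  have h6 : (2 * t + 4) * ((Nat.primesLE Y).card + 1) ≤ (2 * t + 4) * t :=
    Nat.mul_le_mul_left _ (by omega)
  nlinarith

theorem primes_prod (m L : ℕ) :
    2 ^ L ≤ ∏ p ∈ (range (8 * (m + L + 3) ^ 2 + 1)).filter (fun p => p.Prime ∧ m < p), p := by
  set T := (range (8 * (m + L + 3) ^ 2 + 1)).filter (fun p => p.Prime ∧ m < p) with hT
  have h1 := signM_count (m + L + 3) (by omega)
  have h2 : Nat.primesLE (8 * (m + L + 3) ^ 2) ⊆ T ∪ range (m + 1) := fun p hp => by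
    rw [Nat.mem_primesLE] at hp
    simp only [hT, mem_union, mem_filter, mem_range]
    by_cases h : m < p
    · exact Or.inl ⟨by omega, hp.2, h⟩
    · exact Or.inr (by omega)
  have h3 := (card_le_card h2).trans (card_union_le _ _)
  rw [card_range] at h3
  exact (Nat.pow_le_pow_right (by norm_num) (by omega)).trans
    (pow_card_le_prod T (fun p => p) 2 fun p hp => (mem_filter.mp hp).2.1.two_le)

theorem primes_prod_le (m Y : ℕ) :
    ∏ p ∈ (range (Y + 1)).filter (fun p => p.Prime ∧ m < p), p ≤ 2 ^ (2 * Y) := by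
  rw [pow_mul]
  refine le_trans ?_ (primorial_le_four_pow Y)
  refine prod_le_prod_of_subset_of_one_le' (fun p hp => ?_) fun p hp _ => ?_
  · rw [mem_filter] at hp ⊢
    exact ⟨hp.1, hp.2.1⟩
  · exact (mem_filter.mp hp).2.one_le

end Vale.Agent.P337
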