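import Vale.Agent.P337.PolyDP
import Vale.Agent.P337.SignM

/-!
Signs of integers and zero tests are in the counting hierarchy.
-/

namespace Vale.Agent.P337

open Vale.Agent.Lib.TM Finset Polynomial

variable {α : Type} [Enc α] [Dec α]

theorem DP.pos {z : α → ℤ} (h : DP z) : CH fun a => 0 < z a := by
  classical
  obtain ⟨b, G, h1, h2, h3⟩ := h
  obtain ⟨u, k1, k2⟩ := h1.bound
  obtain ⟨Y, hY, hY'⟩ : ∃ Y : α → ℕ, CT 0 Y ∧ ∀ a, Y a = 8 * (u a + (u a + 3) + 3) ^ 2 :=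
    ⟨fun a => 8 * ((u a + (u a + 3) + 3) * (u a + (u a + 3) + 3)), by fun_prop, fun a => by ring⟩
  have hp : CH fun s : α × ℕ => s.2.Prime ∧ u s.1 < s.2 :=
    (CH.prime (by fun_prop)).and (CH.lt (by fun_prop) (by fun_prop))
  obtain ⟨H, l1, l2⟩ := FH.prodMod (g := fun s : (α × ℕ) × ℕ =>
    if (s.2.Prime ∧ u s.1.1 < s.2) ∧ ¬ s.2 = s.1.2 then s.2 else 1)
    (FH.ite ((hp.compCT (g := fun s : (α × ℕ) × ℕ => (s.1.1, s.2)) (by fun_prop)).and
      (CH.eq (by fun_prop) (by fun_prop)).not) (by fun_prop) (by fun_prop))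
    (N := fun s => Y s.1 + 1) (P := fun s => s.2) (by fun_prop) (by fun_prop)
  let y : α → ℕ → ℕ → ℕ := fun a j p => pm 2 j p * G (a, p, []) * pm (H (a, p)) (p - 2) p
  let S : α → Finset ℕ := fun a => (range (Y a + 1)).filter fun p => p.Prime ∧ u a < p
  have hs : FH fun s : α × ℕ => sA (S s.1) (Y s.1 + 1) (y s.1 s.2) := by
    have := FH.sum (g := fun s : (α × ℕ) × ℕ => if s.2.Prime ∧ u s.1.1 < s.2 then
      64 * (Y s.1.1 + 1) * y s.1.1 s.1.2 s.2 / s.2 else 0)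
      (FH.ite (hp.compCT (g := fun s : (α × ℕ) × ℕ => (s.1.1, s.2)) (by fun_prop))
        (by fun_prop) (by fun_prop)) (N := fun s => Y s.1 + 1) (by fun_prop)
    simp only [sA, S, sum_filter]
    fun_prop
  refine (CH.ex (q := fun s : α × ℕ => 16 * (Y s.1 + 1) ≤ sA (S s.1) (Y s.1 + 1) (y s.1 s.2) ∧
    sA (S s.1) (Y s.1 + 1) (y s.1 s.2) < 40 * (Y s.1 + 1) ∧
      ∀ j < s.2, sA (S s.1) (Y s.1 + 1) (y s.1 j) < 16 * (Y s.1 + 1))
    ((CH.le (by fun_prop) hs).and ((CH.lt hs (by fun_prop)).and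
      (CH.all (q := fun s : (α × ℕ) × ℕ =>
        sA (S s.1.1) (Y s.1.1 + 1) (y s.1.1 s.2) < 16 * (Y s.1.1 + 1))
        (CH.lt (hs.comp (g := fun s : (α × ℕ) × ℕ => (s.1.1, s.2)) (by fun_prop)) (by fun_prop))
        (by fun_prop)))) (N := fun a => 2 * Y a + 1) (by fun_prop)).of_iff fun a => ?_
  have hS : ∀ p ∈ S a, p.Prime := fun p hp => (mem_filter.mp hp).2.1
  rw [sign_iff (z a) (S a) hS (Y := Y a + 1) (J := 2 * Y a)
    ((card_filter_le _ _).trans (card_range _).le) (by omega) ?_ (primes_prod_le _ _) (y a) ?_]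
  · simp only [Nat.lt_succ_iff]
  · have h4 : (z a).natAbs < 2 ^ u a := (h3 a).1.trans_lt (Nat.pow_lt_pow_right one_lt_two (k2 a))
    have h5 := primes_prod (u a) (u a + 3)
    rw [← hY', pow_add] at h5
    exact lt_of_lt_of_le (by omega) h5
  · intro j p hpS
    obtain ⟨-, hp, hu⟩ := mem_filter.mp hpS
    have := Fact.mk hp
    have h4 : (H (a, p) : ZMod p) = ∏ q ∈ (S a).erase p, (q : ZMod p) := by
      rw [l2 (a, p) hp, ← filter_ne', filter_filter, prod_filter]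
      exact prod_congr rfl fun q _ => by simp only [Nat.cast_ite, Nat.cast_one, ne_eq]
    have h5 : (H (a, p) : ZMod p) ≠ 0 := by
      rw [h4]
      refine prod_ne_zero_iff.mpr fun q hq h => ?_
      exact (mem_erase.mp hq).1 ((Nat.prime_dvd_prime_iff_eq hp (hS q (mem_erase.mp hq).2)).mp
        ((ZMod.natCast_eq_zero_iff _ _).mp h)).symm
    have h6 := ZMod.pow_card_sub_one_eq_one h5
    rw [show p - 1 = p - 2 + 1 by have := hp.two_le; omega, pow_succ] at h6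
    simp only [y, Nat.cast_mul, pm_cast hp, (h3 a).2 p [] hp ((k2 a).trans hu), ← h4, mul_assoc, h6]
    simp [ev]

theorem DP.neg' {z : α → ℤ} (h : DP z) : CH fun a => z a < 0 :=
  h.neg.pos.of_iff fun _ => neg_pos

theorem DP.eq0 {z : α → ℤ} (h : DP z) : CH fun a => z a = 0 :=
  (h.pos.not.and h.neg'.not).of_iff fun _ => by omega

variable {A : Type} [CommRing A] [Sys A]

theorem DP.peq0 (hA : ∀ {z : α × ℕ → A}, DP z → CH fun a => z a = 0) {f : α → A[X]} (h : DP f) :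
    CH fun a => f a = 0 := by
  obtain ⟨u, k1, k2⟩ := h.natDeg
  refine (CH.all (q := fun s : α × ℕ => (f s.1).coeff s.2 = 0) (hA (h.fst.pco (by fun_prop)))
    (.ofCT k1)).of_iff fun a => ⟨fun h => Polynomial.ext fun i => ?_, fun h => by simp [h]⟩
  by_cases hi : i < u a
  · exact h i hi
  · exact coeff_eq_zero_of_natDegree_lt (by have := k2 a; omega)

theorem DP.fhDeg (hA : ∀ {z : (α × ℕ) × ℕ → A}, DP z → CH fun a => z a = 0) {f : α → A[X]}
    (h : DP f) : FH fun a => (f a).natDegree := by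
  obtain ⟨u, k1, k2⟩ := h.natDeg
  refine (FH.cnt (q := fun s : α × ℕ => ∃ i < u s.1, s.2 < i ∧ ¬ (f s.1).coeff i = 0)
    (CH.ex (q := fun s : (α × ℕ) × ℕ => s.1.2 < s.2 ∧ ¬ (f s.1.1).coeff s.2 = 0)
      ((CH.lt (by fun_prop) (by fun_prop)).and (hA (h.fst.fst.pco (by fun_prop))).not)
      (by fun_prop)) (.ofCT k1)).of_eq fun a => ?_
  rw [cnt_congr (q' := fun i => i < (f a).natDegree) fun i _ => ⟨?_, fun hi => ?_⟩,
    cnt_lt (k2 a).le]
  · rintro ⟨j, -, h1, h2⟩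
    exact h1.trans_le (le_natDegree_of_ne_zero h2)
  · exact ⟨_, k2 a, hi, leadingCoeff_ne_zero.mpr fun h => by simp [h] at hi⟩

end Vale.Agent.P337
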