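import Vale.Agent.P337.ModProd

/-!
Rings with a norm and evaluations modulo primes; families whose evaluations are in the counting
hierarchy.
-/

namespace Vale.Agent.P337

open Vale.Agent.Lib.TM Finset

/-- Rings with a submultiplicative norm and evaluation maps. -/
class Sys (R : Type) [CommRing R] where
  /-- the norm -/
  nrm : R → ℕ
  /-- the evaluations -/
  ev : (p : ℕ) → List (List ℕ) → R →+* ZMod p
  nrm_zero : nrm 0 = 0
  nrm_one : nrm 1 ≤ 1
  nrm_neg : ∀ a, nrm (-a) ≤ nrm a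
  nrm_add : ∀ a b, nrm (a + b) ≤ nrm a + nrm b
  nrm_mul : ∀ a b, nrm (a * b) ≤ nrm a * nrm b
  nrm_pos : ∀ a, a ≠ 0 → 0 < nrm a

export Sys (nrm ev nrm_zero nrm_one nrm_neg nrm_add nrm_mul nrm_pos)

instance : Sys ℤ where
  nrm := Int.natAbs
  ev _ _ := Int.castRingHom _
  nrm_zero := rfl
  nrm_one := le_rfl
  nrm_neg a := (Int.natAbs_neg a).le
  nrm_add := Int.natAbs_add_le
  nrm_mul a b := (Int.natAbs_mul a b).le
  nrm_pos _ := Int.natAbs_pos.mpr

lemma sum_le_of_add {S ι : Type} [AddCommMonoid S] {n : S → ℕ} (h0 : n 0 = 0)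
    (h : ∀ a b, n (a + b) ≤ n a + n b) (s : Finset ι) (f : ι → S) :
    n (∑ i ∈ s, f i) ≤ ∑ i ∈ s, n (f i) := le_sum_of_subadditive n h0.le h s f

/-- Norms defined by coefficients. -/
@[reducible] def Sys.ofCoeff {A S M : Type} [CommRing A] [Sys A] [CommRing S] [AddCommMonoid M]
    (sup : S → Finset M) (co : S → M → A) (mono : M → A → S) (w : M → ℕ)
    (e : (p : ℕ) → List (List ℕ) → S →+* ZMod p)
    (hs : ∀ f m, m ∈ sup f ↔ co f m ≠ 0) (hadd : ∀ f g m, co (f + g) m = co f m + co g m)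
    (hneg : ∀ f m, co (-f) m = -co f m) (hsum : ∀ f, f = ∑ m ∈ sup f, mono m (co f m))
    (hmul : ∀ m m' a b, mono m a * mono m' b = mono (m + m') (a * b))
    (h1 : ∀ m a, co (mono m a) m = a) (h2 : ∀ m a m', m' ≠ m → co (mono m a) m' = 0)
    (h3 : mono 0 1 = 1) (hw : ∀ m m', w (m + m') = w m + w m') (hw0 : w 0 = 0) : Sys S := by
  classical
  have k0 : ∀ f (s : Finset M), sup f ⊆ s →
      ∑ m ∈ sup f, nrm (co f m) * 2 ^ w m = ∑ m ∈ s, nrm (co f m) * 2 ^ w m := fun f s h =>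
    sum_subset h fun m _ hm => by rw [not_not.mp ((hs f m).not.mp hm), nrm_zero, zero_mul]
  have k1 : ∀ m a, ∑ m' ∈ sup (mono m a), nrm (co (mono m a) m') * 2 ^ w m' = nrm a * 2 ^ w m :=
    fun m a => by
      rw [k0 _ {m} fun m' hm => mem_singleton.mpr (not_not.mp fun h => (hs _ _).mp hm (h2 _ _ _ h)),
        sum_singleton, h1]
  have k2 : ∑ m ∈ sup 0, nrm (co 0 m) * 2 ^ w m = 0 := sum_eq_zero fun m _ => by
    have := hadd 0 0 m
    rw [add_zero, left_eq_add] at this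
    rw [this, nrm_zero, zero_mul]
  have k3 : ∀ f g, ∑ m ∈ sup (f + g), nrm (co (f + g) m) * 2 ^ w m ≤
      ∑ m ∈ sup f, nrm (co f m) * 2 ^ w m + ∑ m ∈ sup g, nrm (co g m) * 2 ^ w m := fun f g => by
    rw [k0 f (sup (f + g) ∪ (sup f ∪ sup g)) (subset_union_left.trans subset_union_right),
      k0 g (sup (f + g) ∪ (sup f ∪ sup g)) (subset_union_right.trans subset_union_right),
      k0 (f + g) (sup (f + g) ∪ (sup f ∪ sup g)) subset_union_left, ← sum_add_distrib]
    exact sum_le_sum fun m _ => by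
      rw [hadd, ← add_mul]; exact Nat.mul_le_mul_right _ (nrm_add _ _)
  exact
    { nrm := fun f => ∑ m ∈ sup f, nrm (co f m) * 2 ^ w m
      ev := e
      nrm_zero := k2
      nrm_one := by rw [← h3, k1, hw0]; simpa using nrm_one
      nrm_neg := fun f => by
        rw [k0 (-f) (sup f) fun m hm => by rwa [hs, hneg, neg_ne_zero, ← hs] at hm]
        exact sum_le_sum fun m _ => by rw [hneg]; exact Nat.mul_le_mul_right _ (nrm_neg _)
      nrm_add := k3
      nrm_mul := fun f g => by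
        have h : f * g = ∑ m ∈ sup f, ∑ m' ∈ sup g, mono (m + m') (co f m * co g m') := by
          simp only [← hmul, ← sum_mul_sum, ← hsum]
        rw [h, sum_mul_sum]
        refine (sum_le_of_add (n := fun f => ∑ m ∈ sup f, nrm (co f m) * 2 ^ w m) k2 k3 _ _).trans
          (sum_le_sum fun m _ => (sum_le_of_add (n := fun f => ∑ m ∈ sup f, nrm (co f m) * 2 ^ w m)
            k2 k3 _ _).trans (sum_le_sum fun m' _ => ?_))
        rw [k1, hw, pow_add, mul_mul_mul_comm]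
        exact Nat.mul_le_mul_right _ (nrm_mul _ _)
      nrm_pos := fun f hf => by
        obtain ⟨m, hm⟩ : (sup f).Nonempty := nonempty_iff_ne_empty.mpr fun h =>
          hf (by rw [hsum f, h, sum_empty])
        exact (Nat.mul_pos (nrm_pos _ ((hs _ _).mp hm)) (Nat.two_pow_pos _)).trans_le
          (single_le_sum (f := fun m => nrm (co f m) * 2 ^ w m) (fun _ _ => Nat.zero_le _) hm) }

noncomputable instance {A : Type} [CommRing A] [Sys A] : Sys (Polynomial A) :=
  Sys.ofCoeff Polynomial.support Polynomial.coeff (fun m a => Polynomial.monomial m a) id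
    (fun p xs => Polynomial.eval₂RingHom (ev p xs.tail) (((xs.getD 0 []).getD 0 0 : ℕ) : ZMod p))
    (fun _ _ => Polynomial.mem_support_iff) Polynomial.coeff_add Polynomial.coeff_neg
    Polynomial.as_sum_support Polynomial.monomial_mul_monomial
    (fun _ _ => Polynomial.coeff_monomial_same _ _)
    (fun _ _ _ h => Polynomial.coeff_monomial_of_ne _ h) rfl (fun _ _ => rfl) rfl

noncomputable instance {A : Type} [CommRing A] [Sys A] {N : ℕ} : Sys (MvPolynomial (Fin N) A) :=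
  Sys.ofCoeff MvPolynomial.support (fun f m => MvPolynomial.coeff m f)
    (fun m a => MvPolynomial.monomial m a) (fun m => ∑ i, m i)
    (fun p xs => MvPolynomial.eval₂Hom (ev p xs.tail)
      fun i => (((xs.getD 0 []).getD i 0 : ℕ) : ZMod p))
    (fun _ _ => MvPolynomial.mem_support_iff) (fun _ _ _ => MvPolynomial.coeff_add _ _ _)
    (fun _ _ => MvPolynomial.coeff_neg _ _ _) MvPolynomial.as_sum
    (fun _ _ _ _ => MvPolynomial.monomial_mul) (fun _ _ => by simp)
    (fun _ _ _ h => by simp [MvPolynomial.coeff_monomial, h.symm]) rfl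
    (fun _ _ => by simp [sum_add_distrib]) (by simp)

section
variable {A ι : Type} [CommRing A] [Sys A]

lemma nrm_sum (s : Finset ι) (f : ι → A) : nrm (∑ i ∈ s, f i) ≤ ∑ i ∈ s, nrm (f i) :=
  sum_le_of_add nrm_zero nrm_add s f

lemma nrm_prod (s : Finset ι) (f : ι → A) : nrm (∏ i ∈ s, f i) ≤ ∏ i ∈ s, nrm (f i) :=
  le_prod_of_submultiplicative nrm nrm_one nrm_mul s f

lemma nrm_nat (n : ℕ) : nrm (n : A) ≤ n := by
  induction n with
  | zero => simp [nrm_zero]
  | succ n ih => rw [Nat.cast_succ]; exact (nrm_add _ _).trans (Nat.add_le_add ih nrm_one)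

lemma nrm_int (z : ℤ) : nrm (z : A) ≤ z.natAbs := by
  obtain ⟨n, rfl | rfl⟩ := z.eq_nat_or_neg
  · simpa using nrm_nat n
  · simpa using (nrm_neg _).trans (nrm_nat (A := A) n)

end

variable {α β : Type} [Enc α] [Dec α] [Enc β] [Dec β] {R : α → Type} [∀ a, CommRing (R a)]
  [∀ a, Sys (R a)]

/-- Families of doubly exponential norm whose values modulo large primes are in the counting
hierarchy. -/
def DP (f : ∀ a, R a) : Prop :=
  ∃ (b : α → ℕ) (G : α × ℕ × List (List ℕ) → ℕ), EB b ∧ FH G ∧ ∀ a, nrm (f a) ≤ 2 ^ b a ∧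
    ∀ p xs, p.Prime → b a < p → (G (a, p, xs) : ZMod p) = ev p xs (f a)

variable {f g : ∀ a, R a}

lemma DP.of_eq (h : DP f) (h' : ∀ a, f a = g a) : DP g := (funext h' : f = g) ▸ h

lemma DP.comp (h : DP f) {u : β → α} (hu : FH u) : DP fun b => f (u b) :=
  let ⟨b, G, h1, h2, h3⟩ := h
  ⟨fun a => b (u a), fun s => G (u s.1, s.2), h1.comp hu.1, by fun_prop, fun _ => h3 _⟩

lemma DP.nat {n : α → ℕ} (hn : FH n) : DP fun a => (n a : R a) :=
  ⟨n, fun s => n s.1, hn.eb, by fun_prop, fun a => ⟨(nrm_nat _).trans Nat.lt_two_pow_self.le,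
    fun p xs _ _ => by simp⟩⟩

lemma DP.one : DP fun a => (1 : R a) := (DP.nat (FH.const 1)).of_eq fun _ => Nat.cast_one

lemma DP.zero : DP fun a => (0 : R a) := (DP.nat (FH.const 0)).of_eq fun _ => Nat.cast_zero

lemma cast_pred {p : ℕ} (hp : p.Prime) : ((p - 1 : ℕ) : ZMod p) = -1 := by
  rw [Nat.cast_sub hp.one_le]; simp

lemma DP.neg (h : DP f) : DP fun a => -f a :=
  let ⟨b, G, h1, h2, h3⟩ := h
  ⟨b, fun s => (s.2.1 - 1) * G s, h1, by fun_prop, fun a => ⟨(nrm_neg _).trans (h3 a).1,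
    fun p xs hp hb => by simp [cast_pred hp, (h3 a).2 p xs hp hb]⟩⟩

lemma DP.add (h : DP f) (h' : DP g) : DP fun a => f a + g a := by
  obtain ⟨b, G, h1, h2, h3⟩ := h
  obtain ⟨c, H, k1, k2, k3⟩ := h'
  refine ⟨fun a => b a + c a + 1, fun s => G s + H s, (h1.add k1).add (.const 1), by fun_prop,
    fun a => ⟨(nrm_add _ _).trans ?_, fun p xs hp hb => ?_⟩⟩
  · have h4 := (h3 a).1.trans (Nat.pow_le_pow_right two_pos (Nat.le_add_right (b a) (c a)))
    have k4 := (k3 a).1.trans (Nat.pow_le_pow_right two_pos (Nat.le_add_left (c a) (b a)))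
    rw [pow_succ]; omega
  · dsimp only at hb
    simp [(h3 a).2 p xs hp (by omega), (k3 a).2 p xs hp (by omega)]

lemma DP.mul (h : DP f) (h' : DP g) : DP fun a => f a * g a := by
  obtain ⟨b, G, h1, h2, h3⟩ := h
  obtain ⟨c, H, k1, k2, k3⟩ := h'
  refine ⟨fun a => b a + c a, fun s => G s * H s, h1.add k1, by fun_prop,
    fun a => ⟨(nrm_mul _ _).trans ?_, fun p xs hp hb => ?_⟩⟩
  · rw [pow_add]; exact Nat.mul_le_mul (h3 a).1 (k3 a).1
  · dsimp only at hb
    simp [(h3 a).2 p xs hp (by omega), (k3 a).2 p xs hp (by omega)]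

lemma DP.sub (h : DP f) (h' : DP g) : DP fun a => f a - g a :=
  (h.add h'.neg).of_eq fun _ => (sub_eq_add_neg _ _).symm

lemma DP.ite {q : α → Prop} [DecidablePred q] (hq : CH q) (h : DP f) (h' : DP g) :
    DP fun a => if q a then f a else g a := by
  obtain ⟨b, G, h1, h2, h3⟩ := h
  obtain ⟨c, H, k1, k2, k3⟩ := h'
  refine ⟨fun a => b a + c a, fun s => if q s.1 then G s else H s, h1.add k1,
    FH.ite (hq.compCT (by fun_prop)) h2 k2, fun a => ⟨?_, fun p xs hp hb => ?_⟩⟩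
  · have h4 := (h3 a).1.trans (Nat.pow_le_pow_right two_pos (Nat.le_add_right (b a) (c a)))
    have k4 := (k3 a).1.trans (Nat.pow_le_pow_right two_pos (Nat.le_add_left (c a) (b a)))
    dsimp only
    split_ifs <;> assumption
  · dsimp only at hb ⊢
    split_ifs
    exacts [(h3 a).2 p xs hp (by omega), (k3 a).2 p xs hp (by omega)]

lemma DP.sum {F : ∀ a, ℕ → R a} (h : DP fun s : α × ℕ => F s.1 s.2) {N : α → ℕ} (hN : FH N) :
    DP fun a => ∑ y ∈ range (N a), F a y := by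
  obtain ⟨b, G, h1, h2, h3⟩ := h
  obtain ⟨u, k1, k2⟩ := h1.sup hN.eb
  refine ⟨fun a => N a + u a, fun s => ∑ y ∈ range (N s.1), G ((s.1, y), s.2),
    hN.eb.add (.ofCT k1), FH.sum (g := fun s : (α × ℕ × List (List ℕ)) × ℕ =>
      G ((s.1.1, s.2), s.1.2)) (by fun_prop) (by fun_prop),
    fun a => ⟨(nrm_sum _ _).trans ?_, fun p xs hp hb => ?_⟩⟩
  · refine (sum_le_card_nsmul _ _ (2 ^ u a) fun y hy => (h3 (a, y)).1.trans
      (Nat.pow_le_pow_right two_pos (k2 a y (mem_range.mp hy)).le)).trans ?_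
    rw [card_range, smul_eq_mul, pow_add]
    exact Nat.mul_le_mul_right _ Nat.lt_two_pow_self.le
  · rw [Nat.cast_sum, map_sum]
    exact sum_congr rfl fun y hy => (h3 (a, y)).2 p xs hp
      ((k2 a y (mem_range.mp hy)).trans (lt_of_le_of_lt (Nat.le_add_left _ _) hb))

lemma DP.prod {F : ∀ a, ℕ → R a} (h : DP fun s : α × ℕ => F s.1 s.2) {N : α → ℕ} (hN : FH N) :
    DP fun a => ∏ y ∈ range (N a), F a y := by
  obtain ⟨b, G, h1, h2, h3⟩ := h
  obtain ⟨u, k1, k2⟩ := h1.sup hN.eb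
  obtain ⟨H, l1, l2⟩ := FH.prodMod (g := fun s : (α × ℕ × List (List ℕ)) × ℕ =>
    G ((s.1.1, s.2), s.1.2)) (by fun_prop) (N := fun s => N s.1) (P := fun s => s.2.1)
    (by fun_prop) (by fun_prop)
  refine ⟨fun a => u a * N a + u a, H, ((EB.ofCT k1).mul hN.eb).add (.ofCT k1), l1,
    fun a => ⟨(nrm_prod _ _).trans ?_, fun p xs hp hb => ?_⟩⟩
  · refine (prod_le_pow_card _ _ (2 ^ u a) fun y hy => (h3 (a, y)).1.trans
      (Nat.pow_le_pow_right two_pos (k2 a y (mem_range.mp hy)).le)).trans ?_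
    rw [card_range, ← pow_mul]
    exact Nat.pow_le_pow_right two_pos (Nat.le_add_right _ _)
  · rw [l2 (a, p, xs) hp, map_prod]
    exact prod_congr rfl fun y hy => (h3 (a, y)).2 p xs hp
      ((k2 a y (mem_range.mp hy)).trans (lt_of_le_of_lt (Nat.le_add_left _ _) hb))

lemma DP.fst (h : DP f) : DP fun s : α × β => f s.1 := h.comp (by fun_prop)

lemma DP.pow (h : DP f) {n : α → ℕ} (hn : FH n) : DP fun a => f a ^ n a :=
  (DP.prod (F := fun a _ => f a) h.fst hn).of_eq fun a => by simp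

lemma DP.bound (h : DP f) : ∃ u : α → ℕ, CT 0 u ∧ ∀ a, nrm (f a) < 2 ^ u a :=
  let ⟨_, _, h1, _, h3⟩ := h
  let ⟨u, k1, k2⟩ := h1.bound
  ⟨u, k1, fun a => (h3 a).1.trans_lt (Nat.pow_lt_pow_right one_lt_two (k2 a))⟩

lemma DP.int {z : α → ℤ} (h : DP z) : DP fun a => (z a : R a) :=
  let ⟨b, G, h1, h2, h3⟩ := h
  ⟨b, G, h1, h2, fun a => ⟨(nrm_int _).trans (h3 a).1, fun p xs hp hb => by
    rw [(h3 a).2 p xs hp hb, map_intCast]; rfl⟩⟩

end Vale.Agent.P337
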