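import Vale.Agent.P337.UniGad

/-!
Thom's lemma, hashing of sign vectors and products over conjugation invariant multisets.
-/

namespace Vale.Agent.P337

open Finset Polynomial

theorem uni_thom (n : ℕ) (P : ℝ[X]) (hP : P.natDegree ≤ n) {a b : ℝ}
    (h : ∀ j ≤ n, uniTrit ((derivative^[j] P).eval a) = uniTrit ((derivative^[j] P).eval b)) :
    ∀ x ∈ Set.Icc a b, uniTrit (P.eval x) = uniTrit (P.eval a) := by
  induction n generalizing P with
  | zero =>
    intro x _
    rw [eq_C_of_natDegree_le_zero hP, eval_C, eval_C]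
  | succ n ih =>
    intro x hx
    have h1 := ih (derivative P) ((natDegree_derivative_le P).trans (by omega))
      fun j hj => h (j + 1) (by omega)
    have h0 : uniTrit (P.eval a) = uniTrit (P.eval b) := h 0 (Nat.zero_le _)
    have ha : a ∈ Set.Icc a b := ⟨le_rfl, hx.1.trans hx.2⟩
    have hb : b ∈ Set.Icc a b := ⟨hx.1.trans hx.2, le_rfl⟩
    by_cases h2 : (derivative P).eval a < 0
    · have h3 : AntitoneOn (fun x => P.eval x) (Set.Icc a b) :=
        antitoneOn_of_deriv_nonpos (convex_Icc a b) P.continuousOn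
          P.differentiable.differentiableOn fun y hy => by
            rw [P.deriv]
            exact (uniTrit_eq_zero.mp ((h1 y (interior_subset hy)).trans
              (uniTrit_eq_zero.mpr h2))).le
      have h4 := uniTrit_mono (h3 ha hx hx.1)
      have h5 := uniTrit_mono (h3 hx hb hx.2)
      beta_reduce at h4 h5
      omega
    · have h3 : MonotoneOn (fun x => P.eval x) (Set.Icc a b) :=
        monotoneOn_of_deriv_nonneg (convex_Icc a b) P.continuousOn
          P.differentiable.differentiableOn fun y hy => by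
            rw [P.deriv]
            exact not_lt.mp fun h6 => h2 (uniTrit_eq_zero.mp
              ((h1 y (interior_subset hy)).symm.trans (uniTrit_eq_zero.mpr h6)))
      have h4 := uniTrit_mono (h3 ha hx hx.1)
      have h5 := uniTrit_mono (h3 hx hb hx.2)
      beta_reduce at h4 h5
      omega

theorem uni_thom_lt {P : ℝ[X]} (hP : P ≠ 0) {a b : ℝ} (hab : a < b) (ha : P.eval a = 0) :
    ∃ j ≤ P.natDegree,
      uniTrit ((derivative^[j] P).eval a) ≠ uniTrit ((derivative^[j] P).eval b) := by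
  by_contra h
  push Not at h
  refine hP (eq_zero_of_infinite_isRoot P ((Set.Icc_infinite hab).mono fun x hx => ?_))
  exact uniTrit_eq_one.mp ((uni_thom _ P le_rfl h x hx).trans (uniTrit_eq_one.mpr ha))

theorem uni_thom_ne {P : ℝ[X]} (hP : P ≠ 0) {a b : ℝ} (hab : a ≠ b) (ha : P.eval a = 0)
    (hb : P.eval b = 0) : ∃ j ≤ P.natDegree,
      uniTrit ((derivative^[j] P).eval a) ≠ uniTrit ((derivative^[j] P).eval b) := by
  rcases lt_or_gt_of_ne hab with h | h
  · exact uni_thom_lt hP h ha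
  · obtain ⟨j, hj, h1⟩ := uni_thom_lt hP h hb
    exact ⟨j, hj, h1.symm⟩

theorem uni_hash {ι : Type} {n q : ℕ} (hq : q.Prime) (hnq : n * n + 2 < q) (s : Finset ι)
    (hs : s.card ≤ n) (v : ι → ℕ → ℕ) (u : ℕ → ℕ) (hv : ∀ τ j, v τ j ≤ 2) (hu : ∀ j, u j ≤ 2)
    (hne : ∀ τ ∈ s, ∃ j ≤ n, v τ j ≠ u j) :
    ∃ c < q, ∀ τ ∈ s, ∑ j ∈ range (n + 1), (c : ZMod q) ^ j * v τ j ≠
      ∑ j ∈ range (n + 1), (c : ZMod q) ^ j * u j := by
  classical
  have : Fact q.Prime := ⟨hq⟩
  let D : ι → (ZMod q)[X] := fun τ =>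
    ∑ j ∈ range (n + 1), monomial j ((v τ j : ZMod q) - u j)
  have hD : ∀ τ ∈ s, D τ ≠ 0 := fun τ hτ h0 => by
    obtain ⟨j, hj, h1⟩ := hne τ hτ
    have h2 : (D τ).coeff j = (v τ j : ZMod q) - u j := by
      simp [D, coeff_monomial, Nat.lt_succ_of_le hj]
    rw [h0, coeff_zero, eq_comm, sub_eq_zero, ZMod.natCast_eq_natCast_iff'] at h2
    have h3 := hv τ j
    have h4 := hu j
    rw [Nat.mod_eq_of_lt (by omega), Nat.mod_eq_of_lt (by omega)] at h2
    exact h1 h2
  have hdeg : (∏ τ ∈ s, D τ).natDegree ≤ n * n := by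
    refine (natDegree_prod_le _ _).trans ((sum_le_card_nsmul _ _ n fun τ _ => ?_).trans ?_)
    · exact natDegree_sum_le_of_forall_le _ _ fun j hj =>
        (natDegree_monomial_le _).trans (mem_range_succ_iff.mp hj)
    · exact Nat.mul_le_mul_right n hs
  obtain ⟨c, hc⟩ := exists_eval_ne_zero_of_natDegree_lt_card _ (prod_ne_zero_iff.mpr hD) (by
    rw [Cardinal.mk_fintype, ZMod.card]
    exact_mod_cast (by omega : (∏ τ ∈ s, D τ).natDegree < q))
  refine ⟨c.val, c.val_lt, fun τ hτ h => ?_⟩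
  rw [eval_prod] at hc
  refine prod_ne_zero_iff.mp hc τ hτ ?_
  rw [ZMod.natCast_zmod_val, ← sub_eq_zero, ← sum_sub_distrib] at h
  rw [← h, eval_finsetSum]
  refine sum_congr rfl fun j _ => ?_
  rw [eval_monomial]
  ring

theorem uni_conj (s : Multiset ℂ) (hs : s.map (starRingEnd ℂ) = s) (F : ℂ → ℂ) (G : ℝ → ℝ)
    (hF : ∀ z, F (starRingEnd ℂ z) = starRingEnd ℂ (F z)) (hG : ∀ x : ℝ, F x = G x) :
    (s.map F).prod.re = ((s.filter fun z => z.im = 0).map fun z => G z.re).prod *
      ((s.filter fun z => 0 < z.im).map fun z => Complex.normSq (F z)).prod := by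
  have h1 : s = (s.filter fun z => z.im = 0) + ((s.filter fun z => 0 < z.im) +
      (s.filter fun z => z.im < 0)) := by
    ext z
    simp only [Multiset.count_add, Multiset.count_filter]
    rcases lt_trichotomy z.im 0 with h | h | h
    · simp [h, h.ne, not_lt.mpr h.le]
    · simp [h]
    · simp [h, h.ne', not_lt.mpr h.le]
  have h2 : (s.filter fun z => z.im < 0) =
      (s.filter fun z => 0 < z.im).map (starRingEnd ℂ) := by
    conv_lhs => rw [← hs, Multiset.filter_map]
    congr 1
    exact Multiset.filter_congr fun z _ => by simp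
  have h3 : ((s.filter fun z => z.im = 0).map F).prod =
      (((s.filter fun z => z.im = 0).map fun z => G z.re).prod : ℝ) := by
    rw [← Complex.ofRealHom_eq_coe, map_multiset_prod, Multiset.map_map]
    refine congrArg _ (Multiset.map_congr rfl fun z hz => ?_)
    have h4 : z = (z.re : ℝ) := Complex.ext rfl (by simpa using (Multiset.mem_filter.mp hz).2)
    rw [h4, hG]
    simp
  have h5 : ((s.filter fun z => 0 < z.im).map F).prod *
      ((s.filter fun z => z.im < 0).map F).prod =
      (((s.filter fun z => 0 < z.im).map fun z => Complex.normSq (F z)).prod : ℝ) := by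
    rw [h2, Multiset.map_map, ← Multiset.prod_map_mul, ← Complex.ofRealHom_eq_coe,
      map_multiset_prod, Multiset.map_map]
    refine congrArg _ (Multiset.map_congr rfl fun z _ => ?_)
    simp [hF, Complex.mul_conj]
  conv_lhs => rw [h1]
  rw [Multiset.map_add, Multiset.map_add, Multiset.prod_add, Multiset.prod_add, h3, h5,
    ← Complex.ofReal_mul, Complex.ofReal_re]

theorem uni_prod_neg {ι : Type} [DecidableEq ι] (s : Multiset ι) (G : ι → ℝ) (a : ι)
    (ha : G a < 0) (hodd : Odd (s.count a)) (h : ∀ z ∈ s, z ≠ a → 0 < G z) :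
    (s.map G).prod < 0 := by
  rw [← Multiset.filter_add_not (· = a) s, Multiset.map_add, Multiset.prod_add,
    Multiset.filter_eq', Multiset.map_replicate, Multiset.prod_replicate]
  refine mul_neg_of_neg_of_pos (hodd.pow_neg ha) (Multiset.prod_pos fun x hx => ?_)
  obtain ⟨z, hz, rfl⟩ := Multiset.mem_map.mp hx
  exact h z (Multiset.mem_filter.mp hz).1 (Multiset.mem_filter.mp hz).2

theorem uni_avoid (s : Multiset ℂ) {m : ℕ} (hs : s.card < m) (F : ℂ → ℂ) :
    ∃ i < m, ∀ z ∈ s, (i : ℂ) + F z ≠ 0 := by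
  classical
  by_contra h
  push Not at h
  have h1 : (range m).card ≤ (s.map fun z => -F z).toFinset.card := by
    refine card_le_card_of_injOn (fun i : ℕ => (i : ℂ)) (fun i hi => ?_)
      Nat.cast_injective.injOn
    obtain ⟨z, hz, h2⟩ := h i (mem_range.mp hi)
    exact mem_coe.mpr (Multiset.mem_toFinset.mpr
      (Multiset.mem_map.mpr ⟨z, hz, (eq_neg_of_add_eq_zero_left h2).symm⟩))
  have h3 := Multiset.toFinset_card_le (s.map fun z => -F z)
  rw [Multiset.card_map] at h3
  rw [card_range] at h1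
  omega

theorem uni_wt_rest {n q : ℕ} (c : ℕ) (hq : 0 < q) (v : ℕ → ℕ) (hv : ∀ j, v j ≤ 2) :
    ∃ t < 2 * (n + 1) * q, ∑ j ∈ range (n + 1), wt n q c j * v j = 2 * (n + 1) * q * v 0 + t := by
  refine ⟨∑ j ∈ range n, wt n q c (j + 1) * v (j + 1), ?_, ?_⟩
  · have h1 := sum_le_card_nsmul (range n) (fun j => wt n q c (j + 1) * v (j + 1)) (q * 2)
      fun j _ => Nat.mul_le_mul (by simpa [wt] using (Nat.mod_lt _ hq).le) (hv _)
    rw [card_range, smul_eq_mul] at h1
    nlinarith
  · rw [sum_range_succ', add_comm]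
    simp [wt]

theorem uni_wt_sum {n q : ℕ} (c : ℕ) (hq : 0 < q) :
    ∑ j ∈ range (n + 1), wt n q c j ≤ 3 * (n + 1) * q := by
  have h1 := sum_le_card_nsmul (range n) (fun j => wt n q c (j + 1)) q
    fun j _ => by simpa [wt] using (Nat.mod_lt _ hq).le
  rw [card_range, smul_eq_mul] at h1
  have h2 : wt n q c 0 = 2 * (n + 1) * q := by simp [wt]
  rw [sum_range_succ', h2]
  nlinarith

theorem uni_wt_first {n q c t : ℕ} (hq : 0 < q) (ht : t < 2 * (n + 1) * q) (v : ℕ → ℕ)
    (hv : ∀ j, v j ≤ 2)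
    (h : ∑ j ∈ range (n + 1), wt n q c j * v j = 2 * (n + 1) * q + t) : v 0 = 1 := by
  obtain ⟨r, hr, h1⟩ := uni_wt_rest (n := n) c hq v hv
  rw [h1] at h
  have h2 := hv 0
  generalize 2 * (n + 1) * q = W at *
  generalize v 0 = y at *
  interval_cases y <;> omega

theorem uni_wt_cast {n q : ℕ} (c : ℕ) (v : ℕ → ℕ) :
    ((∑ j ∈ range (n + 1), wt n q c j * v j : ℕ) : ZMod q) + v 0 =
      ∑ j ∈ range (n + 1), (c : ZMod q) ^ j * v j := by
  rw [Nat.cast_sum, sum_range_succ', sum_range_succ']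
  simp [wt]

end Vale.Agent.P337
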