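import Vale.Agent.P337.Alg
import Vale.Agent.P337.UniAux

/-!
The real root test by the sign of one product.
-/

namespace Vale.Agent.P337

open Finset Polynomial

theorem uni_aroots_conj (ψ : ℤ[X]) : (ψ.aroots ℂ).map (starRingEnd ℂ) = ψ.aroots ℂ := by
  rw [aroots_def, ← (IsAlgClosed.splits _).roots_map, Polynomial.map_map]
  congr 2
  exact RingHom.ext_int _ _

theorem uni_count_odd {P : ℤ[X]} (hP : P * derivative P ≠ 0) {z : ℂ} (hz : aeval z P = 0) :
    Odd (((P * derivative P).aroots ℂ).count z) := by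
  classical
  have h1 : (P * derivative P).map (algebraMap ℤ ℂ) ≠ 0 :=
    (Polynomial.map_ne_zero_iff (algebraMap ℤ ℂ).injective_int).mpr hP
  have h2 : (P.map (algebraMap ℤ ℂ)).IsRoot z := by rwa [IsRoot.def, eval_map_algebraMap]
  rw [Polynomial.map_mul, ← derivative_map] at h1
  rw [aroots_def, count_roots, Polynomial.map_mul, ← derivative_map, rootMultiplicity_mul h1,
    derivative_rootMultiplicity_of_root h2]
  have h3 := (rootMultiplicity_pos (left_ne_zero_of_mul h1)).mpr h2
  exact ⟨rootMultiplicity z (P.map (algebraMap ℤ ℂ)) - 1, by omega⟩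

theorem uni_real_root {ψ : ℤ[X]} {z : ℂ} (hz : z ∈ (ψ.aroots ℂ).filter fun z => z.im = 0) :
    z = (z.re : ℝ) ∧ aeval z.re ψ = 0 := by
  obtain ⟨h1, h2⟩ := Multiset.mem_filter.mp hz
  have h3 : z = (z.re : ℝ) := Complex.ext rfl (by simpa using h2)
  refine ⟨h3, ?_⟩
  have h4 := (mem_aroots'.mp h1).2
  rw [h3, ← Complex.coe_algebraMap, aeval_algebraMap_apply] at h4
  exact Complex.ofReal_eq_zero.mp h4

theorem realRoot_iff (P : ℤ[X]) {n β K : ℕ} (hn : P.natDegree = n) (h1 : 1 ≤ n) (hK : Even K)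
    (hK' : 96 * (n + 1) * (n * n + 3) ≤ 2 ^ K)
    (hβ : ∀ τ : ℝ, aeval τ (P * derivative P) = 0 → ∀ j ≤ n, aeval τ (derivative^[j] P) = 0 ∨
      (1 / 2 ^ β ≤ |aeval τ (derivative^[j] P)| ∧ |aeval τ (derivative^[j] P)| ≤ 2 ^ β)) :
    (∃ τ : ℝ, aeval τ P = 0) ↔
      ∃ q < 2 * (n * n + 3), ∃ c < q, ∃ t < 2 * (n + 1) * q, ∃ i < 2 * n,
        (((P * derivative P).aroots ℂ).map fun l =>
          (i : ℂ) + 4 * n * aeval l (tst P n β K q c t)).prod.re < 0 := by
  classical
  let v : ℝ → ℕ → ℕ := fun τ j => uniTrit (aeval τ (derivative^[j] P))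
  have hv : ∀ τ j, v τ j ≤ 2 := fun _ _ => uniTrit_le _
  have hn1 : (1 : ℝ) ≤ n := by exact_mod_cast h1
  have hgad : ∀ {q c t i : ℕ} {τ : ℝ}, q < 2 * (n * n + 3) → 0 < q → i < 2 * n →
      aeval τ (P * derivative P) = 0 →
      (∑ j ∈ range (n + 1), wt n q c j * v τ j = 2 * (n + 1) * q + t →
        (i : ℝ) + 4 * n * aeval τ (tst P n β K q c t) < 0) ∧
      (∑ j ∈ range (n + 1), wt n q c j * v τ j ≠ 2 * (n + 1) * q + t →
        0 < (i : ℝ) + 4 * n * aeval τ (tst P n β K q c t)) := by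
    intro q c t i τ hq hq0 hi hτ
    have h2 : aeval τ (tst P n β K q c t) = gad n β K (fun j => aeval τ (derivative^[j] P))
        (wt n q c) (2 * (n + 1) * q + t) := map_gad (aeval τ : ℤ[X] →ₐ[ℤ] ℝ).toRingHom _ _ _ _ _ _
    have h3 := uni_gad hK (fun j => aeval τ (derivative^[j] P)) (hβ τ hτ) (wt n q c) (by
      have h4 := uni_wt_sum (n := n) c hq0
      have h5 : (n + 1) * q ≤ (n + 1) * (2 * (n * n + 3)) := Nat.mul_le_mul_left _ hq.le
      nlinarith) (2 * (n + 1) * q + t)
    rw [h2]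
    have hi' : (i : ℝ) < 2 * n := by exact_mod_cast hi
    refine ⟨fun h => ?_, fun h => ?_⟩
    · have := h3.1 h
      nlinarith
    · have := h3.2 h
      positivity
  have hprod : ∀ q c t i : ℕ, (((P * derivative P).aroots ℂ).map fun l =>
      (i : ℂ) + 4 * n * aeval l (tst P n β K q c t)).prod.re =
      ((((P * derivative P).aroots ℂ).filter fun z => z.im = 0).map fun z =>
        (i : ℝ) + 4 * n * aeval z.re (tst P n β K q c t)).prod *
      ((((P * derivative P).aroots ℂ).filter fun z => 0 < z.im).map fun z =>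
        Complex.normSq ((i : ℂ) + 4 * n * aeval z (tst P n β K q c t))).prod := fun q c t i =>
    uni_conj _ (uni_aroots_conj _) _ (fun x => (i : ℝ) + 4 * n * aeval x (tst P n β K q c t))
      (fun z => by
        have h2 := aeval_algHom_apply (starRingEnd ℂ).toIntAlgHom z (tst P n β K q c t)
        simp only [RingHom.toIntAlgHom_apply] at h2
        simp [h2, map_ofNat])
      (fun x => by
        rw [← Complex.coe_algebraMap, aeval_algebraMap_apply]
        simp)
  constructor
  · rintro ⟨τ₀, hτ₀⟩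
    have hP : P ≠ 0 := by
      rintro rfl
      rw [natDegree_zero] at hn
      omega
    have hP' : derivative P ≠ 0 := fun h => by
      have := derivative_eq_zero.mp h
      omega
    have hψ : P * derivative P ≠ 0 := mul_ne_zero hP hP'
    have hR : P.map (algebraMap ℤ ℝ) ≠ 0 :=
      (Polynomial.map_ne_zero_iff (algebraMap ℤ ℝ).injective_int).mpr hP
    have hRd : (P.map (algebraMap ℤ ℝ)).natDegree = n :=
      (natDegree_map_eq_of_injective (algebraMap ℤ ℝ).injective_int P).trans hn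
    obtain ⟨q, hq, hq1, hq2⟩ := Nat.exists_prime_lt_and_le_two_mul (n * n + 2) (by omega)
    obtain ⟨c, hc, hsep⟩ := uni_hash hq hq1 ((P.aroots ℝ).toFinset.erase τ₀)
      (card_erase_le.trans ((Multiset.toFinset_card_le _).trans
        ((card_roots' _).trans hRd.le))) v (v τ₀) hv (hv τ₀) fun τ hτ => by
      obtain ⟨j, hj, h2⟩ := uni_thom_ne hR (ne_of_mem_erase hτ)
        (by
          rw [eval_map_algebraMap]
          exact (mem_aroots'.mp (Multiset.mem_toFinset.mp (mem_of_mem_erase hτ))).2)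
        (by rwa [eval_map_algebraMap])
      rw [iterate_derivative_map, eval_map_algebraMap, eval_map_algebraMap] at h2
      exact ⟨j, hRd ▸ hj, h2⟩
    have hv0 : v τ₀ 0 = 1 := uniTrit_eq_one.mpr hτ₀
    obtain ⟨t, ht, hs⟩ := uni_wt_rest (n := n) c hq.pos (v τ₀) (hv τ₀)
    rw [hv0, mul_one] at hs
    have hcard : ((P * derivative P).aroots ℂ).card < 2 * n := by
      have h2 := (card_roots' _).trans
        ((natDegree_map_le (f := algebraMap ℤ ℂ)).trans (natDegree_mul_le (p := P)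
          (q := derivative P)))
      have h3 := natDegree_derivative_le P
      rw [aroots_def]
      omega
    obtain ⟨i, hi, hne⟩ := uni_avoid _ hcard fun z => 4 * n * aeval z (tst P n β K q c t)
    refine ⟨q, by omega, c, hc, t, ht, i, hi, ?_⟩
    rw [hprod]
    refine mul_neg_of_neg_of_pos (uni_prod_neg _ _ (τ₀ : ℂ) ?_ ?_ fun z hz hz0 => ?_)
      (Multiset.prod_pos fun x hx => ?_)
    · exact (hgad (τ := τ₀) (by omega) hq.pos hi (by rw [map_mul, hτ₀, zero_mul])).1 hs
    · rw [Multiset.count_filter_of_pos (by simp)]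
      refine uni_count_odd hψ ?_
      rw [← Complex.coe_algebraMap, aeval_algebraMap_apply, hτ₀, map_zero]
    · obtain ⟨h2, h3⟩ := uni_real_root hz
      refine (hgad (by omega) hq.pos hi h3).2 fun h4 => ?_
      have h5 := uni_wt_first hq.pos ht _ (hv _) h4
      refine hsep z.re (mem_erase.mpr ⟨fun h6 => hz0 (by rw [h2, h6]),
        Multiset.mem_toFinset.mpr (mem_aroots'.mpr ⟨hR, uniTrit_eq_one.mp h5⟩)⟩) ?_
      rw [← uni_wt_cast, ← uni_wt_cast, h4, hs, h5, hv0]
    · obtain ⟨z, hz, rfl⟩ := Multiset.mem_map.mp hx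
      exact Complex.normSq_pos.mpr (hne z (Multiset.mem_filter.mp hz).1)
  · rintro ⟨q, hq, c, hc, t, ht, i, hi, h⟩
    by_contra h2
    rw [hprod] at h
    refine absurd h (not_lt.mpr (mul_nonneg (Multiset.prod_nonneg fun x hx => ?_)
      (Multiset.prod_nonneg fun x hx => ?_)))
    · obtain ⟨z, hz, rfl⟩ := Multiset.mem_map.mp hx
      have hq0 : 0 < q := by omega
      refine ((hgad hq hq0 hi (uni_real_root hz).2).2 fun h4 => h2 ⟨z.re, ?_⟩).le
      exact uniTrit_eq_one.mp (uni_wt_first hq0 ht _ (hv _) h4)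
    · obtain ⟨z, -, rfl⟩ := Multiset.mem_map.mp hx
      exact Complex.normSq_nonneg _

end Vale.Agent.P337
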