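import Vale.Agent.P337.Sign
import Vale.Agent.P337.Rho1
import Vale.Agent.P337.Uni

/-!
The existence of a real root of a univariate polynomial is in the counting hierarchy.
-/

namespace Vale.Agent.P337

open Vale.Agent.Lib.TM Finset Polynomial

variable {α : Type} [Enc α] [Dec α] {R : α → Type} [∀ a, CommRing (R a)] [∀ a, Sys (R a)]

lemma DP.asc {n k : α → ℕ} (hn : FH n) (hk : FH k) :
    DP fun a => (((n a).ascFactorial (k a) : ℕ) : R a) :=
  (DP.prod (F := fun a i => ((n a + i : ℕ) : R a)) (DP.nat (by fun_prop)) hk).of_eq fun a => by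
    rw [Nat.ascFactorial_eq_prod_range, Nat.cast_prod]

lemma DP.fact {k : α → ℕ} (hk : FH k) : DP fun a => (((k a).factorial : ℕ) : R a) :=
  (DP.asc (FH.const 1) hk).of_eq fun a => by rw [Nat.one_ascFactorial]

lemma DP.newt {D : α → ℕ} (hD : FH D) {L : ∀ a, R a} (hL : DP L) {p : ∀ a, ℕ → R a}
    (hp : DP fun s : α × ℕ => p s.1 s.2) : DP fun a => newt (D a) (L a) (p a) := by
  have h1 : DP fun a => -∑ j ∈ range (D a), C (p a (j + 1) * ((j.factorial : R a) *
      ((j + 1 + 1).ascFactorial (D a - (j + 1)) : ℕ))) * X ^ (j + 1) := by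
    refine (DP.sum (DP.mul (DP.pC (DP.mul ?_ (DP.mul ?_ ?_))) (DP.pow DP.pX ?_)) hD).neg
    · exact hp.comp (u := fun s : α × ℕ => (s.1, s.2 + 1)) (by fun_prop)
    · exact DP.fact (by fun_prop)
    · exact DP.asc (by fun_prop) (by fun_prop)
    · fun_prop
  have h2 : DP fun a => ∑ r ∈ range (D a + 1), C ((((r + 1).ascFactorial (D a - r) : ℕ) : R a) *
      (L a * ((D a).factorial : ℕ)) ^ (D a - r)) * (-∑ j ∈ range (D a), C (p a (j + 1) *
        ((j.factorial : R a) * ((j + 1 + 1).ascFactorial (D a - (j + 1)) : ℕ))) *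
          X ^ (j + 1)) ^ r := by
    refine DP.sum (DP.mul (DP.pC (DP.mul ?_ (DP.pow ?_ ?_))) (DP.pow ?_ ?_)) ?_
    · exact DP.asc (by fun_prop) (by fun_prop)
    · exact (hL.mul (DP.fact hD)).fst
    · fun_prop
    · exact h1.fst
    · fun_prop
    · fun_prop
  refine h2.of_eq fun a => sum_congr rfl fun r hr => ?_
  rw [Nat.ascFactorial_eq_div, Nat.add_sub_cancel' (Nat.lt_succ_iff.mp (mem_range.mp hr))]
  congr 3
  refine sum_congr rfl fun j hj => ?_
  have := Nat.factorial_mul_ascFactorial (j + 1) (D a - (j + 1))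
  rw [Nat.add_sub_cancel' (mem_range.mp hj), Nat.factorial_succ, mul_assoc] at this
  rw [← this, Nat.mul_div_cancel_left _ j.succ_pos, Nat.cast_mul]

lemma DP.nchi {D : α → ℕ} (hD : FH D) {L τ : ∀ a, R a} (hL : DP L) {p : ∀ a, ℕ → R a}
    (hp : DP fun s : α × ℕ => p s.1 s.2) (hτ : DP τ) :
    DP fun a => nchi (D a) (L a) (p a) (τ a) := by
  unfold P337.nchi
  refine DP.sum (DP.mul (DP.pco ?_ ?_) (DP.pow ?_ ?_)) ?_
  · exact (DP.newt hD hL hp).fst
  · fun_prop
  · exact hτ.fst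
  · fun_prop
  · fun_prop

lemma DP.rho1 {ψ φ : ∀ a, (R a)[X]} (hψ : DP ψ) (hφ : DP φ) {k B : α → ℕ} (hk : FH k) (hB : FH B) :
    DP fun a => rho1 (ψ a) (k a) (B a) (φ a) := by
  unfold P337.rho1
  refine DP.sum (DP.mul (DP.pow ?_ ?_) (DP.pco (DP.mul ?_ (DP.pow ?_ ?_)) ?_)) hB
  · exact (hψ.pco hk).fst
  · fun_prop
  · exact hφ.fst
  · exact (((hψ.pco hk).pC.mul (DP.pX.pow hk)).sub hψ).fst
  · fun_prop
  · fun_prop

lemma DP.iterDer {f : ∀ a, (R a)[X]} (h : DP f) {j : α → ℕ} (hj : FH j) :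
    DP fun a => derivative^[j a] (f a) := by
  obtain ⟨u, k1, k2⟩ := h.natDeg
  have h1 : DP fun a => ∑ m ∈ range (u a), C ((((m + 1).ascFactorial (j a) : ℕ) : R a) *
      (f a).coeff (m + j a)) * X ^ m := by
    refine DP.sum (DP.mul (DP.pC (DP.mul ?_ (DP.pco ?_ ?_))) (DP.pow DP.pX ?_)) (.ofCT k1)
    · exact DP.asc (by fun_prop) (by fun_prop)
    · exact h.fst
    · fun_prop
    · fun_prop
  refine h1.of_eq fun a => ?_
  rw [as_sum_range' (derivative^[j a] (f a)) (u a)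
    (((natDegree_iterate_derivative _ _).trans (Nat.sub_le _ _)).trans_lt (k2 a))]
  refine sum_congr rfl fun m _ => ?_
  rw [C_mul_X_pow_eq_monomial, coeff_iterate_derivative, Nat.add_descFactorial_eq_ascFactorial,
    nsmul_eq_mul]

lemma DP.der {f : ∀ a, (R a)[X]} (h : DP f) : DP fun a => derivative (f a) :=
  h.iterDer (FH.const 1)

lemma DP.cp {ψ G : α → ℤ[X]} (hψ : DP ψ) (hG : DP G) {k B : α → ℕ} (hk : FH k) (hB : FH B)
    {τ : ∀ a, R a} (hτ : DP τ) : DP fun a => cp (ψ a) (G a) (k a) (B a) (τ a) :=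
  DP.nchi hk ((hψ.pco hk).pow (by fun_prop)).int
    (hψ.fst.rho1 ((hG.fst.pow (by fun_prop)).mul hψ.der.fst) (by fun_prop) (by fun_prop)).int hτ

lemma DP.two : DP fun a => (2 : R a) := (DP.nat (FH.const 2)).of_eq fun _ => Nat.cast_ofNat

lemma DP.four : DP fun a => (4 : R a) := (DP.nat (FH.const 4)).of_eq fun _ => Nat.cast_ofNat

lemma DP.piP {β K : α → ℕ} (hβ : FH β) (hK : FH K) {g : ∀ a, R a} (hg : DP g) :
    DP fun a => piP (β a) (K a) (g a) :=
  DP.prod (F := fun a l => (2 ^ β a * g a + 2 ^ l) ^ K a)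
    ((((DP.two.pow hβ).mul hg).fst.add (DP.two.pow (by fun_prop))).pow (by fun_prop)) (by fun_prop)

lemma DP.gad {n β K t : α → ℕ} (hn : FH n) (hβ : FH β) (hK : FH K) (ht : FH t)
    {G : ∀ a, ℕ → R a} (hG : DP fun s : α × ℕ => G s.1 s.2) {w : α → ℕ → ℕ}
    (hw : FH fun s : α × ℕ => w s.1 s.2) : DP fun a => gad (n a) (β a) (K a) (G a) (w a) (t a) := by
  have h1 : DP fun s : α × ℕ => P337.piP (β s.1) (K s.1) (G s.1 s.2) :=
    DP.piP (by fun_prop) (by fun_prop) hG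
  have h2 : DP fun s : α × ℕ =>
      P337.piP (β s.1) (K s.1) (G s.1 s.2) + P337.piP (β s.1) (K s.1) (-G s.1 s.2) :=
    h1.add (DP.piP (by fun_prop) (by fun_prop) hG.neg)
  have h3 := DP.prod (F := fun a i =>
    P337.piP (β a) (K a) (G a i) + P337.piP (β a) (K a) (-G a i)) h2 (N := fun a => n a + 1)
    (by fun_prop)
  have h4 : DP fun s : α × ℕ => ∏ i ∈ range (n s.1 + 1), (if i = s.2 then
      2 * (w s.1 s.2 : R s.1) * P337.piP (β s.1) (K s.1) (G s.1 i) else
      P337.piP (β s.1) (K s.1) (G s.1 i) + P337.piP (β s.1) (K s.1) (-G s.1 i)) := by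
    refine DP.prod (F := fun (s : α × ℕ) i => (if i = s.2 then
      2 * (w s.1 s.2 : R s.1) * P337.piP (β s.1) (K s.1) (G s.1 i) else
      P337.piP (β s.1) (K s.1) (G s.1 i) + P337.piP (β s.1) (K s.1) (-G s.1 i)))
      (DP.ite (CH.eq ?_ ?_) (DP.mul ?_ ?_) ?_) ?_
    · fun_prop
    · fun_prop
    · exact DP.two.mul (DP.nat (hw.comp (g := Prod.fst) (by fun_prop)))
    · exact h1.comp (u := fun s : (α × ℕ) × ℕ => (s.1.1, s.2)) (by fun_prop)
    · exact h2.comp (u := fun s : (α × ℕ) × ℕ => (s.1.1, s.2)) (by fun_prop)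
    · fun_prop
  exact (DP.four.mul (((DP.sum h4 (by fun_prop)).sub ((DP.nat ht).mul h3)).pow
    (FH.const 2))).sub (h3.pow (FH.const 2))

lemma DP.tst {P : α → ℤ[X]} (hP : DP P) {n β K q c t : α → ℕ} (hn : FH n) (hβ : FH β) (hK : FH K)
    (hq : FH q) (hc : FH c) (ht : FH t) :
    DP fun a => if 0 < q a then tst (P a) (n a) (β a) (K a) (q a) (c a) (t a) else 0 := by
  refine (DP.ite (CH.lt (FH.const 0) hq) (DP.gad hn hβ hK
    (t := fun a => 2 * (n a + 1) * q a + t a) (by fun_prop) (G := fun a j => derivative^[j] (P a))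
    (hP.fst.iterDer (by fun_prop)) (w := fun a j => if j = 0 then 2 * (n a + 1) * q a else pm (c a) j (q a))
    (FH.ite (CH.eq (by fun_prop) (by fun_prop)) (by fun_prop) (by fun_prop))) DP.zero).of_eq
    fun a => if_ctx_congr Iff.rfl (fun h => ?_) fun _ => rfl
  simp only [pm_eq h]
  rfl

lemma psi_spec {P : ℤ[X]} (h : 1 ≤ P.natDegree) :
    (P * derivative P).natDegree = 2 * P.natDegree - 1 ∧
      0 < (P * derivative P).coeff (2 * P.natDegree - 1) := by
  have h0 : P ≠ 0 := fun h' => by simp [h'] at h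
  have h1 : derivative P ≠ 0 := fun h' => by
    have := derivative_eq_zero.mp h'; omega
  have h2 : (P * derivative P).natDegree = 2 * P.natDegree - 1 := by
    rw [natDegree_mul h0 h1, natDegree_derivative]; omega
  refine ⟨h2, ?_⟩
  rw [← h2, coeff_natDegree, leadingCoeff_mul, leadingCoeff_derivative, ← mul_assoc]
  exact mul_pos (mul_self_pos.mpr (leadingCoeff_ne_zero.mpr h0)) (by exact_mod_cast h)

theorem CH.realRoot {P : α → ℤ[X]} (h : DP P) :
    CH fun a => P a ≠ 0 ∧ ∃ τ : ℝ, aeval τ (P a) = 0 := by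
  have hn : FH fun a => (P a).natDegree := h.fhDeg DP.eq0
  generalize hn' : (fun a => (P a).natDegree) = n at hn
  replace hn' : ∀ a, (P a).natDegree = n a := congrFun hn'
  have hψ := h.mul h.der
  have h1 : DP fun s : α × ℕ => cp (P s.1 * derivative (P s.1)) (derivative^[s.2] (P s.1))
      (2 * n s.1 - 1) ((2 * n s.1 - 1) * n s.1 + 2) (X : ℤ[X]) :=
    DP.cp hψ.fst (h.fst.iterDer (by fun_prop)) (by fun_prop) (by fun_prop) DP.pX
  obtain ⟨u, k1, k2⟩ := h1.bound
  obtain ⟨β, l1, l2⟩ := (EB.ofCT k1).sup (N := fun a => n a + 1) (hn.add (FH.const 1)).eb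
  let K : α → ℕ := fun a => 96 * (n a + 1) * (n a * n a + 3)
  let Q : ((α × ℕ) × ℕ) × ℕ → ℤ[X] := fun s => -(4 * (n s.1.1.1 : ℤ[X]) * if 0 < s.1.1.2 then
    tst (P s.1.1.1) (n s.1.1.1) (β s.1.1.1) (K s.1.1.1) s.1.1.2 s.1.2 s.2 else 0)
  have hQ : DP Q := ((DP.four.mul (DP.nat (by fun_prop))).mul (DP.tst h.fst.fst.fst (by fun_prop)
    (by fun_prop) (by fun_prop) (by fun_prop) (by fun_prop) (by fun_prop))).neg
  obtain ⟨v, m1, m2⟩ := hQ.natDeg
  let z : (((α × ℕ) × ℕ) × ℕ) × ℕ → ℤ := fun s =>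
    cp (P s.1.1.1.1 * derivative (P s.1.1.1.1)) (Q s.1) (2 * n s.1.1.1.1 - 1)
      ((2 * n s.1.1.1.1 - 1) * v s.1 + 2) (s.2 : ℤ)
  have hz : DP z := DP.cp hψ.fst.fst.fst.fst hQ.fst (by fun_prop) (by fun_prop)
    (DP.nat (by fun_prop))
  refine ((CH.le (FH.const 1) hn).and (CH.ex (CH.ex (CH.ex (CH.ex hz.neg'
    (N := fun s => 2 * n s.1.1.1) (by fun_prop))
    (N := fun s => 2 * (n s.1.1 + 1) * s.1.2) (by fun_prop)) (N := fun s => s.2) (by fun_prop))
    (N := fun a => 2 * (n a * n a + 3)) (by fun_prop))).of_iff fun a => ?_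
  by_cases ha : 1 ≤ n a
  swap
  · refine iff_of_false (fun h => ha h.1) fun ⟨h0, τ, hτ⟩ => h0 ?_
    rw [eq_C_of_natDegree_eq_zero (show (P a).natDegree = 0 by rw [hn']; omega)] at hτ ⊢
    simpa using hτ
  obtain ⟨e1, e2⟩ := psi_spec (hn' a ▸ ha)
  rw [hn'] at e1 e2
  have h0 : P a ≠ 0 := fun h' => by rw [← hn', h'] at ha; simp at ha
  have hκ : ∀ B : ℕ, ∃ κ : ℝ, 0 < κ ∧ ((2 * n a - 1).factorial * (((P a * derivative (P a)).coeff
      (2 * n a - 1) : ℂ) ^ (B + 1) * (2 * n a - 1).factorial) ^ (2 * n a - 1) : ℂ) = κ :=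
    fun B => ⟨(2 * n a - 1).factorial * (((P a * derivative (P a)).coeff
      (2 * n a - 1) : ℝ) ^ (B + 1) * (2 * n a - 1).factorial) ^ (2 * n a - 1), by positivity,
      by push_cast; rfl⟩
  rw [and_iff_right ha, and_iff_right h0, realRoot_iff (P a) (β := β a) (K := K a) (hn' a) ha
    ⟨48 * (n a + 1) * (n a * n a + 3), by simp only [K]; ring⟩ Nat.lt_two_pow_self.le ?_]
  · refine exists_congr fun q => and_congr_right fun _ => exists_congr fun c =>
      and_congr_right fun hc => exists_congr fun t => and_congr_right fun _ =>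
      exists_congr fun i => and_congr_right fun _ => ?_
    have h2 := cp_eq (Int.castRingHom ℂ) _ (Q (((a, q), c), t)) e1 (by omega)
      (B := (2 * n a - 1) * v (((a, q), c), t) + 2)
      (Nat.add_le_add_right (Nat.mul_le_mul_left _ (m2 _).le) 2) (i : ℤ)
    obtain ⟨κ, h3, h4⟩ := hκ ((2 * n a - 1) * v (((a, q), c), t) + 2)
    rw [h4] at h2
    have h5 := congrArg Complex.re h2
    simp only [Q, if_pos (show 0 < q by omega), eq_intCast, Complex.intCast_re, map_neg, map_mul,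
      sub_neg_eq_add, map_natCast, map_ofNat, Complex.re_ofReal_mul] at h5
    rw [← Int.cast_lt (R := ℝ), Int.cast_zero]
    simp only [z, Q, if_pos (show 0 < q by omega)]
    rw [h5]
    exact ⟨fun h => neg_of_mul_neg_right h h3.le, mul_neg_of_pos_of_neg h3⟩
  · intro τ hτ j hj
    refine or_iff_not_imp_left.mpr fun hg => ?_
    obtain ⟨κ, h3, h4⟩ := hκ ((2 * n a - 1) * n a + 2)
    have h5 := fun y : ℂ => cp_eq (aeval y : ℤ[X] →ₐ[ℤ] ℂ).toRingHom _ (derivative^[j] (P a)) e1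
      (by omega) (B := (2 * n a - 1) * n a + 2) (Nat.add_le_add_right (Nat.mul_le_mul_left _
        ((natDegree_iterate_derivative _ _).trans ((Nat.sub_le _ _).trans (hn' a).le))) 2) X
    simp only [h4, AlgHom.toRingHom_eq_coe, RingHom.coe_coe, aeval_X] at h5
    have h6 : ∀ f : ℤ[X], aeval (τ : ℂ) f = ((aeval τ f : ℝ) : ℂ) := fun f =>
      aeval_algHom_apply Complex.ofRealAm.toRingHom.toIntAlgHom τ f
    have := root_bound _ (fun h => ?_) (β := β a) (fun i => ((nrm_coeff _ i).trans_lt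
      (k2 (a, j))).trans (Nat.pow_lt_pow_right one_lt_two (l2 a j (by omega))))
      (g := (aeval τ (derivative^[j] (P a)) : ℝ)) ?_ (by exact_mod_cast hg)
    · simpa using this
    · obtain ⟨y, hy⟩ := Infinite.exists_notMem_finset (((P a * derivative (P a)).aroots ℂ).map
        fun l => aeval l (derivative^[j] (P a))).toFinset
      have h7 := h5 y
      rw [h, map_zero, eq_comm, mul_eq_zero, Multiset.prod_eq_zero_iff] at h7
      rcases h7 with h7 | h7
      · exact h3.ne' (by exact_mod_cast h7)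
      · obtain ⟨l, h8, h9⟩ := Multiset.mem_map.mp h7
        exact hy (Multiset.mem_toFinset.mpr (Multiset.mem_map.mpr ⟨l, h8, (sub_eq_zero.mp h9).symm⟩))
    · rw [h5, Multiset.prod_eq_zero, mul_zero]
      refine Multiset.mem_map.mpr ⟨τ, mem_aroots.mpr ⟨fun h => ?_, ?_⟩, ?_⟩
      · simp [h] at e2
      · rw [h6, hτ, Complex.ofReal_zero]
      · rw [h6, sub_self]

end Vale.Agent.P337
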