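import Vale.Agent.P337.Alg

/-!
The sign gadget over the reals.
-/

namespace Vale.Agent.P337

open Finset

/-- The sign of a real number, shifted to take the values zero, one, two. -/
noncomputable def uniTrit (g : ℝ) : ℕ := if g < 0 then 0 else if g = 0 then 1 else 2

theorem uniTrit_le (g : ℝ) : uniTrit g ≤ 2 := by
  unfold uniTrit
  split_ifs <;> omega

theorem uniTrit_eq_one {g : ℝ} : uniTrit g = 1 ↔ g = 0 := by
  unfold uniTrit
  split_ifs with h1 h2
  · simp [h1.ne]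
  · simp [h2]
  · simp [h2]

theorem uniTrit_eq_zero {g : ℝ} : uniTrit g = 0 ↔ g < 0 := by
  unfold uniTrit
  split_ifs with h1 h2 <;> simp [h1]

theorem uniTrit_mono : Monotone uniTrit := by
  intro a b hab
  unfold uniTrit
  split_ifs with h1 h2 h3 h4 h5 h6 h7 h8 <;> first | omega | (exfalso; linarith) | skip
  exact absurd (le_antisymm (h8 ▸ hab) (not_lt.mp h1)) h4

theorem uni_even_le {K : ℕ} (hK : Even K) {x y : ℝ} (h : |x| ≤ y) : x ^ K ≤ y ^ K := by
  rw [← hK.pow_abs]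
  exact pow_le_pow_left₀ (abs_nonneg _) h K

theorem uni_piP_nonneg (β : ℕ) {K : ℕ} (hK : Even K) (g : ℝ) : 0 ≤ piP β K g :=
  prod_nonneg fun _ _ => hK.pow_nonneg _

theorem uni_piP_one_le (β K : ℕ) {g : ℝ} (hg : 0 ≤ g) : 1 ≤ piP β K g := by
  refine one_le_prod fun l _ => one_le_pow₀ ?_
  have h1 : (1 : ℝ) ≤ 2 ^ l := one_le_pow₀ one_le_two
  have h2 : 0 ≤ 2 ^ β * g := by positivity
  linarith

theorem uni_piP_small {β K : ℕ} (hK : Even K) {g : ℝ} (h1 : 1 / 2 ^ β ≤ g) (h2 : g ≤ 2 ^ β) :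
    2 ^ K * piP β K (-g) ≤ piP β K g := by
  have hp : (0 : ℝ) < 2 ^ β := by positivity
  have h3 : 1 ≤ 2 ^ β * g := by rwa [div_le_iff₀' hp] at h1
  have h4 : 2 ^ β * g ≤ 2 ^ (2 * β) := by
    rw [two_mul, pow_add]
    exact mul_le_mul_of_nonneg_left h2 hp.le
  obtain ⟨l, hl1, hl2⟩ := exists_nat_pow_near h3 one_lt_two
  have hl : l ∈ range (2 * β + 1) :=
    mem_range.mpr (Nat.lt_succ_of_le ((pow_le_pow_iff_right₀ one_lt_two).mp (hl1.trans h4)))
  rw [piP, piP, ← mul_prod_erase _ _ hl, ← mul_prod_erase _ _ hl, ← mul_assoc, ← mul_pow]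
  refine mul_le_mul (uni_even_le hK ?_) (prod_le_prod (fun _ _ => hK.pow_nonneg _) fun i _ =>
    uni_even_le hK ?_) (prod_nonneg fun _ _ => hK.pow_nonneg _) (hK.pow_nonneg _)
  · rw [pow_succ] at hl2
    have : (0 : ℝ) < 2 ^ l := by positivity
    rw [abs_le]
    constructor <;> linarith
  · have : (0 : ℝ) < 2 ^ i := by positivity
    rw [abs_le]
    constructor <;> linarith

theorem uni_ratio {β K : ℕ} (hK : Even K) {g : ℝ}
    (hg : g = 0 ∨ (1 / 2 ^ β ≤ |g| ∧ |g| ≤ 2 ^ β)) :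
    1 ≤ piP β K g + piP β K (-g) ∧
      |2 * piP β K g / (piP β K g + piP β K (-g)) - uniTrit g| ≤ 2 / 2 ^ K := by
  have ha := uni_piP_nonneg β hK g
  have hb := uni_piP_nonneg β hK (-g)
  have hp : (0 : ℝ) < 2 ^ K := by positivity
  rcases lt_trichotomy g 0 with h | h | h
  · have h1 := uni_piP_one_le β K (neg_nonneg.mpr h.le)
    rw [abs_of_neg h] at hg
    have h2 := uni_piP_small hK (hg.resolve_left h.ne).1 (hg.resolve_left h.ne).2
    rw [neg_neg] at h2
    refine ⟨by linarith, ?_⟩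
    rw [uniTrit_eq_zero.mpr h, Nat.cast_zero, sub_zero, abs_of_nonneg (by positivity),
      div_le_div_iff₀ (by linarith) hp]
    nlinarith
  · subst h
    have h1 := uni_piP_one_le β K (le_refl (0 : ℝ))
    rw [neg_zero]
    refine ⟨by linarith, ?_⟩
    rw [uniTrit_eq_one.mpr rfl, ← two_mul, div_self (by positivity)]
    simp only [Nat.cast_one, sub_self, abs_zero]
    positivity
  · have h1 := uni_piP_one_le β K h.le
    rw [abs_of_pos h] at hg
    have h2 := uni_piP_small hK (hg.resolve_left h.ne').1 (hg.resolve_left h.ne').2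
    refine ⟨by linarith, ?_⟩
    have h3 : uniTrit g = 2 := by simp [uniTrit, h.ne', not_lt.mpr h.le]
    have h4 : 2 * piP β K g / (piP β K g + piP β K (-g)) - ((2 : ℕ) : ℝ) =
        -(2 * piP β K (-g) / (piP β K g + piP β K (-g))) := by
      field_simp
      push_cast
      ring
    rw [h3, h4, abs_neg, abs_of_nonneg (by positivity), div_le_div_iff₀ (by linarith) hp]
    nlinarith

theorem uni_gad {n β K : ℕ} (hK : Even K) (G : ℕ → ℝ)
    (hG : ∀ j ≤ n, G j = 0 ∨ (1 / 2 ^ β ≤ |G j| ∧ |G j| ≤ 2 ^ β)) (w : ℕ → ℕ)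
    (hw : 16 * ∑ j ∈ range (n + 1), w j ≤ 2 ^ K) (t : ℕ) :
    (∑ j ∈ range (n + 1), w j * uniTrit (G j) = t → gad n β K G w t ≤ -1 / 2) ∧
    (∑ j ∈ range (n + 1), w j * uniTrit (G j) ≠ t → 0 < gad n β K G w t) := by
  classical
  have hr := fun j (hj : j ∈ range (n + 1)) => uni_ratio hK (hG j (mem_range_succ_iff.mp hj))
  set V := ∏ i ∈ range (n + 1), (piP β K (G i) + piP β K (-G i)) with hV
  set T := ∑ j ∈ range (n + 1),
    (w j : ℝ) * (2 * piP β K (G j) / (piP β K (G j) + piP β K (-G j))) with hT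
  have hV1 : 1 ≤ V := one_le_prod fun j hj => (hr j hj).1
  have h1 : ∑ j ∈ range (n + 1), ∏ i ∈ range (n + 1),
      (if i = j then 2 * (w j : ℝ) * piP β K (G i) else piP β K (G i) + piP β K (-G i)) =
      T * V := by
    rw [hT, sum_mul]
    refine sum_congr rfl fun j hj => ?_
    have h2 := (hr j hj).1
    rw [hV, ← mul_prod_erase _ _ hj, ← mul_prod_erase _ _ hj, if_pos rfl,
      prod_congr rfl fun i hi => if_neg (ne_of_mem_erase hi)]
    field_simp
  have h3 : gad n β K G w t = V ^ 2 * (4 * (T - t) ^ 2 - 1) := by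
    rw [gad, h1, ← hV]
    ring
  have hp : (0 : ℝ) < 2 ^ K := by positivity
  have h4 : |T - (∑ j ∈ range (n + 1), w j * uniTrit (G j) : ℕ)| ≤ 1 / 8 := by
    rw [hT, Nat.cast_sum, ← sum_sub_distrib]
    refine (abs_sum_le_sum_abs _ _).trans ?_
    have h5 : ∀ j ∈ range (n + 1),
        |(w j : ℝ) * (2 * piP β K (G j) / (piP β K (G j) + piP β K (-G j))) -
          (w j * uniTrit (G j) : ℕ)| ≤ (w j : ℝ) * (2 / 2 ^ K) := fun j hj => by
      rw [Nat.cast_mul, ← mul_sub, abs_mul, Nat.abs_cast]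
      exact mul_le_mul_of_nonneg_left (hr j hj).2 (Nat.cast_nonneg _)
    refine (sum_le_sum h5).trans ?_
    have h6 : (16 : ℝ) * ∑ j ∈ range (n + 1), (w j : ℝ) ≤ 2 ^ K := by exact_mod_cast hw
    rw [← sum_mul, ← mul_div_assoc, div_le_iff₀ hp]
    linarith
  have hV2 : 1 ≤ V ^ 2 := one_le_pow₀ hV1
  rw [h3]
  constructor
  · intro hs
    rw [hs, abs_le] at h4
    have h7 : 4 * (T - t) ^ 2 - 1 ≤ -1 / 2 := by nlinarith
    nlinarith
  · intro hs
    refine mul_pos (by linarith) ?_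
    rw [abs_le] at h4
    rcases lt_or_gt_of_ne hs with h | h
    · have h8 : ((∑ j ∈ range (n + 1), w j * uniTrit (G j) : ℕ) : ℝ) + 1 ≤ t := by
        exact_mod_cast h
      nlinarith
    · have h8 : (t : ℝ) + 1 ≤ (∑ j ∈ range (n + 1), w j * uniTrit (G j) : ℕ) := by
        exact_mod_cast h
      nlinarith

end Vale.Agent.P337
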